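import Mathlib

/-!
P321, superpolynomial lower bound: the algebra of finitely supported real measures on a monoid.
-/

namespace Vale.Agent.P321.SP

open Finset

/-- Finitely supported real measures on `G`, with convolution as product. -/
abbrev Al (G : Type) := MonoidAlgebra ℝ G

/-- `x` is a nonnegative measure. -/
def Nn {G : Type} (x : Al G) : Prop := ∀ g, 0 ≤ x.coeff g

section basic

variable {G : Type} [Monoid G]

/-- Total mass. -/
noncomputable def mass : Al G →ₐ[ℝ] ℝ := MonoidAlgebra.lift ℝ ℝ G 1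

theorem mass_eq (x : Al G) : mass x = ∑ g ∈ x.coeff.support, x.coeff g := by
  unfold mass
  rw [MonoidAlgebra.lift_apply]
  simp [Finsupp.sum]

theorem mass_single (g : G) (a : ℝ) : mass (MonoidAlgebra.single g a) = a := by
  unfold mass; simp

theorem Nn.zero : Nn (0 : Al G) := fun g => by simp
theorem Nn.single (g : G) {a : ℝ} (ha : 0 ≤ a) : Nn (MonoidAlgebra.single g a) := fun h => by
  classical
  simp only [MonoidAlgebra.coeff_single, Finsupp.single_apply]
  split_ifs <;> simp [ha]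
theorem Nn.one : Nn (1 : Al G) := Nn.single 1 zero_le_one
theorem Nn.add {x y : Al G} (hx : Nn x) (hy : Nn y) : Nn (x + y) := fun g => by
  simpa using add_nonneg (hx g) (hy g)
theorem Nn.smul {c : ℝ} (hc : 0 ≤ c) {x : Al G} (hx : Nn x) : Nn (c • x) := fun g => by
  simpa using mul_nonneg hc (hx g)
theorem Nn.sum {ι : Type*} (s : Finset ι) {f : ι → Al G} (h : ∀ i ∈ s, Nn (f i)) :
    Nn (∑ i ∈ s, f i) := by
  classical
  induction s using Finset.induction_on with
  | empty => simpa using Nn.zero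
  | insert a s ha ih =>
    rw [Finset.sum_insert ha]
    exact (h a (mem_insert_self a s)).add (ih fun i hi => h i (mem_insert_of_mem hi))
theorem Nn.mul {x y : Al G} (hx : Nn x) (hy : Nn y) : Nn (x * y) := fun g => by
  classical
  rw [MonoidAlgebra.coeff_mul]
  refine Finset.sum_nonneg fun a _ => Finset.sum_nonneg fun b _ => ?_
  dsimp only
  split_ifs
  · exact mul_nonneg (hx a) (hy b)
  · exact le_rfl
theorem Nn.pow {x : Al G} (hx : Nn x) (n : ℕ) : Nn (x ^ n) := by
  induction n with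
  | zero => simpa using Nn.one
  | succ n ih => rw [pow_succ]; exact ih.mul hx
theorem Nn.mass_nonneg {x : Al G} (hx : Nn x) : 0 ≤ mass x := by
  rw [mass_eq]; exact Finset.sum_nonneg fun g _ => hx g

theorem Nn.of_sub {x y : Al G} (hx : Nn x) (h : Nn (y - x)) : Nn y := by
  have := hx.add h
  simpa using this

theorem Nn.mass_le {x y : Al G} (h : Nn (y - x)) : mass x ≤ mass y := by
  have := h.mass_nonneg
  rw [map_sub] at this
  linarith

theorem Nn.le_trans {x y z : Al G} (h : Nn (y - x)) (h' : Nn (z - y)) : Nn (z - x) := by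
  have := h.add h'
  convert this using 1
  abel

theorem Nn.mul_sub {x x' y y' : Al G} (hx : Nn x) (hy : Nn y) (h : Nn (x' - x))
    (h' : Nn (y' - y)) : Nn (x' * y' - x * y) := by
  have hy' : Nn y' := hy.of_sub h'
  have := (h.mul hy').add (hx.mul h')
  convert this using 1
  noncomm_ring

/-- `|x| ≤ a` as measures. -/
def Ab (x a : Al G) : Prop := Nn (a - x) ∧ Nn (a + x)

theorem Ab.nn {x a : Al G} (h : Ab x a) : Nn a := fun g => by
  have h1 := h.1 g
  have h2 := h.2 g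
  simp only [MonoidAlgebra.coeff_sub, MonoidAlgebra.coeff_add, Finsupp.coe_sub, Finsupp.coe_add,
    Pi.sub_apply, Pi.add_apply] at h1 h2
  linarith

theorem Ab.iff {x a : Al G} : Ab x a ↔ ∀ g, |x.coeff g| ≤ a.coeff g := by
  constructor
  · intro h g
    have h1 := h.1 g
    have h2 := h.2 g
    simp only [MonoidAlgebra.coeff_sub, MonoidAlgebra.coeff_add, Finsupp.coe_sub, Finsupp.coe_add,
      Pi.sub_apply, Pi.add_apply] at h1 h2
    rw [abs_le]; constructor <;> linarith
  · intro h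
    constructor
    · intro g
      have := (abs_le.mp (h g)).2
      simp only [MonoidAlgebra.coeff_sub, Finsupp.coe_sub, Pi.sub_apply]; linarith
    · intro g
      have := (abs_le.mp (h g)).1
      simp only [MonoidAlgebra.coeff_add, Finsupp.coe_add, Pi.add_apply]; linarith

theorem Ab.zero : Ab (0 : Al G) 0 := ⟨by simpa using Nn.zero, by simpa using Nn.zero⟩

theorem Ab.of_nn {x : Al G} (h : Nn x) : Ab x x :=
  ⟨by simpa using Nn.zero, h.add h⟩

theorem Ab.neg {x a : Al G} (h : Ab x a) : Ab (-x) a :=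
  ⟨by simpa using h.2, by simpa [sub_eq_add_neg] using h.1⟩

theorem Ab.add {x y a b : Al G} (h : Ab x a) (h' : Ab y b) : Ab (x + y) (a + b) := by
  refine ⟨?_, ?_⟩
  · have := h.1.add h'.1
    convert this using 1; abel
  · have := h.2.add h'.2
    convert this using 1; abel

theorem Ab.sub {x y a b : Al G} (h : Ab x a) (h' : Ab y b) : Ab (x - y) (a + b) := by
  rw [sub_eq_add_neg]; exact h.add h'.neg

theorem Ab.smul {x a : Al G} (h : Ab x a) (c : ℝ) : Ab (c • x) (|c| • a) := by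
  rcases le_total 0 c with hc | hc
  · rw [abs_of_nonneg hc]
    exact ⟨by rw [← smul_sub]; exact h.1.smul hc, by rw [← smul_add]; exact h.2.smul hc⟩
  · rw [abs_of_nonpos hc]
    have hc' : 0 ≤ -c := by linarith
    refine ⟨?_, ?_⟩
    · have := h.2.smul hc'
      convert this using 1; module
    · have := h.1.smul hc'
      convert this using 1; module

theorem Ab.mul {x y a b : Al G} (h : Ab x a) (h' : Ab y b) : Ab (x * y) (a * b) := by
  have e1 : a * b - x * y = (1 / 2 : ℝ) • ((a - x) * (b + y) + (a + x) * (b - y)) := by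
    have : (a - x) * (b + y) + (a + x) * (b - y) = (2 : ℝ) • (a * b - x * y) := by
      rw [two_smul]; noncomm_ring
    rw [this, smul_smul]; norm_num
  have e2 : a * b + x * y = (1 / 2 : ℝ) • ((a - x) * (b - y) + (a + x) * (b + y)) := by
    have : (a - x) * (b - y) + (a + x) * (b + y) = (2 : ℝ) • (a * b + x * y) := by
      rw [two_smul]; noncomm_ring
    rw [this, smul_smul]; norm_num
  exact ⟨by rw [e1]; exact ((h.1.mul h'.2).add (h.2.mul h'.1)).smul (by norm_num),
    by rw [e2]; exact ((h.1.mul h'.1).add (h.2.mul h'.2)).smul (by norm_num)⟩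

theorem Ab.mono {x a b : Al G} (h : Ab x a) (hab : Nn (b - a)) : Ab x b := by
  refine ⟨?_, ?_⟩
  · have := h.1.add hab
    convert this using 1; abel
  · have := h.2.add hab
    convert this using 1; abel

theorem Ab.sum {ι : Type*} (s : Finset ι) {f a : ι → Al G} (h : ∀ i ∈ s, Ab (f i) (a i)) :
    Ab (∑ i ∈ s, f i) (∑ i ∈ s, a i) := by
  classical
  induction s using Finset.induction_on with
  | empty => simpa using Ab.zero
  | insert a s ha ih =>
    rw [Finset.sum_insert ha, Finset.sum_insert ha]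
    exact (h a (mem_insert_self a s)).add (ih fun i hi => h i (mem_insert_of_mem hi))

theorem Ab.abs_mass {x a : Al G} (h : Ab x a) : |mass x| ≤ mass a := by
  have h1 := h.1.mass_nonneg
  have h2 := h.2.mass_nonneg
  rw [map_sub] at h1
  rw [map_add] at h2
  rw [abs_le]; constructor <;> linarith

/-- Pointwise absolute value. -/
noncomputable def ab (x : Al G) : Al G :=
  MonoidAlgebra.ofCoeff (x.coeff.mapRange (fun t => |t|) abs_zero)

theorem coeff_ab (x : Al G) (g : G) : (ab x).coeff g = |x.coeff g| := by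
  simp [ab]

theorem Ab.self (x : Al G) : Ab x (ab x) := by
  rw [Ab.iff]; intro g; rw [coeff_ab]

theorem ab_le {x a : Al G} (h : Ab x a) : Nn (a - ab x) := fun g => by
  have := (Ab.iff.mp h) g
  simp only [MonoidAlgebra.coeff_sub, Finsupp.coe_sub, Pi.sub_apply, coeff_ab]; linarith

/-- The total variation norm of `x` is at most `b`. -/
def Nrm (x : Al G) (b : ℝ) : Prop := ∃ a, Ab x a ∧ mass a ≤ b

theorem Nrm.zero : Nrm (0 : Al G) 0 := ⟨0, Ab.zero, by simp⟩

theorem Nrm.nonneg {x : Al G} {b : ℝ} (h : Nrm x b) : 0 ≤ b := by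
  obtain ⟨a, ha, hb⟩ := h
  exact ha.nn.mass_nonneg.trans hb

theorem Nrm.mono {x : Al G} {b b' : ℝ} (h : Nrm x b) (hb : b ≤ b') : Nrm x b' := by
  obtain ⟨a, ha, h1⟩ := h
  exact ⟨a, ha, h1.trans hb⟩

theorem Nrm.neg {x : Al G} {b : ℝ} (h : Nrm x b) : Nrm (-x) b := by
  obtain ⟨a, ha, h1⟩ := h
  exact ⟨a, ha.neg, h1⟩

theorem Nrm.add {x y : Al G} {b c : ℝ} (h : Nrm x b) (h' : Nrm y c) : Nrm (x + y) (b + c) := by
  obtain ⟨a, ha, h1⟩ := h
  obtain ⟨a', ha', h1'⟩ := h'
  exact ⟨a + a', ha.add ha', by rw [map_add]; linarith⟩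

theorem Nrm.sub {x y : Al G} {b c : ℝ} (h : Nrm x b) (h' : Nrm y c) : Nrm (x - y) (b + c) := by
  rw [sub_eq_add_neg]; exact h.add h'.neg

theorem Nrm.sub_comm {x y : Al G} {b : ℝ} (h : Nrm (x - y) b) : Nrm (y - x) b := by
  have := h.neg
  rwa [neg_sub] at this

theorem Nrm.smul {x : Al G} {b : ℝ} (h : Nrm x b) (c : ℝ) : Nrm (c • x) (|c| * b) := by
  obtain ⟨a, ha, h1⟩ := h
  exact ⟨|c| • a, ha.smul c, by
    rw [map_smul, smul_eq_mul]; exact mul_le_mul_of_nonneg_left h1 (abs_nonneg c)⟩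

theorem Nrm.mul {x y : Al G} {b c : ℝ} (h : Nrm x b) (h' : Nrm y c) : Nrm (x * y) (b * c) := by
  have hb := h.nonneg
  obtain ⟨a, ha, h1⟩ := h
  obtain ⟨a', ha', h1'⟩ := h'
  exact ⟨a * a', ha.mul ha', by
    rw [map_mul]; exact mul_le_mul h1 h1' ha'.nn.mass_nonneg hb⟩

theorem Nrm.sum {ι : Type*} (s : Finset ι) {f : ι → Al G} {b : ι → ℝ}
    (h : ∀ i ∈ s, Nrm (f i) (b i)) : Nrm (∑ i ∈ s, f i) (∑ i ∈ s, b i) := by
  classical
  induction s using Finset.induction_on with
  | empty => simpa using Nrm.zero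
  | insert a s ha ih =>
    rw [Finset.sum_insert ha, Finset.sum_insert ha]
    exact (h a (mem_insert_self a s)).add (ih fun i hi => h i (mem_insert_of_mem hi))

theorem Nrm.abs_mass {x : Al G} {b : ℝ} (h : Nrm x b) : |mass x| ≤ b := by
  obtain ⟨a, ha, h1⟩ := h
  exact ha.abs_mass.trans h1

theorem Nrm.of_nn {x : Al G} (h : Nn x) : Nrm x (mass x) := ⟨x, Ab.of_nn h, le_rfl⟩

theorem Nrm.mass_ab {x : Al G} {b : ℝ} (h : Nrm x b) : mass (ab x) ≤ b := by
  obtain ⟨a, ha, h1⟩ := h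
  exact (Nn.mass_le (ab_le ha)).trans h1

/-- Probability measures. -/
def Prob (P : Al G) : Prop := Nn P ∧ mass P = 1

theorem Prob.one : Prob (1 : Al G) := ⟨Nn.one, by simp⟩
theorem Prob.mul {P Q : Al G} (hP : Prob P) (hQ : Prob Q) : Prob (P * Q) :=
  ⟨hP.1.mul hQ.1, by rw [map_mul, hP.2, hQ.2, one_mul]⟩
theorem Prob.pow {P : Al G} (hP : Prob P) (n : ℕ) : Prob (P ^ n) :=
  ⟨hP.1.pow n, by rw [map_pow, hP.2, one_pow]⟩
theorem Prob.single (g : G) : Prob (MonoidAlgebra.single g (1 : ℝ)) :=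
  ⟨Nn.single g zero_le_one, mass_single g 1⟩
theorem Prob.nrm {P : Al G} (hP : Prob P) : Nrm P 1 := by
  have := Nrm.of_nn hP.1
  rwa [hP.2] at this

/-- `|x| ≤ ε P + ω` for some nonnegative measure `ω` of mass at most `β`. -/
def Small (x P : Al G) (ε β : ℝ) : Prop := ∃ ω, Nn ω ∧ mass ω ≤ β ∧ Ab x (ε • P + ω)

theorem Small.beta_nonneg {x P : Al G} {ε β : ℝ} (h : Small x P ε β) : 0 ≤ β := by
  obtain ⟨ω, h1, h2, -⟩ := h
  exact h1.mass_nonneg.trans h2

theorem Small.of_nrm {x : Al G} (P : Al G) {b : ℝ} (h : Nrm x b) : Small x P 0 b := by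
  obtain ⟨a, ha, h1⟩ := h
  exact ⟨a, ha.nn, h1, by simpa using ha⟩

theorem Small.of_ab {x P : Al G} {ε : ℝ} (h : Ab x (ε • P)) : Small x P ε 0 :=
  ⟨0, Nn.zero, by simp, by simpa using h⟩

theorem Small.self {P : Al G} (hP : Nn P) : Small P P 1 0 :=
  Small.of_ab (by simpa using Ab.of_nn hP)

theorem Small.zero (P : Al G) : Small (0 : Al G) P 0 0 := Small.of_nrm P Nrm.zero

theorem Small.mono {x P : Al G} {ε β ε' β' : ℝ} (hP : Nn P) (h : Small x P ε β) (hε : ε ≤ ε')
    (hβ : β ≤ β') : Small x P ε' β' := by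
  obtain ⟨ω, h1, h2, h3⟩ := h
  refine ⟨ω, h1, h2.trans hβ, h3.mono ?_⟩
  have : ε' • P + ω - (ε • P + ω) = (ε' - ε) • P := by module
  rw [this]
  exact hP.smul (by linarith)

theorem Small.add {x y P : Al G} {ε β ε' β' : ℝ} (h : Small x P ε β) (h' : Small y P ε' β') :
    Small (x + y) P (ε + ε') (β + β') := by
  obtain ⟨ω, h1, h2, h3⟩ := h
  obtain ⟨ω', h1', h2', h3'⟩ := h'
  refine ⟨ω + ω', h1.add h1', by rw [map_add]; linarith, ?_⟩
  convert h3.add h3' using 1
  module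

theorem Small.neg {x P : Al G} {ε β : ℝ} (h : Small x P ε β) : Small (-x) P ε β := by
  obtain ⟨ω, h1, h2, h3⟩ := h
  exact ⟨ω, h1, h2, h3.neg⟩

theorem Small.sub {x y P : Al G} {ε β ε' β' : ℝ} (h : Small x P ε β) (h' : Small y P ε' β') :
    Small (x - y) P (ε + ε') (β + β') := by
  rw [sub_eq_add_neg]; exact h.add h'.neg

theorem Small.smul {x P : Al G} {ε β : ℝ} (h : Small x P ε β) (c : ℝ) :
    Small (c • x) P (|c| * ε) (|c| * β) := by
  obtain ⟨ω, h1, h2, h3⟩ := h
  refine ⟨|c| • ω, h1.smul (abs_nonneg c), ?_, ?_⟩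
  · rw [map_smul, smul_eq_mul]; exact mul_le_mul_of_nonneg_left h2 (abs_nonneg c)
  · convert h3.smul c using 1
    module

/-- Change of the reference measure: `P ≤ c P' + π`. -/
theorem Small.ref {x P P' π : Al G} {ε β c b : ℝ} (h : Small x P ε β) (hε : 0 ≤ ε)
    (hπ : Nn π) (hb : mass π ≤ b) (hP : Nn (c • P' + π - P)) :
    Small x P' (ε * c) (β + ε * b) := by
  obtain ⟨ω, h1, h2, h3⟩ := h
  refine ⟨ω + ε • π, h1.add (hπ.smul hε), ?_, h3.mono ?_⟩
  · rw [map_add, map_smul, smul_eq_mul]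
    have := mul_le_mul_of_nonneg_left hb hε
    linarith
  · have e : (ε * c) • P' + (ω + ε • π) - (ε • P + ω) = ε • (c • P' + π - P) := by
      module
    rw [e]; exact hP.smul hε

theorem Small.mul {x y P Q : Al G} {ε β ε' β' : ℝ} (hε : 0 ≤ ε) (hε' : 0 ≤ ε')
    (hP : Prob P) (hQ : Prob Q)
    (h : Small x P ε β) (h' : Small y Q ε' β') :
    Small (x * y) (P * Q) (ε * ε') (ε * β' + β * ε' + β * β') := by
  have hβ := h.beta_nonneg
  obtain ⟨ω, h1, h2, h3⟩ := h
  obtain ⟨ω', h1', h2', h3'⟩ := h'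
  refine ⟨(ε • P) * ω' + ω * (ε' • Q) + ω * ω', ?_, ?_, ?_⟩
  · exact (((hP.1.smul hε).mul h1').add (h1.mul (hQ.1.smul hε'))).add (h1.mul h1')
  · simp only [map_add, map_mul, map_smul, smul_eq_mul, hP.2, hQ.2, mul_one]
    have a1 : ε * mass ω' ≤ ε * β' := mul_le_mul_of_nonneg_left h2' hε
    have a2 : mass ω * ε' ≤ β * ε' := mul_le_mul_of_nonneg_right h2 hε'
    have a3 : mass ω * mass ω' ≤ β * β' := mul_le_mul h2 h2' h1'.mass_nonneg hβ
    linarith
  · convert h3.mul h3' using 1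
    rw [add_mul, mul_add, mul_add, smul_mul_smul_comm]
    abel

/-- Multiplying by probability measures on both sides. -/
theorem Small.mul_left {x P A : Al G} {ε β : ℝ} (hA : Prob A) (h : Small x P ε β) :
    Small (A * x) (A * P) ε β := by
  obtain ⟨ω, h1, h2, h3⟩ := h
  refine ⟨A * ω, hA.1.mul h1, by rw [map_mul, hA.2, one_mul]; exact h2, ?_⟩
  convert (Ab.of_nn hA.1).mul h3 using 1
  rw [mul_add, mul_smul_comm]

theorem Small.mul_right {x P A : Al G} {ε β : ℝ} (hA : Prob A) (h : Small x P ε β) :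
    Small (x * A) (P * A) ε β := by
  obtain ⟨ω, h1, h2, h3⟩ := h
  refine ⟨ω * A, h1.mul hA.1, by rw [map_mul, hA.2, mul_one]; exact h2, ?_⟩
  convert h3.mul (Ab.of_nn hA.1) using 1
  rw [add_mul, smul_mul_assoc]

/-- Hiding: `P ^ m` and `P ^ (m + 1)` have a common part of mass `c`. -/
def Hid (P : Al G) (m : ℕ) (c : ℝ) : Prop :=
  ∃ ν, Nn ν ∧ Nn (P ^ m - ν) ∧ Nn (P ^ (m + 1) - ν) ∧ mass ν = c

theorem Hid.of_ge {P ν : Al G} {m : ℕ} {c : ℝ} (hc : 0 < c) (h0 : Nn ν) (h1 : Nn (P ^ m - ν))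
    (h2 : Nn (P ^ (m + 1) - ν)) (h : c ≤ mass ν) : Hid P m c := by
  have hm : 0 < mass ν := hc.trans_le h
  have hs : 0 ≤ c / mass ν := (div_pos hc hm).le
  have hs1 : 0 ≤ 1 - c / mass ν := by rw [sub_nonneg, div_le_one hm]; exact h
  refine ⟨(c / mass ν) • ν, h0.smul hs, ?_, ?_, ?_⟩
  · have := h1.add (h0.smul hs1)
    convert this using 1; module
  · have := h2.add (h0.smul hs1)
    convert this using 1; module
  · rw [map_smul, smul_eq_mul]; field_simp

theorem Hid.le_one {P : Al G} (hP : Prob P) {m : ℕ} {c : ℝ} (h : Hid P m c) : c ≤ 1 := by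
  obtain ⟨ν, -, h1, -, h3⟩ := h
  have := Nn.mass_le h1
  rw [h3, map_pow, hP.2, one_pow] at this
  exact this

end basic

end Vale.Agent.P321.SP
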