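import Vale.Agent.Lib.P321.SP.Alg

/-!
P321, superpolynomial lower bound: definitions for the hiding lemma of the marked window
`V = (01)^h 1 (01)^h`.

The trace of a block `01` is empty with probability `q^2` and otherwise a nonempty piece, which
is the piece `1` with conditional probability `β = q / (1 + q)`. Words of pieces are elements of
the free monoid on `Bool`, `true` being the piece `1`.
-/

namespace Vale.Agent.P321.SP

open Finset Polynomial

/-- Words of pieces. -/
abbrev Wd := FreeMonoid Bool

/-- The reference weight: independent letters, `true` having probability `β`. -/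
noncomputable def ref (β : ℝ) : Wd →* ℝ := FreeMonoid.lift (fun b => if b then β else 1 - β)

/-- The one letter word `true`. -/
noncomputable def tt : Al Wd := MonoidAlgebra.single (FreeMonoid.of true) 1

/-- The one letter word `false`. -/
noncomputable def ff : Al Wd := MonoidAlgebra.single (FreeMonoid.of false) 1

/-- One letter distributed according to the reference law. -/
noncomputable def bb (β : ℝ) : Al Wd := β • tt + (1 - β) • ff

/-- The second moment of the density with respect to the reference weight. -/
noncomputable def W2 (β : ℝ) (F : Al Wd) : ℝ := ∑ z ∈ F.coeff.support, F.coeff z ^ 2 / ref β z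

/-- The probability that a nonempty piece is the piece `1`. -/
noncomputable def bet (q : ℝ) : ℝ := q / (1 + q)

/-- `2 h` blocks, as a measure on words of pieces. -/
noncomputable def AA (q : ℝ) (h : ℕ) : Al Wd :=
  ((q ^ 2) • (1 : Al Wd) + (1 - q ^ 2) • bb (bet q)) ^ (2 * h)

/-- The marker (one inserted bit `1`), as a measure on words of pieces. -/
noncomputable def II (q : ℝ) : Al Wd := q • (1 : Al Wd) + (1 - q) • tt

/-- `n` markers with `2 h` blocks between them and at both ends. -/
noncomputable def FF (q : ℝ) (h n : ℕ) : Al Wd := AA q h * (II q * AA q h) ^ n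

/-- The law of the number of pieces in `g` stretches of `2 h` blocks with `g - 1` markers between
them, as a generating polynomial. -/
noncomputable def pp (q : ℝ) (h g : ℕ) : ℝ[X] :=
  (C (q ^ 2) + C (1 - q ^ 2) * X) ^ (2 * h * g) * (C q + C (1 - q) * X) ^ (g - 1)

/-- The pairing of coefficient sequences. -/
noncomputable def ip (f g : ℝ[X]) : ℝ := ∑ x ∈ f.support, f.coeff x * g.coeff x

/-- The part of `F` on words of length `T`: total mass. -/
noncomputable def RT (F : Al Wd) (T : ℕ) : ℝ :=
  ∑ z ∈ F.coeff.support with z.length = T, F.coeff z

/-- The part of `F` on words of length `T`: second moment. -/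
noncomputable def WT (β : ℝ) (F : Al Wd) (T : ℕ) : ℝ :=
  ∑ z ∈ F.coeff.support with z.length = T, F.coeff z ^ 2 / ref β z

/-- `F / ref` is nonnegative and nondecreasing under changing letters `false` into `true`. -/
def Inc (β : ℝ) (F : Al Wd) : Prop :=
  Nn F ∧ ∀ z z' : List Bool, List.Forall₂ (fun a b => a = true → b = true) z z' →
    F.coeff (FreeMonoid.ofList z) * ref β (FreeMonoid.ofList z') ≤
      F.coeff (FreeMonoid.ofList z') * ref β (FreeMonoid.ofList z)

end Vale.Agent.P321.SP
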