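import Vale.Agent.Lib.P321.SP.B1Defs

/-!
P321, superpolynomial lower bound: the second moment recursion.
-/

namespace Vale.Agent.P321.SP

open Finset Polynomial

theorem W2_eq (β : ℝ) (F : Al Wd) {S : Finset Wd} (hS : F.coeff.support ⊆ S) :
    W2 β F = ∑ z ∈ S, F.coeff z ^ 2 / ref β z := by
  unfold W2
  refine sum_subset hS fun z _ hz => ?_
  rw [Finsupp.notMem_support_iff] at hz
  rw [hz]; simp

theorem ref_one (β : ℝ) : ref β 1 = 1 := map_one _

theorem ref_true (β : ℝ) (z : Wd) : ref β (FreeMonoid.of true * z) = β * ref β z := by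
  rw [map_mul]; simp [ref]

theorem ref_false (β : ℝ) (z : Wd) : ref β (FreeMonoid.of false * z) = (1 - β) * ref β z := by
  rw [map_mul]; simp [ref]

theorem ref_pos {β : ℝ} (h0 : 0 < β) (h1 : β < 1) (z : Wd) : 0 < ref β z := by
  induction z using FreeMonoid.inductionOn' with
  | one => rw [ref_one]; norm_num
  | of_mul b z ih =>
    cases b
    · rw [ref_false]; exact mul_pos (by linarith) ih
    · rw [ref_true]; exact mul_pos h0 ih

theorem of_mul_inj {a b : Bool} {x y : Wd} (h : FreeMonoid.of a * x = FreeMonoid.of b * y) :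
    a = b ∧ x = y := by
  have h1 := congrArg FreeMonoid.toList h
  rw [FreeMonoid.toList_of_mul, FreeMonoid.toList_of_mul] at h1
  have h2 := List.cons_eq_cons.1 h1
  exact ⟨h2.1, FreeMonoid.toList.injective h2.2⟩

theorem of_mul_ne_one {a : Bool} {x : Wd} : FreeMonoid.of a * x ≠ 1 := by
  intro h
  have h1 := congrArg FreeMonoid.toList h
  rw [FreeMonoid.toList_of_mul] at h1
  simp at h1

theorem coeff_single_of_mul_same (a : Bool) (F : Al Wd) (z : Wd) :
    (MonoidAlgebra.single (FreeMonoid.of a) (1 : ℝ) * F).coeff (FreeMonoid.of a * z)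
      = F.coeff z := by
  rw [MonoidAlgebra.coeff_single_mul_mul, one_mul]

theorem coeff_single_of_mul_ne {a b : Bool} (hab : a ≠ b) (F : Al Wd) (z : Wd) :
    (MonoidAlgebra.single (FreeMonoid.of a) (1 : ℝ) * F).coeff (FreeMonoid.of b * z) = 0 :=
  MonoidAlgebra.coeff_single_mul_of_forall_mul_ne _ _ fun _ h => hab (of_mul_inj h).1

theorem coeff_single_of_mul_one (a : Bool) (F : Al Wd) :
    (MonoidAlgebra.single (FreeMonoid.of a) (1 : ℝ) * F).coeff 1 = 0 :=
  MonoidAlgebra.coeff_single_mul_of_forall_mul_ne _ _ fun _ h => of_mul_ne_one h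

/-- the orthogonality identity -/
theorem W2_split {β : ℝ} (h0 : 0 < β) (h1 : β < 1) (c : ℝ) (F H : Al Wd) :
    W2 β (c • (1 : Al Wd) + bb β * F + (tt - bb β) * H)
      = c ^ 2 + W2 β F + (1 - β) / β * W2 β H := by
  classical
  set G : Al Wd := c • (1 : Al Wd) + bb β * F + (tt - bb β) * H with hG
  have hGe : G = c • (1 : Al Wd) + (β • (tt * F) + (1 - β) • (ff * F))
      + ((1 - β) • (tt * H) - (1 - β) • (ff * H)) := by
    rw [hG]; unfold bb
    have e1 : tt - (β • tt + (1 - β) • ff) = (1 - β) • (tt : Al Wd) - (1 - β) • ff := by module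
    rw [e1, add_mul, sub_mul, smul_mul_assoc, smul_mul_assoc, smul_mul_assoc, smul_mul_assoc]
  have g1 : G.coeff 1 = c := by
    rw [hGe]
    simp only [MonoidAlgebra.coeff_add, MonoidAlgebra.coeff_sub, MonoidAlgebra.coeff_smul,
      Finsupp.coe_add, Finsupp.coe_sub, Finsupp.coe_smul, Pi.add_apply, Pi.sub_apply,
      Pi.smul_apply, tt, ff, coeff_single_of_mul_one, MonoidAlgebra.coeff_one_one, smul_eq_mul]
    ring
  have one_ne : ∀ (a : Bool) (z : Wd), (1 : Al Wd).coeff (FreeMonoid.of a * z) = 0 := by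
    intro a z
    rw [MonoidAlgebra.one_def, MonoidAlgebra.coeff_single, Finsupp.single_apply, if_neg]
    exact fun h => of_mul_ne_one h.symm
  have gt : ∀ z, G.coeff (FreeMonoid.of true * z) = β * F.coeff z + (1 - β) * H.coeff z := by
    intro z
    rw [hGe]
    simp only [MonoidAlgebra.coeff_add, MonoidAlgebra.coeff_sub, MonoidAlgebra.coeff_smul,
      Finsupp.coe_add, Finsupp.coe_sub, Finsupp.coe_smul, Pi.add_apply, Pi.sub_apply,
      Pi.smul_apply, tt, ff, coeff_single_of_mul_same, one_ne, smul_eq_mul,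
      coeff_single_of_mul_ne (show false ≠ true by decide)]
    ring
  have gf : ∀ z, G.coeff (FreeMonoid.of false * z)
      = (1 - β) * F.coeff z - (1 - β) * H.coeff z := by
    intro z
    rw [hGe]
    simp only [MonoidAlgebra.coeff_add, MonoidAlgebra.coeff_sub, MonoidAlgebra.coeff_smul,
      Finsupp.coe_add, Finsupp.coe_sub, Finsupp.coe_smul, Pi.add_apply, Pi.sub_apply,
      Pi.smul_apply, tt, ff, coeff_single_of_mul_same, one_ne, smul_eq_mul,
      coeff_single_of_mul_ne (show true ≠ false by decide)]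
    ring
  set T := F.coeff.support ∪ H.coeff.support with hT
  have hF0 : ∀ z, z ∉ T → F.coeff z = 0 := by
    intro z hz
    rw [hT, mem_union, not_or] at hz
    exact Finsupp.notMem_support_iff.1 hz.1
  have hH0 : ∀ z, z ∉ T → H.coeff z = 0 := by
    intro z hz
    rw [hT, mem_union, not_or] at hz
    exact Finsupp.notMem_support_iff.1 hz.2
  set S1 : Finset Wd := T.image fun z => FreeMonoid.of true * z with hS1
  set S2 : Finset Wd := T.image fun z => FreeMonoid.of false * z with hS2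
  have hsupp : G.coeff.support ⊆ insert 1 (S1 ∪ S2) := by
    intro z hz
    rw [Finsupp.mem_support_iff] at hz
    rw [mem_insert, mem_union]
    induction z using FreeMonoid.inductionOn' with
    | one => exact Or.inl rfl
    | of_mul b z _ =>
      right
      by_cases hzT : z ∈ T
      · cases b
        · exact Or.inr (mem_image_of_mem _ hzT)
        · exact Or.inl (mem_image_of_mem _ hzT)
      · exfalso
        apply hz
        cases b
        · rw [gf, hF0 z hzT, hH0 z hzT]; ring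
        · rw [gt, hF0 z hzT, hH0 z hzT]; ring
  have hd1 : (1 : Wd) ∉ S1 ∪ S2 := by
    rw [mem_union, hS1, hS2, mem_image, mem_image]
    rintro (⟨z, _, h⟩ | ⟨z, _, h⟩)
    · exact of_mul_ne_one h
    · exact of_mul_ne_one h
  have hd2 : Disjoint S1 S2 := by
    rw [disjoint_left, hS1, hS2]
    intro z hz hz'
    rw [mem_image] at hz hz'
    obtain ⟨x, _, hx⟩ := hz
    obtain ⟨y, _, hy⟩ := hz'
    rw [← hy] at hx
    exact absurd (of_mul_inj hx).1 (by decide)
  rw [W2_eq β G hsupp, sum_insert hd1, sum_union hd2, hS1, hS2,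
    sum_image (fun x _ y _ h => (of_mul_inj h).2), sum_image (fun x _ y _ h => (of_mul_inj h).2),
    W2_eq β F (subset_union_left : _ ⊆ T), W2_eq β H (subset_union_right : _ ⊆ T), g1, ref_one,
    ← sum_add_distrib, mul_sum, add_assoc, ← sum_add_distrib]
  congr 1
  · ring
  · refine sum_congr rfl fun z _ => ?_
    rw [gt, gf, ref_true, ref_false]
    have hr := (ref_pos h0 h1 z).ne'
    have hb := h0.ne'
    have hb1 : (1 - β) ≠ 0 := by linarith
    field_simp
    ring

theorem W2_horner {β : ℝ} (h0 : 0 < β) (h1 : β < 1) (D : ℕ) : ∀ (c : ℕ → ℝ) (H : ℕ → Al Wd),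
    W2 β (∑ x ∈ range D, (c x • bb β ^ x + bb β ^ x * (tt - bb β) * H x))
      = ∑ x ∈ range D, (c x ^ 2 + (1 - β) / β * W2 β (H x)) := by
  induction D with
  | zero => intro c H; simp [W2]
  | succ D ih =>
    intro c H
    rw [sum_range_succ', sum_range_succ']
    have e1 : ∑ x ∈ range D, (c (x + 1) • bb β ^ (x + 1)
          + bb β ^ (x + 1) * (tt - bb β) * H (x + 1))
          + (c 0 • bb β ^ 0 + bb β ^ 0 * (tt - bb β) * H 0)
        = c 0 • (1 : Al Wd) + bb β * (∑ x ∈ range D, (c (x + 1) • bb β ^ x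
          + bb β ^ x * (tt - bb β) * H (x + 1))) + (tt - bb β) * H 0 := by
      rw [mul_sum, pow_zero, one_mul]
      have : ∀ x ∈ range D, bb β * (c (x + 1) • bb β ^ x + bb β ^ x * (tt - bb β) * H (x + 1))
          = c (x + 1) • bb β ^ (x + 1) + bb β ^ (x + 1) * (tt - bb β) * H (x + 1) := by
        intro x _
        rw [mul_add, mul_smul_comm, ← pow_succ', ← mul_assoc, ← mul_assoc, ← pow_succ']
      rw [sum_congr rfl this]
      abel
    rw [e1, W2_split h0 h1, ih (fun x => c (x + 1)) (fun x => H (x + 1))]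
    ring

theorem W2_convex {β : ℝ} (h0 : 0 < β) (h1 : β < 1) {ι : Type*} (I : Finset ι) (a : ι → ℝ)
    (ha : ∀ g ∈ I, 0 ≤ a g) (F : ι → Al Wd) :
    W2 β (∑ g ∈ I, a g • F g) ≤ (∑ g ∈ I, a g) * ∑ g ∈ I, a g * W2 β (F g) := by
  classical
  set S : Finset Wd := (∑ g ∈ I, a g • F g).coeff.support ∪ I.biUnion fun g =>
    (F g).coeff.support with hS
  rw [W2_eq β (∑ g ∈ I, a g • F g) (subset_union_left : _ ⊆ S)]
  have e1 : ∀ g ∈ I, a g * W2 β (F g) = ∑ z ∈ S, a g * ((F g).coeff z ^ 2 / ref β z) := by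
    intro g hg
    rw [W2_eq β (F g) (S := S), mul_sum]
    exact (subset_biUnion_of_mem (fun g => (F g).coeff.support) hg).trans subset_union_right
  rw [sum_congr rfl e1, sum_comm, mul_sum]
  refine sum_le_sum fun z _ => ?_
  have hr := ref_pos h0 h1 z
  have e2 : (∑ g ∈ I, a g • F g).coeff z = ∑ g ∈ I, a g * (F g).coeff z := by
    rw [MonoidAlgebra.coeff_sum]
    simp
  rw [e2]
  have h3 := Finset.sum_sq_le_sum_mul_sum_of_sq_le_mul I (r := fun g => a g * (F g).coeff z)
    (f := a) (g := fun g => a g * (F g).coeff z ^ 2) ha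
    (fun g hg => mul_nonneg (ha g hg) (sq_nonneg _)) (fun g _ => by apply le_of_eq; ring)
  have e3 : ∑ g ∈ I, a g * ((F g).coeff z ^ 2 / ref β z)
      = (∑ g ∈ I, a g * (F g).coeff z ^ 2) / ref β z := by
    rw [sum_div]
    exact sum_congr rfl fun g _ => by ring
  rw [e3, ← mul_div_assoc]
  exact div_le_div_of_nonneg_right h3 hr.le

/-- polynomials with nonnegative coefficients -/
def NnP (f : ℝ[X]) : Prop := ∀ x, 0 ≤ f.coeff x

theorem NnP.mul {f g : ℝ[X]} (hf : NnP f) (hg : NnP g) : NnP (f * g) := fun x => by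
  rw [Polynomial.coeff_mul]
  exact sum_nonneg fun i _ => mul_nonneg (hf _) (hg _)

theorem NnP.pow {f : ℝ[X]} (hf : NnP f) (n : ℕ) : NnP (f ^ n) := by
  induction n with
  | zero =>
    intro x
    rw [pow_zero, Polynomial.coeff_one]
    split_ifs <;> norm_num
  | succ n ih => rw [pow_succ]; exact ih.mul hf

theorem NnP.lin {a b : ℝ} (ha : 0 ≤ a) (hb : 0 ≤ b) : NnP (C a + C b * X) := fun x => by
  rw [Polynomial.coeff_add, Polynomial.coeff_C, Polynomial.coeff_C_mul, Polynomial.coeff_X]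
  split_ifs <;> simp [ha, hb, add_nonneg]

theorem NnP.pp {q : ℝ} (hq : 0 < q) (hq1 : q < 1) (h g : ℕ) : NnP (pp q h g) := by
  unfold SP.pp
  exact ((NnP.lin (by positivity) (by nlinarith)).pow _).mul
    ((NnP.lin hq.le (by linarith)).pow _)

theorem ip_eq (f g : ℝ[X]) {D : ℕ} (hD : f.natDegree < D) :
    ip f g = ∑ x ∈ range D, f.coeff x * g.coeff x := by
  unfold ip
  refine sum_subset ?_ fun x _ hx => ?_
  · intro x hx
    rw [mem_range]
    exact (Polynomial.le_natDegree_of_mem_supp x hx).trans_lt hD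
  · rw [Polynomial.notMem_support_iff] at hx
    rw [hx, zero_mul]

/-- expansion of a power at the first occurrence of the second summand -/
theorem add_pow_first {R : Type*} [Ring R] (u v : R) (n : ℕ) :
    (u + v) ^ n = u ^ n + ∑ g ∈ range n, u ^ g * v * (u + v) ^ (n - 1 - g) := by
  induction n with
  | zero => simp
  | succ n ih =>
    rw [pow_succ', add_mul, sum_range_succ']
    have e1 : u * (u + v) ^ n = u ^ (n + 1) + ∑ g ∈ range n, u ^ (g + 1) * v *
        (u + v) ^ (n + 1 - 1 - (g + 1)) := by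
      conv_lhs => rw [ih]
      rw [mul_add, ← pow_succ', mul_sum]
      congr 1
      refine sum_congr rfl fun g _ => ?_
      have : n - 1 - g = n + 1 - 1 - (g + 1) := by omega
      rw [this, pow_succ' u g]
      simp only [mul_assoc]
    rw [e1]
    simp only [pow_zero, one_mul, Nat.add_sub_cancel, Nat.sub_zero]
    abel

theorem GG_eq (q : ℝ) (h g : ℕ) :
    AA q h * ((q • (1 : Al Wd) + (1 - q) • bb (bet q)) * AA q h) ^ g
      = aeval (bb (bet q)) (pp q h (g + 1)) := by
  have e1 : AA q h = aeval (bb (bet q)) ((C (q ^ 2) + C (1 - q ^ 2) * X) ^ (2 * h)) := by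
    unfold AA
    rw [map_pow, map_add, map_mul, aeval_C, aeval_C, aeval_X, ← Algebra.smul_def,
      Algebra.algebraMap_eq_smul_one]
  have e2 : q • (1 : Al Wd) + (1 - q) • bb (bet q)
      = aeval (bb (bet q)) (C q + C (1 - q) * X) := by
    rw [map_add, map_mul, aeval_C, aeval_C, aeval_X, ← Algebra.smul_def,
      Algebra.algebraMap_eq_smul_one]
  rw [e1, e2, ← map_mul, ← map_pow, ← map_mul]
  congr 1
  unfold pp
  rw [Nat.add_sub_cancel, mul_pow, ← pow_mul]
  ring

theorem FF_expand (q : ℝ) (h n : ℕ) :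
    FF q h n = aeval (bb (bet q)) (pp q h (n + 1)) + ∑ g ∈ Icc 1 n,
      aeval (bb (bet q)) (pp q h g) * ((1 - q) • (tt - bb (bet q))) * FF q h (n - g) := by
  have e1 : II q = (q • (1 : Al Wd) + (1 - q) • bb (bet q)) + (1 - q) • (tt - bb (bet q)) := by
    unfold II; module
  unfold FF
  conv_lhs => rw [e1, add_mul, add_pow_first, mul_add, GG_eq, mul_sum]
  congr 1
  rw [← add_mul, ← e1]
  have e2 : Icc 1 n = (range n).image (· + 1) := by
    ext x
    simp only [mem_Icc, mem_image, mem_range]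
    constructor
    · intro hx; exact ⟨x - 1, by omega, by omega⟩
    · rintro ⟨y, hy, rfl⟩; omega
  rw [e2, sum_image (fun x _ y _ h => by simpa using h)]
  refine sum_congr rfl fun g _ => ?_
  rw [← GG_eq]
  have e3 : n - (g + 1) = n - 1 - g := by omega
  rw [e3]
  simp only [mul_assoc]

/-- **The second moment recursion.** -/
theorem W2_rec {q : ℝ} (hq : 0 < q) (hq1 : q < 1) (h n : ℕ) :
    W2 (bet q) (FF q h n) ≤ ip (pp q h (n + 1)) (pp q h (n + 1)) +
      (1 / q) * (1 - q) ^ 2 * ∑ g ∈ Icc 1 n,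
        ip (pp q h g) (∑ g' ∈ Icc 1 n, pp q h g') * W2 (bet q) (FF q h (n - g)) := by
  have hβ0 : 0 < bet q := by unfold bet; positivity
  have hβ1 : bet q < 1 := by
    unfold bet; rw [div_lt_one (by linarith)]; linarith
  have hκ : (1 - bet q) / bet q = 1 / q := by
    unfold bet; field_simp; ring
  obtain ⟨D, hD⟩ : ∃ D, ∀ g ∈ Icc 1 (n + 1), (pp q h g).natDegree < D :=
    ⟨(Icc 1 (n + 1)).sup (fun g => (pp q h g).natDegree) + 1, fun g hg =>
      Nat.lt_succ_of_le (Finset.le_sup (f := fun g => (pp q h g).natDegree) hg)⟩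
  have hDn := hD (n + 1) (by rw [mem_Icc]; omega)
  have hDg : ∀ g ∈ Icc 1 n, (pp q h g).natDegree < D := fun g hg =>
    hD g (by rw [mem_Icc] at hg ⊢; omega)
  have e1 : FF q h n = ∑ x ∈ range D, ((pp q h (n + 1)).coeff x • bb (bet q) ^ x
      + bb (bet q) ^ x * (tt - bb (bet q)) *
        ∑ g ∈ Icc 1 n, ((1 - q) * (pp q h g).coeff x) • FF q h (n - g)) := by
    conv_lhs => rw [FF_expand]
    rw [sum_add_distrib, aeval_eq_sum_range' hDn]
    congr 1
    have : ∀ g ∈ Icc 1 n, aeval (bb (bet q)) (pp q h g) * ((1 - q) • (tt - bb (bet q))) *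
        FF q h (n - g) = ∑ x ∈ range D, bb (bet q) ^ x * (tt - bb (bet q)) *
          (((1 - q) * (pp q h g).coeff x) • FF q h (n - g)) := by
      intro g hg
      rw [aeval_eq_sum_range' (hDg g hg), sum_mul, sum_mul]
      refine sum_congr rfl fun x _ => ?_
      rw [mul_smul_comm, smul_mul_assoc, smul_mul_assoc, smul_mul_assoc, smul_smul,
        mul_smul_comm]
    rw [sum_congr rfl this, sum_comm]
    refine sum_congr rfl fun x _ => ?_
    rw [mul_sum]
  rw [e1, W2_horner hβ0 hβ1, sum_add_distrib, hκ]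
  have e2 : ∑ x ∈ range D, (pp q h (n + 1)).coeff x ^ 2 = ip (pp q h (n + 1)) (pp q h (n + 1)) := by
    rw [ip_eq _ _ hDn]
    exact sum_congr rfl fun x _ => by ring
  rw [e2]
  have e3 : ∀ x ∈ range D, 1 / q * W2 (bet q) (∑ g ∈ Icc 1 n,
      ((1 - q) * (pp q h g).coeff x) • FF q h (n - g))
      ≤ 1 / q * ((∑ g ∈ Icc 1 n, (1 - q) * (pp q h g).coeff x) *
        ∑ g ∈ Icc 1 n, (1 - q) * (pp q h g).coeff x * W2 (bet q) (FF q h (n - g))) := by
    intro x _
    refine mul_le_mul_of_nonneg_left ?_ (by positivity)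
    exact W2_convex hβ0 hβ1 (Icc 1 n) _ (fun g _ => mul_nonneg (by linarith)
      (NnP.pp hq hq1 h g x)) _
  have e4 : ∑ x ∈ range D, 1 / q * ((∑ g ∈ Icc 1 n, (1 - q) * (pp q h g).coeff x) *
        ∑ g ∈ Icc 1 n, (1 - q) * (pp q h g).coeff x * W2 (bet q) (FF q h (n - g)))
      = (1 / q) * (1 - q) ^ 2 * ∑ g ∈ Icc 1 n,
        ip (pp q h g) (∑ g' ∈ Icc 1 n, pp q h g') * W2 (bet q) (FF q h (n - g)) := by
    have h1 : ∀ g ∈ Icc 1 n, ip (pp q h g) (∑ g' ∈ Icc 1 n, pp q h g')
        * W2 (bet q) (FF q h (n - g)) = ∑ x ∈ range D, (pp q h g).coeff x *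
          (∑ g' ∈ Icc 1 n, (pp q h g').coeff x) * W2 (bet q) (FF q h (n - g)) := by
      intro g hg
      rw [ip_eq _ _ (hDg g hg), sum_mul]
      refine sum_congr rfl fun x _ => ?_
      rw [Polynomial.finsetSum_coeff]
    rw [sum_congr rfl h1, sum_comm, mul_sum]
    refine Finset.sum_congr rfl fun x _ => ?_
    have h2 : ∑ g ∈ Icc 1 n, (1 - q) * (pp q h g).coeff x
        = (1 - q) * ∑ g ∈ Icc 1 n, (pp q h g).coeff x := by rw [mul_sum]
    rw [h2, ← mul_assoc, Finset.mul_sum (Icc 1 n) (fun g => (1 - q) * (pp q h g).coeff x *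
      W2 (bet q) (FF q h (n - g))), Finset.mul_sum (Icc 1 n) (fun g => (pp q h g).coeff x *
      (∑ g' ∈ Icc 1 n, (pp q h g').coeff x) * W2 (bet q) (FF q h (n - g)))]
    refine sum_congr rfl fun g _ => ?_
    ring
  have := sum_le_sum e3
  rw [e4] at this
  linarith

end Vale.Agent.P321.SP
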