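import Vale.Agent.Lib.P321.SP.B1Defs

/-!
P321, superpolynomial lower bound: coincidence probabilities of binomial sums.
-/

namespace Vale.Agent.P321.SP

open Finset Polynomial

namespace B1b

/-- The sum of a weight against the coefficients of a polynomial. -/
noncomputable def L (w : ℕ → ℝ) (f : ℝ[X]) : ℝ := ∑ x ∈ f.support, f.coeff x * w x

theorem L_of_subset (w : ℕ → ℝ) (f : ℝ[X]) {s : Finset ℕ} (h : f.support ⊆ s) :
    L w f = ∑ x ∈ s, f.coeff x * w x :=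
  Finset.sum_subset h (fun x _ hx => by rw [Polynomial.notMem_support_iff.mp hx, zero_mul])

theorem L_add (w : ℕ → ℝ) (f g : ℝ[X]) : L w (f + g) = L w f + L w g := by
  classical
  rw [L_of_subset w (f + g) (Polynomial.support_add (p := f) (q := g)),
    L_of_subset w f Finset.subset_union_left, L_of_subset w g Finset.subset_union_right,
    ← Finset.sum_add_distrib]
  refine Finset.sum_congr rfl fun x _ => ?_
  rw [coeff_add]
  ring

theorem L_monomial (w : ℕ → ℝ) (n : ℕ) (a : ℝ) : L w (monomial n a) = a * w n := by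
  rw [L_of_subset w _ (Polynomial.support_monomial_subset n a), Finset.sum_singleton,
    coeff_monomial_same]

theorem L_mul (w : ℕ → ℝ) (f k : ℝ[X]) :
    L w (f * k) = L (fun i => L (fun j => w (i + j)) k) f := by
  classical
  induction f using Polynomial.induction_on' with
  | add p q hp hq => rw [add_mul, L_add, L_add, hp, hq]
  | monomial n a =>
    rw [L_monomial]
    have hs : (monomial n a * k).support ⊆ k.support.image (fun j => n + j) := by
      intro x hx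
      rw [Polynomial.mem_support_iff, ← C_mul_X_pow_eq_monomial, mul_assoc, coeff_C_mul,
        coeff_X_pow_mul'] at hx
      rw [Finset.mem_image]
      by_cases hn : n ≤ x
      · rw [if_pos hn] at hx
        exact ⟨x - n, Polynomial.mem_support_iff.mpr (right_ne_zero_of_mul hx), by omega⟩
      · rw [if_neg hn, mul_zero] at hx
        exact absurd rfl hx
    rw [L_of_subset w _ hs, Finset.sum_image (fun x _ y _ hxy => by simpa using hxy)]
    unfold L
    rw [Finset.mul_sum]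
    refine Finset.sum_congr rfl fun j _ => ?_
    have e : (monomial n a * k).coeff (n + j) = a * k.coeff j := by
      rw [add_comm n j, coeff_monomial_mul]
    rw [e, mul_assoc]

theorem L_comm (F : ℕ → ℕ → ℝ) (f k : ℝ[X]) :
    L (fun i => L (fun j => F i j) k) f = L (fun j => L (fun i => F i j) f) k := by
  unfold L
  simp only [Finset.mul_sum]
  rw [Finset.sum_comm]
  refine Finset.sum_congr rfl fun j _ => Finset.sum_congr rfl fun i _ => ?_
  ring

theorem L_mono {w w' : ℕ → ℝ} {f : ℝ[X]} (hf : ∀ x, 0 ≤ f.coeff x) (h : ∀ x, w x ≤ w' x) :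
    L w f ≤ L w' f :=
  Finset.sum_le_sum fun x _ => mul_le_mul_of_nonneg_left (h x) (hf x)

theorem L_nonneg {w : ℕ → ℝ} {f : ℝ[X]} (hf : ∀ x, 0 ≤ f.coeff x) (h : ∀ x, 0 ≤ w x) :
    0 ≤ L w f :=
  Finset.sum_nonneg fun x _ => mul_nonneg (hf x) (h x)

theorem L_cmul (c : ℝ) (w : ℕ → ℝ) (f : ℝ[X]) : L (fun x => c * w x) f = c * L w f := by
  unfold L
  rw [Finset.mul_sum]
  exact Finset.sum_congr rfl fun x _ => by ring

theorem L_addw (w w' : ℕ → ℝ) (f : ℝ[X]) :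
    L (fun x => w x + w' x) f = L w f + L w' f := by
  unfold L
  rw [← Finset.sum_add_distrib]
  exact Finset.sum_congr rfl fun x _ => by ring

theorem L_const (c : ℝ) (f : ℝ[X]) : L (fun _ => c) f = c * f.eval 1 := by
  rw [Polynomial.eval_eq_sum, Polynomial.sum_def]
  unfold L
  rw [Finset.mul_sum]
  exact Finset.sum_congr rfl fun x _ => by ring

/-- partial sums are at most the total sum -/
theorem sum_le_L {w : ℕ → ℝ} {f : ℝ[X]} (hf : ∀ x, 0 ≤ f.coeff x) (h : ∀ x, 0 ≤ w x)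
    (s : Finset ℕ) : ∑ x ∈ s, f.coeff x * w x ≤ L w f := by
  classical
  rw [L_of_subset w f (Finset.subset_union_right (s₁ := s))]
  exact Finset.sum_le_sum_of_subset_of_nonneg Finset.subset_union_left
    (fun x _ _ => mul_nonneg (hf x) (h x))

/-- probability polynomials -/
structure Pr (f : ℝ[X]) : Prop where
  nn : ∀ x, 0 ≤ f.coeff x
  one : f.eval 1 = 1

theorem Pr.mul {f k : ℝ[X]} (hf : Pr f) (hk : Pr k) : Pr (f * k) where
  nn x := by
    rw [coeff_mul]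
    exact Finset.sum_nonneg fun i _ => mul_nonneg (hf.nn _) (hk.nn _)
  one := by rw [eval_mul, hf.one, hk.one, one_mul]

theorem Pr.onep : Pr (1 : ℝ[X]) where
  nn x := by
    rw [coeff_one]
    split_ifs <;> norm_num
  one := by simp

theorem Pr.pow {f : ℝ[X]} (hf : Pr f) (n : ℕ) : Pr (f ^ n) := by
  induction n with
  | zero => rw [pow_zero]; exact Pr.onep
  | succ n ih => rw [pow_succ]; exact ih.mul hf

theorem Pr.sum_le {f : ℝ[X]} (hf : Pr f) (s : Finset ℕ) : ∑ x ∈ s, f.coeff x ≤ 1 := by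
  have h := sum_le_L (w := fun _ => 1) hf.nn (fun _ => zero_le_one) s
  rw [L_const, hf.one] at h
  simpa using h

theorem sup_mul {f k : ℝ[X]} {B : ℝ} (hB : 0 ≤ B) (hf : ∀ x, f.coeff x ≤ B) (hk : Pr k) (x : ℕ) :
    (f * k).coeff x ≤ B := by
  rw [mul_comm, coeff_mul, Finset.Nat.sum_antidiagonal_eq_sum_range_succ_mk]
  calc ∑ i ∈ range x.succ, k.coeff i * f.coeff (x - i)
      ≤ ∑ i ∈ range x.succ, k.coeff i * B :=
        Finset.sum_le_sum fun i _ => mul_le_mul_of_nonneg_left (hf _) (hk.nn _)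
    _ = (∑ i ∈ range x.succ, k.coeff i) * B := by rw [Finset.sum_mul]
    _ ≤ 1 * B := mul_le_mul_of_nonneg_right (hk.sum_le _) hB
    _ = B := one_mul B

/-- the law has mean `a` and variance `v` -/
structure Mv (f : ℝ[X]) (a v : ℝ) : Prop extends Pr f where
  mean : L (fun x => (x : ℝ) - a) f = 0
  var : L (fun x => ((x : ℝ) - a) ^ 2) f = v

theorem Mv.mul {f k : ℝ[X]} {a b v v' : ℝ} (hf : Mv f a v) (hk : Mv k b v') :
    Mv (f * k) (a + b) (v + v') where
  toPr := hf.toPr.mul hk.toPr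
  mean := by
    rw [L_mul]
    have h1 : ∀ i : ℕ, L (fun j => ((i + j : ℕ) : ℝ) - (a + b)) k = (i : ℝ) - a := by
      intro i
      have e : (fun j : ℕ => ((i + j : ℕ) : ℝ) - (a + b)) =
          fun j : ℕ => ((i : ℝ) - a) + ((j : ℝ) - b) := by
        funext j
        push_cast
        ring
      rw [e, L_addw, L_const, hk.one, hk.mean]
      ring
    simp only [h1]
    exact hf.mean
  var := by
    rw [L_mul]
    have h1 : ∀ i : ℕ, L (fun j => (((i + j : ℕ) : ℝ) - (a + b)) ^ 2) k =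
        ((i : ℝ) - a) ^ 2 + v' := by
      intro i
      have e : (fun j : ℕ => (((i + j : ℕ) : ℝ) - (a + b)) ^ 2) =
          fun j : ℕ => (((i : ℝ) - a) ^ 2 + (2 * ((i : ℝ) - a)) * ((j : ℝ) - b)) +
            ((j : ℝ) - b) ^ 2 := by
        funext j
        push_cast
        ring
      rw [e, L_addw, L_addw, L_const, L_cmul, hk.one, hk.mean, hk.var]
      ring
    simp only [h1]
    rw [L_addw, hf.var, L_const, hf.one, mul_one]

theorem Mv.onep : Mv (1 : ℝ[X]) 0 0 where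
  toPr := Pr.onep
  mean := by
    have : (1 : ℝ[X]) = monomial 0 1 := rfl
    rw [this, L_monomial]
    simp
  var := by
    have : (1 : ℝ[X]) = monomial 0 1 := rfl
    rw [this, L_monomial]
    simp

theorem Mv.pow {f : ℝ[X]} {a v : ℝ} (hf : Mv f a v) (n : ℕ) : Mv (f ^ n) (n * a) (n * v) := by
  induction n with
  | zero =>
    rw [pow_zero, Nat.cast_zero, zero_mul, zero_mul]
    exact Mv.onep
  | succ n ih =>
    rw [pow_succ]
    have := ih.mul hf
    have e1 : ((n + 1 : ℕ) : ℝ) * a = n * a + a := by push_cast; ring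
    have e2 : ((n + 1 : ℕ) : ℝ) * v = n * v + v := by push_cast; ring
    rw [e1, e2]
    exact this

theorem Mv.base {a b : ℝ} (ha : 0 ≤ a) (hb : 0 ≤ b) (hab : a + b = 1) :
    Mv (C a + C b * X) b (a * b) where
  nn x := by
    rcases x with _ | _ | x
    · simp [ha]
    · simp [hb]
    · rw [coeff_add, coeff_C_mul, coeff_X, coeff_C]
      simp
  one := by simp [hab]
  mean := by
    rw [L_add]
    have e1 : (C a : ℝ[X]) = monomial 0 a := rfl
    have e2 : (C b * X : ℝ[X]) = monomial 1 b := by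
      rw [← C_mul_X_pow_eq_monomial, pow_one]
    rw [e1, e2, L_monomial, L_monomial]
    push_cast
    have : a = 1 - b := by linarith
    rw [this]
    ring
  var := by
    rw [L_add]
    have e1 : (C a : ℝ[X]) = monomial 0 a := rfl
    have e2 : (C b * X : ℝ[X]) = monomial 1 b := by
      rw [← C_mul_X_pow_eq_monomial, pow_one]
    rw [e1, e2, L_monomial, L_monomial]
    push_cast
    have : a = 1 - b := by linarith
    rw [this]
    ring

/-- shifted sums against a bounded function -/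
theorem L_shift_le {k s : ℝ[X]} {B : ℝ} (hB : 0 ≤ B) (hk : ∀ x, k.coeff x ≤ B) (hs : Pr s)
    (i : ℕ) : L (fun j => s.coeff (i + j)) k ≤ B := by
  classical
  unfold L
  calc ∑ x ∈ k.support, k.coeff x * s.coeff (i + x)
      ≤ ∑ x ∈ k.support, B * s.coeff (i + x) :=
        Finset.sum_le_sum fun x _ => mul_le_mul_of_nonneg_right (hk x) (hs.nn _)
    _ = B * ∑ x ∈ k.support, s.coeff (i + x) := by rw [Finset.mul_sum]
    _ = B * ∑ y ∈ k.support.image (fun x => i + x), s.coeff y := by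
        rw [Finset.sum_image (fun x _ y _ hxy => by simpa using hxy)]
    _ ≤ B * 1 := mul_le_mul_of_nonneg_left (hs.sum_le _) hB
    _ = B := mul_one B

/-- the coincidence bound -/
theorem key {f k s : ℝ[X]} {a b m vf vk vs B D : ℝ} (hf : Mv f a vf) (hk : Mv k b vk)
    (hs : Mv s m vs) (hB : 0 ≤ B) (hfB : ∀ x, f.coeff x ≤ B) (hkB : ∀ x, k.coeff x ≤ B)
    (hD : 0 < D) (h3 : 3 * D ≤ |a + b - m|) :
    L s.coeff (f * k) ≤ B * (vf + vk + vs) / D ^ 2 := by
  rw [le_div_iff₀ (by positivity), mul_comm, ← L_cmul, L_mul]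
  have hpt : ∀ i j : ℕ, D ^ 2 * s.coeff (i + j) ≤
      (((i : ℝ) - a) ^ 2 * s.coeff (i + j) + ((j : ℝ) - b) ^ 2 * s.coeff (i + j)) +
        s.coeff (i + j) * (((i + j : ℕ) : ℝ) - m) ^ 2 := by
    intro i j
    have h1 : D ^ 2 ≤ ((i : ℝ) - a) ^ 2 + ((j : ℝ) - b) ^ 2 + (((i + j : ℕ) : ℝ) - m) ^ 2 := by
      push_cast
      have h2 : a + b - m = (((i : ℝ) + j) - m) - ((i : ℝ) - a) - ((j : ℝ) - b) := by ring
      have h4 : (3 * D) ^ 2 ≤ (a + b - m) ^ 2 := by
        rw [← sq_abs (a + b - m)]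
        exact pow_le_pow_left₀ (by positivity) h3 2
      rw [h2] at h4
      nlinarith [sq_nonneg ((((i : ℝ) + j) - m) + ((i : ℝ) - a)),
        sq_nonneg ((((i : ℝ) + j) - m) + ((j : ℝ) - b)),
        sq_nonneg (((i : ℝ) - a) - ((j : ℝ) - b)), sq_nonneg D, sq_nonneg ((i : ℝ) - a),
        sq_nonneg ((j : ℝ) - b), sq_nonneg (((i : ℝ) + j) - m)]
    have h5 := mul_le_mul_of_nonneg_right h1 (hs.nn (i + j))
    linarith
  have hstep : L (fun i => L (fun j => D ^ 2 * s.coeff (i + j)) k) f ≤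
      L (fun i => L (fun j => (((i : ℝ) - a) ^ 2 * s.coeff (i + j) +
        ((j : ℝ) - b) ^ 2 * s.coeff (i + j)) +
        s.coeff (i + j) * (((i + j : ℕ) : ℝ) - m) ^ 2) k) f :=
    L_mono hf.nn fun i => L_mono hk.nn fun j => hpt i j
  refine hstep.trans ?_
  simp only [L_addw]
  have t1 : L (fun i => L (fun j => ((i : ℝ) - a) ^ 2 * s.coeff (i + j)) k) f ≤ B * vf := by
    rw [← hf.var, ← L_cmul]
    refine L_mono hf.nn fun i => ?_
    rw [L_cmul, mul_comm]
    exact mul_le_mul_of_nonneg_right (L_shift_le hB hkB hs.toPr i) (sq_nonneg _)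
  have t2 : L (fun i => L (fun j => ((j : ℝ) - b) ^ 2 * s.coeff (i + j)) k) f ≤ B * vk := by
    rw [L_comm, ← hk.var, ← L_cmul]
    refine L_mono hk.nn fun j => ?_
    rw [L_cmul, mul_comm]
    refine mul_le_mul_of_nonneg_right ?_ (sq_nonneg _)
    have := L_shift_le hB hfB hs.toPr j
    simpa only [add_comm j] using this
  have t3 : L (fun i => L (fun j => s.coeff (i + j) * (((i + j : ℕ) : ℝ) - m) ^ 2) k) f ≤
      B * vs := by
    rw [← L_mul (fun x => s.coeff x * ((x : ℝ) - m) ^ 2), ← hs.var]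
    calc L (fun x => s.coeff x * ((x : ℝ) - m) ^ 2) (f * k)
        ≤ ∑ x ∈ (f * k).support, s.coeff x * (B * ((x : ℝ) - m) ^ 2) := by
          refine Finset.sum_le_sum fun x _ => ?_
          have h1 := sup_mul hB hfB hk.toPr x
          have h2 : 0 ≤ s.coeff x * ((x : ℝ) - m) ^ 2 := mul_nonneg (hs.nn x) (sq_nonneg _)
          have := mul_le_mul_of_nonneg_right h1 h2
          linarith
      _ ≤ L (fun x => B * ((x : ℝ) - m) ^ 2) s :=
          sum_le_L hs.nn (fun x => mul_nonneg hB (sq_nonneg _)) _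
      _ = B * L (fun x => ((x : ℝ) - m) ^ 2) s := L_cmul _ _ _
  linarith

/-! ### sup bound for binomial laws -/

theorem centralBinom_sq_le (n : ℕ) : (2 * n + 1) * (Nat.centralBinom n) ^ 2 ≤ 16 ^ n := by
  induction n with
  | zero => simp
  | succ n ih =>
    have h := Nat.succ_mul_centralBinom_succ n
    have h2 : (n + 1) ^ 2 * ((2 * (n + 1) + 1) * (Nat.centralBinom (n + 1)) ^ 2) =
        (2 * n + 3) * (2 * (2 * n + 1) * Nat.centralBinom n) ^ 2 := by
      rw [← h]; ring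
    have h3 : (n + 1) ^ 2 * ((2 * (n + 1) + 1) * (Nat.centralBinom (n + 1)) ^ 2) ≤
        (n + 1) ^ 2 * 16 ^ (n + 1) := by
      rw [h2]
      calc (2 * n + 3) * (2 * (2 * n + 1) * Nat.centralBinom n) ^ 2
          = 4 * ((2 * n + 3) * (2 * n + 1)) * ((2 * n + 1) * Nat.centralBinom n ^ 2) := by ring
        _ ≤ 4 * ((2 * n + 3) * (2 * n + 1)) * 16 ^ n := Nat.mul_le_mul_left _ ih
        _ ≤ 4 * (4 * (n + 1) ^ 2) * 16 ^ n := by
            apply Nat.mul_le_mul_right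
            apply Nat.mul_le_mul_left
            nlinarith
        _ = (n + 1) ^ 2 * 16 ^ (n + 1) := by ring
    exact Nat.le_of_mul_le_mul_left h3 (by positivity)

theorem choose_sq_le (n x : ℕ) : (n + 1) * (n.choose x) ^ 2 ≤ 4 ^ n := by
  have h0 : n.choose x ≤ n.choose (n / 2) := Nat.choose_le_middle x n
  rcases Nat.even_or_odd' n with ⟨m, rfl | rfl⟩
  · have h1 : (2 * m).choose x ≤ Nat.centralBinom m := Nat.choose_le_centralBinom x m
    calc (2 * m + 1) * ((2 * m).choose x) ^ 2 ≤ (2 * m + 1) * (Nat.centralBinom m) ^ 2 :=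
          Nat.mul_le_mul_left _ (Nat.pow_le_pow_left h1 2)
      _ ≤ 16 ^ m := centralBinom_sq_le m
      _ = 4 ^ (2 * m) := by rw [pow_mul]; norm_num
  · have h1 : (2 * m + 1).choose x ≤ (2 * m + 1).choose m := by
      have : (2 * m + 1) / 2 = m := by omega
      rwa [this] at h0
    have h2 : 2 * (2 * m + 1).choose m = Nat.centralBinom (m + 1) := by
      have e1 : (2 * (m + 1)).choose (m + 1) = (2 * m + 1).choose m + (2 * m + 1).choose (m + 1) :=
        Nat.choose_succ_succ (2 * m + 1) m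
      have e2 : (2 * m + 1).choose (m + 1) = (2 * m + 1).choose m :=
        Nat.choose_symm_of_eq_add (by omega)
      rw [Nat.centralBinom, e1, e2]
      ring
    have h3 := centralBinom_sq_le (m + 1)
    rw [← h2] at h3
    have h4 : 4 * ((2 * m + 1 + 1) * ((2 * m + 1).choose m) ^ 2) ≤ 4 * 4 ^ (2 * m + 1) := by
      calc 4 * ((2 * m + 1 + 1) * ((2 * m + 1).choose m) ^ 2)
          ≤ (2 * (m + 1) + 1) * (2 * (2 * m + 1).choose m) ^ 2 := by
            nlinarith [Nat.zero_le (((2 * m + 1).choose m) ^ 2)]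
        _ ≤ 16 ^ (m + 1) := h3
        _ = 4 * 4 ^ (2 * m + 1) := by
            rw [show (16 : ℕ) = 4 ^ 2 by norm_num, ← pow_mul]
            ring
    calc (2 * m + 1 + 1) * ((2 * m + 1).choose x) ^ 2
        ≤ (2 * m + 1 + 1) * ((2 * m + 1).choose m) ^ 2 :=
          Nat.mul_le_mul_left _ (Nat.pow_le_pow_left h1 2)
      _ ≤ 4 ^ (2 * m + 1) := Nat.le_of_mul_le_mul_left h4 (by norm_num)

theorem choose_div_le (n x : ℕ) : (n.choose x : ℝ) / 2 ^ n ≤ 1 / √((n : ℝ) + 1) := by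
  have h1 : (0 : ℝ) < (n : ℝ) + 1 := by positivity
  have h : ((n : ℝ) + 1) * (n.choose x : ℝ) ^ 2 ≤ 4 ^ n := by exact_mod_cast choose_sq_le n x
  rw [div_le_div_iff₀ (by positivity) (Real.sqrt_pos.mpr h1), one_mul]
  refine le_of_sq_le_sq ?_ (by positivity)
  rw [mul_pow, Real.sq_sqrt h1.le, ← pow_mul, mul_comm n 2, pow_mul]
  norm_num
  linarith

/-- the fair coin -/
theorem fair_coeff (n x : ℕ) :
    (((C (1 / 2 : ℝ) + C (1 / 2 : ℝ) * X) ^ n : ℝ[X])).coeff x ≤ 1 / √((n : ℝ) + 1) := by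
  have e : (C (1 / 2 : ℝ) + C (1 / 2 : ℝ) * X : ℝ[X]) = C (1 / 2) * (1 + X) := by ring
  rw [e, mul_pow, ← C_pow, coeff_C_mul, coeff_one_add_X_pow]
  have h := choose_div_le n x
  rw [one_div, inv_pow, ← div_eq_inv_mul]
  exact h

theorem sum_inv_le {c : ℝ} (hc0 : 0 < c) (hc1 : c ≤ 1) (N : ℕ) :
    ∑ i ∈ range (N + 1), c ^ i * (1 - c) ^ (N - i) * (N.choose i : ℝ) * (1 / ((i : ℝ) + 1)) ≤
      1 / (c * ((N : ℝ) + 1)) := by
  have h1c : 0 ≤ 1 - c := by linarith
  have hN : (0 : ℝ) < (N : ℝ) + 1 := by positivity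
  rw [le_div_iff₀ (by positivity), Finset.sum_mul]
  have hterm : ∀ i ∈ range (N + 1), c ^ i * (1 - c) ^ (N - i) * (N.choose i : ℝ) *
      (1 / ((i : ℝ) + 1)) * (c * ((N : ℝ) + 1)) =
      c ^ (i + 1) * (1 - c) ^ (N + 1 - (i + 1)) * ((N + 1).choose (i + 1) : ℝ) := by
    intro i _
    have hi : (0 : ℝ) < (i : ℝ) + 1 := by positivity
    have e : ((N + 1).choose (i + 1) : ℝ) * ((i : ℝ) + 1) = ((N : ℝ) + 1) * (N.choose i : ℝ) := by
      have := Nat.add_one_mul_choose_eq N i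
      exact_mod_cast this.symm
    have e2 : (N.choose i : ℝ) * (1 / ((i : ℝ) + 1)) * ((N : ℝ) + 1) =
        ((N + 1).choose (i + 1) : ℝ) := by
      field_simp
      linarith
    have e3 : N + 1 - (i + 1) = N - i := by omega
    rw [e3, ← e2]
    ring
  rw [Finset.sum_congr rfl hterm]
  have htot := add_pow c (1 - c) (N + 1)
  rw [Finset.sum_range_succ'] at htot
  have h0 : (0 : ℝ) ≤ c ^ 0 * (1 - c) ^ (N + 1 - 0) * ((N + 1).choose 0 : ℝ) := by positivity
  have h1 : (c + (1 - c)) ^ (N + 1) = (1 : ℝ) := by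
    rw [show c + (1 - c) = (1 : ℝ) by ring, one_pow]
  rw [h1] at htot
  linarith

theorem sum_sqrt_le {c : ℝ} (hc0 : 0 < c) (hc1 : c ≤ 1) (N : ℕ) :
    ∑ i ∈ range (N + 1), c ^ i * (1 - c) ^ (N - i) * (N.choose i : ℝ) * (1 / √((i : ℝ) + 1)) ≤
      (1 / c + 1) / √((N : ℝ) + 1) := by
  have h1c : 0 ≤ 1 - c := by linarith
  have hN : (0 : ℝ) < (N : ℝ) + 1 := by positivity
  set t : ℝ := √((N : ℝ) + 1) with ht
  have ht0 : 0 < t := Real.sqrt_pos.mpr hN
  have ht2 : t ^ 2 = (N : ℝ) + 1 := Real.sq_sqrt hN.le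
  have hpt : ∀ i ∈ range (N + 1), c ^ i * (1 - c) ^ (N - i) * (N.choose i : ℝ) *
      (1 / √((i : ℝ) + 1)) ≤
      t * (c ^ i * (1 - c) ^ (N - i) * (N.choose i : ℝ) * (1 / ((i : ℝ) + 1))) +
        (1 / t) * (c ^ i * (1 - c) ^ (N - i) * (N.choose i : ℝ)) := by
    intro i _
    have hi : (0 : ℝ) < (i : ℝ) + 1 := by positivity
    have hw : 0 ≤ c ^ i * (1 - c) ^ (N - i) * (N.choose i : ℝ) := by positivity
    have hs0 : 0 < √((i : ℝ) + 1) := Real.sqrt_pos.mpr hi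
    have hs2 : √((i : ℝ) + 1) ^ 2 = (i : ℝ) + 1 := Real.sq_sqrt hi.le
    have h1 : 1 / √((i : ℝ) + 1) ≤ t * (1 / ((i : ℝ) + 1)) + 1 / t := by
      set s := √((i : ℝ) + 1)
      rw [show 1 / ((i : ℝ) + 1) = 1 / s ^ 2 by rw [hs2]]
      have h2 : t * (1 / s ^ 2) + 1 / t - 1 / s = ((t - s) ^ 2 + t * s) / (s ^ 2 * t) := by
        field_simp
        ring
      have h3 : 0 ≤ ((t - s) ^ 2 + t * s) / (s ^ 2 * t) := by positivity
      linarith
    have := mul_le_mul_of_nonneg_left h1 hw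
    linarith
  refine (Finset.sum_le_sum hpt).trans ?_
  rw [Finset.sum_add_distrib, ← Finset.mul_sum, ← Finset.mul_sum]
  have htot := add_pow c (1 - c) N
  have h1 : (c + (1 - c)) ^ N = (1 : ℝ) := by
    rw [show c + (1 - c) = (1 : ℝ) by ring, one_pow]
  rw [h1] at htot
  rw [← htot]
  have h2 := mul_le_mul_of_nonneg_left (sum_inv_le hc0 hc1 N) ht0.le
  have h3 : t * (1 / (c * ((N : ℝ) + 1))) = (1 / c) / t := by
    rw [← ht2]
    field_simp
  rw [h3] at h2
  calc _ ≤ (1 / c) / t + 1 / t * 1 := add_le_add h2 le_rfl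
    _ = (1 / c + 1) / t := by ring

theorem mix_coeff {c : ℝ} (hc0 : 0 < c) (hc1 : c ≤ 1) (v : ℝ[X])
    (hv : ∀ (k : ℕ) (f : ℝ[X]) (B : ℝ), 0 ≤ B → (∀ x, f.coeff x ≤ B) →
      ∀ x, (v ^ k * f).coeff x ≤ B) (N x : ℕ) :
    ((C c * (C (1 / 2 : ℝ) + C (1 / 2 : ℝ) * X) + C (1 - c) * v) ^ N).coeff x ≤
      (1 / c + 1) / √((N : ℝ) + 1) := by
  have h1c : 0 ≤ 1 - c := by linarith
  rw [add_pow, Polynomial.finsetSum_coeff]
  refine le_trans (Finset.sum_le_sum fun i _ => ?_) (sum_sqrt_le hc0 hc1 N)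
  have e : (C c * (C (1 / 2 : ℝ) + C (1 / 2 : ℝ) * X)) ^ i * (C (1 - c) * v) ^ (N - i) *
      ((N.choose i : ℕ) : ℝ[X]) =
      C (c ^ i * (1 - c) ^ (N - i) * (N.choose i : ℝ)) *
        (v ^ (N - i) * (C (1 / 2 : ℝ) + C (1 / 2 : ℝ) * X) ^ i) := by
    rw [mul_pow, mul_pow, ← C_pow, ← C_pow, C_mul, C_mul, C_eq_natCast]
    ring
  rw [e, coeff_C_mul]
  refine mul_le_mul_of_nonneg_left ?_ (by positivity)
  exact hv _ _ _ (by positivity) (fair_coeff i) x

/-- the sup bound for binomial laws -/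
theorem bin_coeff {θ : ℝ} (h0 : 0 < θ) (h1 : θ < 1) :
    ∃ Cθ : ℝ, 0 < Cθ ∧ ∀ N x : ℕ,
      ((C (1 - θ) + C θ * X) ^ N : ℝ[X]).coeff x ≤ Cθ / √((N : ℝ) + 1) := by
  by_cases h : θ ≤ 1 / 2
  · refine ⟨1 / (2 * θ) + 1, by positivity, fun N x => ?_⟩
    have := mix_coeff (c := 2 * θ) (by linarith) (by linarith) 1
      (fun k f B _ hf x => by rw [one_pow, one_mul]; exact hf x) N x
    have e : (C (2 * θ) * (C (1 / 2 : ℝ) + C (1 / 2 : ℝ) * X) + C (1 - 2 * θ) * 1 : ℝ[X]) =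
        C (1 - θ) + C θ * X := by
      have e1 : C (2 * θ) * (C (1 / 2 : ℝ) + C (1 / 2 : ℝ) * X) =
          (C θ + C θ * X : ℝ[X]) := by
        rw [mul_add, ← mul_assoc, ← C_mul, show 2 * θ * (1 / 2) = θ by ring]
      rw [e1, mul_one, show (1 - θ) = θ + (1 - 2 * θ) by ring, C_add]
      ring
    rwa [e] at this
  · push Not at h
    refine ⟨1 / (2 * (1 - θ)) + 1, by
      have : 0 < 1 - θ := by linarith
      positivity, fun N x => ?_⟩
    have := mix_coeff (c := 2 * (1 - θ)) (by linarith) (by linarith) X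
      (fun k f B hB hf x => by
        rw [coeff_X_pow_mul']
        split_ifs
        · exact hf _
        · exact hB) N x
    have e : (C (2 * (1 - θ)) * (C (1 / 2 : ℝ) + C (1 / 2 : ℝ) * X) +
        C (1 - 2 * (1 - θ)) * X : ℝ[X]) = C (1 - θ) + C θ * X := by
      have e1 : C (2 * (1 - θ)) * (C (1 / 2 : ℝ) + C (1 / 2 : ℝ) * X) =
          (C (1 - θ) + C (1 - θ) * X : ℝ[X]) := by
        rw [mul_add, ← mul_assoc, ← C_mul, show 2 * (1 - θ) * (1 / 2) = 1 - θ by ring]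
      rw [e1, add_assoc, ← add_mul, ← C_add, show 1 - θ + (1 - 2 * (1 - θ)) = θ by ring]
    rwa [e] at this

theorem sum_range_inv_sq (M : ℕ) :
    ∑ x ∈ range M, 1 / ((x : ℝ) + 1) ^ 2 ≤ 2 * (1 - 1 / ((M : ℝ) + 1)) := by
  induction M with
  | zero => simp
  | succ M ih =>
    rw [Finset.sum_range_succ]
    have h1 : (0 : ℝ) < (M : ℝ) + 1 := by positivity
    have h2 : (0 : ℝ) < (M : ℝ) + 1 + 1 := by positivity
    have h3 : 2 * (1 - 1 / ((M : ℝ) + 1 + 1)) - (2 * (1 - 1 / ((M : ℝ) + 1)) +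
        1 / ((M : ℝ) + 1) ^ 2) = (M : ℝ) / (((M : ℝ) + 1) ^ 2 * ((M : ℝ) + 1 + 1)) := by
      field_simp
      ring
    have h4 : 0 ≤ (M : ℝ) / (((M : ℝ) + 1) ^ 2 * ((M : ℝ) + 1 + 1)) := by positivity
    push_cast
    linarith

theorem sum_range_inv_sq' (M : ℕ) : ∑ x ∈ range M, 1 / ((x : ℝ) + 1) ^ 2 ≤ 2 := by
  have h := sum_range_inv_sq M
  have h1 : 0 ≤ 1 / ((M : ℝ) + 1) := by positivity
  linarith

theorem sum_inv_sq_le (g n : ℕ) :
    ∑ x ∈ (Icc 1 (n + 1)).erase g, 1 / ((g : ℝ) - x) ^ 2 ≤ 4 := by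
  classical
  have hsub : (Icc 1 (n + 1)).erase g ⊆ range g ∪ Ico (g + 1) (g + 1 + (n + 1)) := by
    intro x hx
    simp only [Finset.mem_erase, Finset.mem_Icc, Finset.mem_union, Finset.mem_range,
      Finset.mem_Ico] at hx ⊢
    omega
  refine (Finset.sum_le_sum_of_subset_of_nonneg hsub fun x _ _ => by positivity).trans ?_
  have hdis : Disjoint (range g) (Ico (g + 1) (g + 1 + (n + 1))) := by
    rw [Finset.disjoint_left]
    intro x hx hx'
    rw [Finset.mem_range] at hx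
    rw [Finset.mem_Ico] at hx'
    omega
  rw [Finset.sum_union hdis]
  have e1 : ∑ x ∈ range g, 1 / ((g : ℝ) - x) ^ 2 = ∑ x ∈ range g, 1 / ((x : ℝ) + 1) ^ 2 := by
    rw [← Finset.sum_range_reflect]
    refine Finset.sum_congr rfl fun x hx => ?_
    rw [Finset.mem_range] at hx
    have : ((g - 1 - x : ℕ) : ℝ) = g - 1 - x := by
      rw [Nat.cast_sub (by omega), Nat.cast_sub (by omega), Nat.cast_one]
    rw [this]
    congr 2
    ring
  have e2 : ∑ x ∈ Ico (g + 1) (g + 1 + (n + 1)), 1 / ((g : ℝ) - x) ^ 2 =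
      ∑ x ∈ range (n + 1), 1 / ((x : ℝ) + 1) ^ 2 := by
    rw [Finset.sum_Ico_eq_sum_range]
    have : g + 1 + (n + 1) - (g + 1) = n + 1 := by omega
    rw [this]
    refine Finset.sum_congr rfl fun x _ => ?_
    push_cast
    congr 1
    ring
  rw [e1, e2]
  have h1 := sum_range_inv_sq' g
  have h2 := sum_range_inv_sq' (n + 1)
  linarith

/-- the total variance -/
theorem var_le {q θ h g g' n c1 : ℝ} (hq : 0 < q) (hq1 : q < 1) (hθ : θ = 1 - q ^ 2)
    (hh : 1 ≤ h) (hn : n ≤ c1 * h) (hgn : g ≤ n + 1) (hgn' : g' ≤ n + 1) (hg : 1 ≤ g)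
    (hg' : 1 ≤ g') :
    h * g * (q ^ 2 * θ) + (h * g * (q ^ 2 * θ) + (g - 1) * (q * (1 - q))) +
      (2 * h * g' * (q ^ 2 * θ) + (g' - 1) * (q * (1 - q))) ≤ 6 * (c1 + 1) * h ^ 2 := by
  have hq2 : q ^ 2 < 1 := by nlinarith
  have hθ0 : 0 < θ := by linarith
  have hθ1 : θ ≤ 1 := by nlinarith
  have b1 : q ^ 2 * θ ≤ 1 := by nlinarith
  have b2 : q * (1 - q) ≤ 1 := by nlinarith
  have b3 : 0 ≤ q * (1 - q) := mul_nonneg hq.le (by linarith)
  have i1 : h * g * (q ^ 2 * θ) ≤ h * g := mul_le_of_le_one_right (by positivity) b1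
  have i2 : 2 * h * g' * (q ^ 2 * θ) ≤ 2 * h * g' := mul_le_of_le_one_right (by positivity) b1
  have i3 : (g - 1) * (q * (1 - q)) ≤ h * g := by
    have j1 : (g - 1) * (q * (1 - q)) ≤ g - 1 := mul_le_of_le_one_right (by linarith) b2
    have j2 : g ≤ h * g := le_mul_of_one_le_left (by linarith) hh
    linarith
  have i4 : (g' - 1) * (q * (1 - q)) ≤ h * g' := by
    have j1 : (g' - 1) * (q * (1 - q)) ≤ g' - 1 := mul_le_of_le_one_right (by linarith) b2
    have j2 : g' ≤ h * g' := le_mul_of_one_le_left (by linarith) hh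
    linarith
  have i5 : g + g' ≤ 2 * (c1 + 1) * h := by linarith
  have i6 := mul_le_mul_of_nonneg_left i5 (show (0 : ℝ) ≤ 3 * h by positivity)
  have e6 : 3 * h * (g + g') = 3 * (h * g) + 3 * (h * g') := by ring
  have e7 : 3 * h * (2 * (c1 + 1) * h) = 6 * (c1 + 1) * h ^ 2 := by ring
  rw [e6, e7] at i6
  have e8 : 2 * h * g' = 2 * (h * g') := by ring
  rw [e8] at i2
  linarith

end B1b

open B1b

theorem ip_bound {q : ℝ} (hq : 0 < q) (hq1 : q < 1) (C1 : ℕ) :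
    ∃ C : ℝ, 0 < C ∧ ∀ h n g : ℕ, 1 ≤ h → n ≤ C1 * h → 1 ≤ g → g ≤ n + 1 →
      ip (pp q h g) (∑ g' ∈ Icc 1 (n + 1), pp q h g') ≤ C / √((g : ℝ) * h) := by
  classical
  have hq2 : q ^ 2 < 1 := by nlinarith
  have hq20 : 0 < q ^ 2 := by positivity
  set θ : ℝ := 1 - q ^ 2 with hθ
  have hθ0 : 0 < θ := by linarith
  have hθ1 : θ < 1 := by linarith
  have hqθ : 1 - θ = q ^ 2 := by rw [hθ]; ring
  obtain ⟨Cθ, hC0, hC⟩ := bin_coeff hθ0 hθ1
  rw [hqθ] at hC
  set K : ℝ := 27 * ((C1 : ℝ) + 1) / (2 * θ ^ 2) with hK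
  have hK0 : 0 < K := by positivity
  refine ⟨Cθ * (1 + 4 * K), by positivity, fun h n g hh hn hg hgn => ?_⟩
  have hh' : (1 : ℝ) ≤ h := by exact_mod_cast hh
  have hg' : (1 : ℝ) ≤ g := by exact_mod_cast hg
  have hgh : (0 : ℝ) < (g : ℝ) * h := by positivity
  set B : ℝ := Cθ / √((g : ℝ) * h) with hB
  have hB0 : 0 ≤ B := by positivity
  let A : ℝ[X] := C (q ^ 2) + C θ * X
  let M : ℝ[X] := C q + C (1 - q) * X
  have hA : Mv A θ (q ^ 2 * θ) := Mv.base hq20.le hθ0.le (by rw [hθ]; ring)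
  have hM : Mv M (1 - q) (q * (1 - q)) := Mv.base hq.le (by linarith) (by ring)
  have hppM : ∀ g' : ℕ, Mv (pp q h g') (((2 * h * g' : ℕ) : ℝ) * θ + ((g' - 1 : ℕ) : ℝ) * (1 - q))
      (((2 * h * g' : ℕ) : ℝ) * (q ^ 2 * θ) + ((g' - 1 : ℕ) : ℝ) * (q * (1 - q))) :=
    fun g' => (hA.pow _).mul (hM.pow _)
  have hf := hA.pow (h * g)
  have hk := (hA.pow (h * g)).mul (hM.pow (g - 1))
  have hpp : pp q h g = A ^ (h * g) * (A ^ (h * g) * M ^ (g - 1)) := by
    rw [← mul_assoc, ← pow_add]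
    have : h * g + h * g = 2 * h * g := by ring
    rw [this]
    rfl
  have hfB : ∀ x, (A ^ (h * g)).coeff x ≤ B := by
    intro x
    refine (hC (h * g) x).trans ?_
    refine div_le_div_of_nonneg_left hC0.le (Real.sqrt_pos.mpr hgh) (Real.sqrt_le_sqrt ?_)
    push_cast
    nlinarith
  have hkB : ∀ x, (A ^ (h * g) * M ^ (g - 1)).coeff x ≤ B :=
    sup_mul hB0 hfB (hM.pow (g - 1)).toPr
  have hself : L (pp q h g).coeff (pp q h g) ≤ B := by
    have h1 : ∀ x, (pp q h g).coeff x ≤ B := by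
      rw [hpp]
      exact sup_mul hB0 hfB hk.toPr
    have h2 := L_shift_le hB0 h1 (hppM g).toPr 0
    simpa only [zero_add] using h2
  have hoff : ∀ g' ∈ (Icc 1 (n + 1)).erase g,
      L (pp q h g').coeff (pp q h g) ≤ (B * K) * (1 / ((g : ℝ) - g') ^ 2) := by
    intro g' hg'mem
    simp only [Finset.mem_erase, Finset.mem_Icc] at hg'mem
    obtain ⟨hne, h1, h2⟩ := hg'mem
    have hd : (g : ℝ) - g' ≠ 0 := by
      rw [sub_ne_zero]
      intro hgg
      exact hne (by exact_mod_cast hgg.symm)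
    have hd2 : 0 < |(g : ℝ) - g'| := abs_pos.mpr hd
    have hD : 0 < |(g : ℝ) - g'| * (2 * h * θ) / 3 := by positivity
    have c1 : ((g - 1 : ℕ) : ℝ) = g - 1 := by rw [Nat.cast_sub hg, Nat.cast_one]
    have c2 : ((g' - 1 : ℕ) : ℝ) = g' - 1 := by rw [Nat.cast_sub h1, Nat.cast_one]
    have h3 : 3 * (|(g : ℝ) - g'| * (2 * h * θ) / 3) ≤
        |((h * g : ℕ) : ℝ) * θ + (((h * g : ℕ) : ℝ) * θ + ((g - 1 : ℕ) : ℝ) * (1 - q)) -
          (((2 * h * g' : ℕ) : ℝ) * θ + ((g' - 1 : ℕ) : ℝ) * (1 - q))| := by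
      have e : ((h * g : ℕ) : ℝ) * θ + (((h * g : ℕ) : ℝ) * θ + ((g - 1 : ℕ) : ℝ) * (1 - q)) -
          (((2 * h * g' : ℕ) : ℝ) * θ + ((g' - 1 : ℕ) : ℝ) * (1 - q)) =
          ((g : ℝ) - g') * (2 * h * θ + (1 - q)) := by
        rw [c1, c2]
        push_cast
        ring
      have hpos : 0 ≤ 2 * (h : ℝ) * θ + (1 - q) := by
        have : 0 ≤ 2 * (h : ℝ) * θ := by positivity
        linarith
      rw [e, abs_mul, abs_of_nonneg hpos]
      have : |(g : ℝ) - g'| * (2 * h * θ) ≤ |(g : ℝ) - g'| * (2 * h * θ + (1 - q)) :=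
        mul_le_mul_of_nonneg_left (by linarith) hd2.le
      linarith
    have hkey := key hf hk (hppM g') hB0 hfB hkB hD h3
    rw [hpp]
    refine hkey.trans ?_
    have hv : ((h * g : ℕ) : ℝ) * (q ^ 2 * θ) + (((h * g : ℕ) : ℝ) * (q ^ 2 * θ) +
        ((g - 1 : ℕ) : ℝ) * (q * (1 - q))) + (((2 * h * g' : ℕ) : ℝ) * (q ^ 2 * θ) +
        ((g' - 1 : ℕ) : ℝ) * (q * (1 - q))) ≤ 6 * ((C1 : ℝ) + 1) * h ^ 2 := by
      rw [c1, c2]
      push_cast
      exact var_le (n := (n : ℝ)) hq hq1 hθ hh' (by exact_mod_cast hn) (by exact_mod_cast hgn)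
        (by exact_mod_cast h2) hg' (by exact_mod_cast h1)
    have hD2 : (|(g : ℝ) - g'| * (2 * h * θ) / 3) ^ 2 = ((g : ℝ) - g') ^ 2 * (4 * h ^ 2 * θ ^ 2 / 9) := by
      rw [← sq_abs ((g : ℝ) - g')]
      ring
    rw [hD2, div_le_iff₀ (by positivity)]
    have e2 : (B * K) * (1 / ((g : ℝ) - g') ^ 2) * (((g : ℝ) - g') ^ 2 * (4 * h ^ 2 * θ ^ 2 / 9)) =
        B * (6 * ((C1 : ℝ) + 1) * h ^ 2) := by
      rw [hK]
      field_simp
      ring
    rw [e2]
    exact mul_le_mul_of_nonneg_left hv hB0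
  have hsum : ip (pp q h g) (∑ g' ∈ Icc 1 (n + 1), pp q h g') =
      ∑ g' ∈ Icc 1 (n + 1), L (pp q h g').coeff (pp q h g) := by
    unfold ip L
    rw [Finset.sum_comm]
    refine Finset.sum_congr rfl fun x _ => ?_
    rw [Polynomial.finsetSum_coeff, Finset.mul_sum]
  rw [hsum, ← Finset.add_sum_erase _ _ (Finset.mem_Icc.mpr ⟨hg, hgn⟩)]
  calc L (pp q h g).coeff (pp q h g) +
        ∑ g' ∈ (Icc 1 (n + 1)).erase g, L (pp q h g').coeff (pp q h g)
      ≤ B + ∑ g' ∈ (Icc 1 (n + 1)).erase g, (B * K) * (1 / ((g : ℝ) - g') ^ 2) :=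
        add_le_add hself (Finset.sum_le_sum hoff)
    _ = B + (B * K) * ∑ g' ∈ (Icc 1 (n + 1)).erase g, 1 / ((g : ℝ) - g') ^ 2 := by
        rw [Finset.mul_sum]
    _ ≤ B + (B * K) * 4 := by
        have := mul_le_mul_of_nonneg_left (sum_inv_sq_le g n) (mul_nonneg hB0 hK0.le)
        linarith
    _ = Cθ * (1 + 4 * K) / √((g : ℝ) * h) := by
        rw [hB]
        ring

end Vale.Agent.P321.SP
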