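import Mathlib

/-!
# P321, module SP/B1c: a scalar renewal inequality
-/

namespace Vale.Agent.P321.SP

open Finset

namespace B1c

theorem sum_inv_sqrt (n : ℕ) : ∑ i ∈ range n, 1 / √((i : ℝ) + 1) ≤ 2 * √(n : ℝ) := by
  induction n with
  | zero => simp
  | succ n ih =>
    rw [sum_range_succ]
    have h0 : (0 : ℝ) ≤ n := Nat.cast_nonneg n
    have h1 : 0 < √((n : ℝ) + 1) := Real.sqrt_pos.2 (by linarith)
    have h2 : √((n : ℝ) + 1) ^ 2 = n + 1 := Real.sq_sqrt (by linarith)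
    have h3 : √(n : ℝ) ^ 2 = n := Real.sq_sqrt h0
    have h4 : 1 / √((n : ℝ) + 1) ≤ 2 * √((n : ℝ) + 1) - 2 * √(n : ℝ) := by
      rw [div_le_iff₀ h1]
      nlinarith [sq_nonneg (√((n : ℝ) + 1) - √(n : ℝ))]
    push_cast
    linarith

theorem sum_inv_sqrt_reflect (n : ℕ) :
    ∑ i ∈ range n, 1 / √((n : ℝ) - i) = ∑ i ∈ range n, 1 / √((i : ℝ) + 1) := by
  rw [← sum_range_reflect (fun i : ℕ => 1 / √((i : ℝ) + 1))]
  refine sum_congr rfl (fun i hi => ?_)
  rw [mem_range] at hi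
  congr 2
  rw [Nat.sub_sub, Nat.cast_sub (by omega)]
  push_cast
  ring

theorem inv_sqrt_mul_le {a b : ℝ} (ha : 0 < a) (hb : 0 < b) :
    1 / (√a * √b) ≤ (1 / √(a + b)) * (1 / √a + 1 / √b) := by
  have h1 : 0 < √a := Real.sqrt_pos.2 ha
  have h2 : 0 < √b := Real.sqrt_pos.2 hb
  have h3 : 0 < √(a + b) := Real.sqrt_pos.2 (by linarith)
  have h4 : √(a + b) ≤ √a + √b := by
    rw [Real.sqrt_le_left (by positivity)]
    rw [add_sq, Real.sq_sqrt ha.le, Real.sq_sqrt hb.le]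
    nlinarith
  rw [div_add_div _ _ h1.ne' h2.ne', one_mul, mul_one, div_mul_div_comm, one_mul,
    div_le_div_iff₀ (by positivity) (by positivity), one_mul, ← mul_assoc]
  have h5 : 0 < √a * √b := by positivity
  nlinarith

/-- the discrete Beta function -/
theorem beta_le (n : ℕ) : ∑ i ∈ range n, 1 / (√((i : ℝ) + 1) * √((n : ℝ) - i)) ≤ 4 := by
  have h0 : (0 : ℝ) ≤ n := Nat.cast_nonneg n
  have h1 : ∀ i ∈ range n, 1 / (√((i : ℝ) + 1) * √((n : ℝ) - i)) ≤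
      (1 / √((n : ℝ) + 1)) * (1 / √((i : ℝ) + 1) + 1 / √((n : ℝ) - i)) := by
    intro i hi
    rw [mem_range] at hi
    have hi' : (i : ℝ) < n := by exact_mod_cast hi
    have h2 := inv_sqrt_mul_le (a := (i : ℝ) + 1) (b := (n : ℝ) - i) (by positivity)
      (by linarith)
    have h3 : (i : ℝ) + 1 + ((n : ℝ) - i) = n + 1 := by ring
    rwa [h3] at h2
  refine (sum_le_sum h1).trans ?_
  rw [← mul_sum, sum_add_distrib, sum_inv_sqrt_reflect]
  have h2 := sum_inv_sqrt n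
  have h3 : 0 < √((n : ℝ) + 1) := Real.sqrt_pos.2 (by linarith)
  have h4 : √(n : ℝ) ≤ √((n : ℝ) + 1) := Real.sqrt_le_sqrt (by linarith)
  rw [one_div, inv_mul_le_iff₀ h3]
  linarith

/-- two steps of the inequality -/
theorem two_step {a ε : ℝ} (hε : 0 ≤ ε) (ha : 0 ≤ a) {N : ℕ} {w : ℕ → ℝ}
    (hw0 : ∀ n ≤ N, 0 ≤ w n)
    (hw : ∀ n ≤ N, w n ≤ a / √((n : ℝ) + 1) + ε * ∑ m ∈ range n, w m / √((n : ℝ) - m)) :
    ∀ n ≤ N, w n ≤ a / √((n : ℝ) + 1) + 4 * ε * a + 4 * ε ^ 2 * ∑ m ∈ range n, w m := by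
  intro n hn
  have h1 : ∑ m ∈ range n, w m / √((n : ℝ) - m) ≤
      ∑ m ∈ range n, (a / √((m : ℝ) + 1) + ε * ∑ l ∈ range m, w l / √((m : ℝ) - l)) /
        √((n : ℝ) - m) := by
    refine sum_le_sum (fun m hm => ?_)
    rw [mem_range] at hm
    have := hw m (by omega)
    gcongr
  have h2 : ∑ m ∈ range n, (a / √((m : ℝ) + 1) + ε * ∑ l ∈ range m, w l / √((m : ℝ) - l)) /
        √((n : ℝ) - m) =
      a * ∑ m ∈ range n, 1 / (√((m : ℝ) + 1) * √((n : ℝ) - m)) +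
      ε * ∑ m ∈ range n, ∑ l ∈ range m, w l * (1 / (√((m : ℝ) - l) * √((n : ℝ) - m))) := by
    rw [mul_sum, mul_sum, ← sum_add_distrib]
    refine sum_congr rfl (fun m _ => ?_)
    rw [add_div, mul_div_assoc, sum_div]
    congr 1
    · rw [mul_one_div, div_div]
    · congr 1
      refine sum_congr rfl (fun l _ => ?_)
      rw [mul_one_div, div_div]
  have h3 : ∑ m ∈ range n, ∑ l ∈ range m, w l * (1 / (√((m : ℝ) - l) * √((n : ℝ) - m))) =
      ∑ l ∈ range n, w l * ∑ m ∈ Ioo l n, 1 / (√((m : ℝ) - l) * √((n : ℝ) - m)) := by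
    rw [Finset.sum_comm' (s' := fun l => Ioo l n) (t' := range n)]
    · refine sum_congr rfl (fun l _ => ?_)
      rw [mul_sum]
    · intro m l
      simp only [mem_range, mem_Ioo]
      omega
  have h4 : ∀ l ∈ range n, ∑ m ∈ Ioo l n, 1 / (√((m : ℝ) - l) * √((n : ℝ) - m)) ≤ 4 := by
    intro l hl
    rw [mem_range] at hl
    refine le_trans (le_of_eq ?_) (beta_le (n - l - 1))
    refine (sum_bij (fun i _ => l + 1 + i) ?_ ?_ ?_ ?_).symm
    · intro i hi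
      rw [mem_range] at hi
      rw [mem_Ioo]
      omega
    · intro i _ j _ hij
      omega
    · intro m hm
      rw [mem_Ioo] at hm
      exact ⟨m - l - 1, by rw [mem_range]; omega, by omega⟩
    · intro i hi
      rw [mem_range] at hi
      rw [Nat.sub_sub, Nat.cast_sub (by omega)]
      push_cast
      have e1 : (l : ℝ) + 1 + i - l = i + 1 := by ring
      have e2 : (n : ℝ) - (l + 1 + i) = n - (l + 1) - i := by ring
      rw [e1, e2]
  have h5 : ∑ l ∈ range n, w l * ∑ m ∈ Ioo l n, 1 / (√((m : ℝ) - l) * √((n : ℝ) - m)) ≤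
      ∑ l ∈ range n, w l * 4 := by
    refine sum_le_sum (fun l hl => ?_)
    have := h4 l hl
    rw [mem_range] at hl
    exact mul_le_mul_of_nonneg_left this (hw0 l (by omega))
  rw [← sum_mul] at h5
  have h6 := beta_le n
  calc w n ≤ a / √((n : ℝ) + 1) + ε * ∑ m ∈ range n, w m / √((n : ℝ) - m) := hw n hn
    _ ≤ a / √((n : ℝ) + 1) + ε * (a * 4 + ε * ((∑ l ∈ range n, w l) * 4)) := by
      have h7 : ∑ m ∈ range n, w m / √((n : ℝ) - m) ≤
          a * 4 + ε * ((∑ l ∈ range n, w l) * 4) := by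
        refine h1.trans ?_
        rw [h2, h3]
        gcongr
      gcongr
    _ = _ := by ring

/-- discrete Gronwall -/
theorem gronwall {A δ : ℝ} (hA : 0 ≤ A) (hδ : 0 ≤ δ) {N : ℕ} {w : ℕ → ℝ}
    (hw : ∀ n ≤ N, w n ≤ A / √((n : ℝ) + 1) + δ * ∑ m ∈ range n, w m) :
    ∀ n ≤ N + 1, ∑ m ∈ range n, w m ≤ (1 + δ) ^ n * (2 * A * √(n : ℝ)) := by
  intro n
  induction n with
  | zero => intro _; simp
  | succ n ih =>
    intro hn
    have ih' := ih (by omega)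
    have h1 := hw n (by omega)
    have h2 : 0 < √((n : ℝ) + 1) := Real.sqrt_pos.2 (by positivity)
    have h3 : 1 / √((n : ℝ) + 1) ≤ 2 * √((n : ℝ) + 1) - 2 * √(n : ℝ) := by
      have h0 : (0 : ℝ) ≤ n := Nat.cast_nonneg n
      have h4 : √((n : ℝ) + 1) ^ 2 = n + 1 := Real.sq_sqrt (by linarith)
      have h5 : √(n : ℝ) ^ 2 = n := Real.sq_sqrt h0
      rw [div_le_iff₀ h2]
      nlinarith [sq_nonneg (√((n : ℝ) + 1) - √(n : ℝ))]
    have h4 : A / √((n : ℝ) + 1) ≤ A * (2 * √((n : ℝ) + 1) - 2 * √(n : ℝ)) := by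
      rw [div_eq_mul_one_div]
      gcongr
    have h5 : (1 : ℝ) ≤ (1 + δ) ^ (n + 1) := one_le_pow₀ (by linarith)
    have h6 : 0 ≤ A * (2 * √((n : ℝ) + 1) - 2 * √(n : ℝ)) := by
      have : √(n : ℝ) ≤ √((n : ℝ) + 1) := Real.sqrt_le_sqrt (by linarith)
      exact mul_nonneg hA (by linarith)
    rw [sum_range_succ]
    push_cast
    calc ∑ m ∈ range n, w m + w n
        ≤ (1 + δ) * ∑ m ∈ range n, w m + A * (2 * √((n : ℝ) + 1) - 2 * √(n : ℝ)) := by linarith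
      _ ≤ (1 + δ) * ((1 + δ) ^ n * (2 * A * √(n : ℝ))) +
          (1 + δ) ^ (n + 1) * (A * (2 * √((n : ℝ) + 1) - 2 * √(n : ℝ))) := by
          have h7 : (1 + δ) * ∑ m ∈ range n, w m ≤
              (1 + δ) * ((1 + δ) ^ n * (2 * A * √(n : ℝ))) := by gcongr
          exact add_le_add h7 (le_mul_of_one_le_left h6 h5)
      _ = (1 + δ) ^ (n + 1) * (2 * A * √((n : ℝ) + 1)) := by ring

end B1c

theorem scalar_rec {C D : ℝ} (hC : 0 < C) (hD : 0 < D) (C1 : ℕ) :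
    ∃ C' : ℝ, 0 < C' ∧ ∀ (h N : ℕ) (W : ℕ → ℝ), 1 ≤ h → N ≤ C1 * h → (∀ n ≤ N, 0 ≤ W n) →
      (∀ n ≤ N, W n ≤ C / √(((n : ℝ) + 1) * h) +
        D * ∑ g ∈ Icc 1 n, C / √((g : ℝ) * h) * W (n - g)) →
      ∀ n ≤ N, W n ≤ C' / √(((n : ℝ) + 1) * h) := by
  set κ : ℝ := 4 * (D * C) ^ 2 with hκ
  set A : ℝ := C + 4 * (D * C) * C * √((C1 : ℝ) + 1) with hA
  have hκ0 : 0 < κ := by positivity
  have hA0 : 0 < A := by positivity
  refine ⟨A + κ * ((C1 : ℝ) + 1) * (2 * A * Real.exp (κ * C1)), by positivity, ?_⟩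
  intro h N W hh hN hW0 hW
  have hh0 : (0 : ℝ) < h := by exact_mod_cast hh
  have hsh : 0 < √(h : ℝ) := Real.sqrt_pos.2 hh0
  have hsh2 : √(h : ℝ) * √(h : ℝ) = h := Real.mul_self_sqrt hh0.le
  have hNr : (N : ℝ) ≤ C1 * h := by exact_mod_cast hN
  set w : ℕ → ℝ := fun n => √(h : ℝ) * W n with hw
  set ε : ℝ := D * C / √(h : ℝ) with hε
  have hε0 : 0 < ε := by positivity
  have hw0 : ∀ n ≤ N, 0 ≤ w n := fun n hn => mul_nonneg hsh.le (hW0 n hn)
  have hre : ∀ n : ℕ, ∑ g ∈ Icc 1 n, C / √((g : ℝ) * h) * W (n - g) =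
      ∑ m ∈ range n, C / √(((n : ℝ) - m) * h) * W m := by
    intro n
    refine sum_bij' (fun g _ => n - g) (fun m _ => n - m) ?_ ?_ ?_ ?_ ?_
    · intro g hg
      rw [mem_Icc] at hg
      rw [mem_range]
      omega
    · intro m hm
      rw [mem_range] at hm
      rw [mem_Icc]
      omega
    · intro g hg
      rw [mem_Icc] at hg
      omega
    · intro m hm
      rw [mem_range] at hm
      omega
    · intro g hg
      rw [mem_Icc] at hg
      rw [Nat.cast_sub (by omega)]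
      congr 4
      ring
  have hw1 : ∀ n ≤ N, w n ≤ C / √((n : ℝ) + 1) + ε * ∑ m ∈ range n, w m / √((n : ℝ) - m) := by
    intro n hn
    have h1 := hW n hn
    rw [hre] at h1
    have h2 : √(h : ℝ) * (C / √(((n : ℝ) + 1) * h)) = C / √((n : ℝ) + 1) := by
      rw [Real.sqrt_mul (by positivity)]
      field_simp
    have h3 : √(h : ℝ) * (D * ∑ m ∈ range n, C / √(((n : ℝ) - m) * h) * W m) =
        ε * ∑ m ∈ range n, w m / √((n : ℝ) - m) := by
      rw [mul_sum, mul_sum, mul_sum]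
      refine sum_congr rfl (fun m hm => ?_)
      rw [mem_range] at hm
      have hm' : (0 : ℝ) < (n : ℝ) - m := by
        have : (m : ℝ) < n := by exact_mod_cast hm
        linarith
      rw [Real.sqrt_mul hm'.le]
      have h4 : 0 < √((n : ℝ) - m) := Real.sqrt_pos.2 hm'
      simp only [hw, hε]
      field_simp
    calc w n ≤ √(h : ℝ) * (C / √(((n : ℝ) + 1) * h) +
          D * ∑ m ∈ range n, C / √(((n : ℝ) - m) * h) * W m) := by
          simp only [hw]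
          gcongr
      _ = _ := by rw [mul_add, h2, h3]
  have hw2 := B1c.two_step hε0.le hC.le hw0 hw1
  -- absorb the constant term
  have hn1 : ∀ n ≤ N, (n : ℝ) + 1 ≤ ((C1 : ℝ) + 1) * h := by
    intro n hn
    have h1 : (n : ℝ) ≤ N := by exact_mod_cast hn
    have h2 : (1 : ℝ) ≤ h := by exact_mod_cast hh
    nlinarith
  have hε2 : 4 * ε ^ 2 = κ / h := by
    rw [hε, hκ, div_pow, Real.sq_sqrt hh0.le]
    ring
  have hw3 : ∀ n ≤ N, w n ≤ A / √((n : ℝ) + 1) + κ / h * ∑ m ∈ range n, w m := by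
    intro n hn
    have h1 := hw2 n hn
    have hs : 0 < √((n : ℝ) + 1) := Real.sqrt_pos.2 (by positivity)
    have h2 : 4 * ε * C ≤ 4 * (D * C) * C * √((C1 : ℝ) + 1) / √((n : ℝ) + 1) := by
      rw [le_div_iff₀ hs]
      have h3 : √((n : ℝ) + 1) ≤ √((C1 : ℝ) + 1) * √(h : ℝ) := by
        rw [← Real.sqrt_mul (by positivity)]
        exact Real.sqrt_le_sqrt (hn1 n hn)
      calc 4 * ε * C * √((n : ℝ) + 1) ≤ 4 * ε * C * (√((C1 : ℝ) + 1) * √(h : ℝ)) := by gcongr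
        _ = 4 * (D * C) * C * √((C1 : ℝ) + 1) := by
          rw [hε]
          field_simp
    rw [hε2] at h1
    rw [hA, add_div]
    linarith
  have hδ0 : 0 ≤ κ / (h : ℝ) := by positivity
  have hG := B1c.gronwall hA0.le hδ0 hw3
  intro n hn
  have hs : 0 < √((n : ℝ) + 1) := Real.sqrt_pos.2 (by positivity)
  have h1 := hw3 n hn
  have h2 := hG n (by omega)
  have h3 : (1 + κ / (h : ℝ)) ^ n ≤ Real.exp (κ * C1) := by
    have h4 : (1 + κ / (h : ℝ)) ^ n ≤ (Real.exp (κ / h)) ^ n := by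
      gcongr
      have := Real.add_one_le_exp (κ / (h : ℝ))
      linarith
    refine h4.trans ?_
    rw [← Real.exp_nat_mul]
    apply Real.exp_le_exp.2
    have h5 : (n : ℝ) ≤ C1 * h := le_trans (by exact_mod_cast hn) hNr
    rw [← mul_div_assoc, div_le_iff₀ hh0]
    nlinarith
  have h4 : κ / h * √(n : ℝ) ≤ κ * ((C1 : ℝ) + 1) / √((n : ℝ) + 1) := by
    have h5 : √(n : ℝ) ≤ √((n : ℝ) + 1) := Real.sqrt_le_sqrt (by linarith)
    rw [le_div_iff₀ hs]
    have h6 : √(n : ℝ) * √((n : ℝ) + 1) ≤ (n : ℝ) + 1 := by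
      calc √(n : ℝ) * √((n : ℝ) + 1) ≤ √((n : ℝ) + 1) * √((n : ℝ) + 1) := by gcongr
        _ = (n : ℝ) + 1 := Real.mul_self_sqrt (by positivity)
    calc κ / h * √(n : ℝ) * √((n : ℝ) + 1) = κ / h * (√(n : ℝ) * √((n : ℝ) + 1)) := by ring
      _ ≤ κ / h * (((C1 : ℝ) + 1) * h) :=
        mul_le_mul_of_nonneg_left (h6.trans (hn1 n hn)) hδ0
      _ = κ * ((C1 : ℝ) + 1) := by
        field_simp
  have h5 : w n ≤ (A + κ * ((C1 : ℝ) + 1) * (2 * A * Real.exp (κ * C1))) / √((n : ℝ) + 1) := by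
    calc w n ≤ A / √((n : ℝ) + 1) + κ / h * ∑ m ∈ range n, w m := h1
      _ ≤ A / √((n : ℝ) + 1) + κ / h * ((1 + κ / (h : ℝ)) ^ n * (2 * A * √(n : ℝ))) := by gcongr
      _ ≤ A / √((n : ℝ) + 1) + κ / h * (Real.exp (κ * C1) * (2 * A * √(n : ℝ))) := by gcongr
      _ = A / √((n : ℝ) + 1) + (κ / h * √(n : ℝ)) * (2 * A * Real.exp (κ * C1)) := by ring
      _ ≤ A / √((n : ℝ) + 1) + (κ * ((C1 : ℝ) + 1) / √((n : ℝ) + 1)) *
          (2 * A * Real.exp (κ * C1)) := by gcongr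
      _ = _ := by ring
  have h6 : W n = w n / √(h : ℝ) := by
    simp only [hw]
    field_simp
  rw [h6, Real.sqrt_mul (by positivity), ← div_div]
  gcongr

end Vale.Agent.P321.SP
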