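import Vale.Agent.Lib.P321.SP.B1Defs

/-!
P321, superpolynomial lower bound: the totals of the marked windows overlap.
-/

namespace Vale.Agent.P321.SP

open Finset Polynomial

namespace B1d

/-- The sum of the absolute values of the coefficients. -/
noncomputable def l1 (f : ℝ[X]) : ℝ := ∑ x ∈ f.support, |f.coeff x|

theorem l1_eq {f : ℝ[X]} {s : Finset ℕ} (h : f.support ⊆ s) : l1 f = ∑ x ∈ s, |f.coeff x| := by
  unfold l1
  refine Finset.sum_subset h fun x _ hx => ?_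
  rw [Polynomial.notMem_support_iff] at hx
  rw [hx, abs_zero]

theorem l1_nonneg (f : ℝ[X]) : 0 ≤ l1 f := Finset.sum_nonneg fun _ _ => abs_nonneg _

theorem sum_le_l1 (f : ℝ[X]) (s : Finset ℕ) : ∑ x ∈ s, |f.coeff x| ≤ l1 f := by
  classical
  rw [l1_eq (s := f.support ∪ s) Finset.subset_union_left]
  exact Finset.sum_le_sum_of_subset_of_nonneg Finset.subset_union_right fun x _ _ => abs_nonneg _

theorem l1_add (f g : ℝ[X]) : l1 (f + g) ≤ l1 f + l1 g := by
  classical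
  rw [l1_eq (f := f) (s := f.support ∪ g.support) Finset.subset_union_left,
    l1_eq (f := g) (s := f.support ∪ g.support) Finset.subset_union_right,
    l1_eq (f := f + g) (s := f.support ∪ g.support) Polynomial.support_add,
    ← Finset.sum_add_distrib]
  refine Finset.sum_le_sum fun x _ => ?_
  rw [coeff_add]
  exact abs_add_le _ _

theorem l1_zero : l1 (0 : ℝ[X]) = 0 := by simp [l1]

theorem l1_sum {ι : Type*} (s : Finset ι) (f : ι → ℝ[X]) : l1 (∑ i ∈ s, f i) ≤ ∑ i ∈ s, l1 (f i) := by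
  classical
  induction s using Finset.induction_on with
  | empty => simp [l1_zero]
  | insert a s ha ih =>
    rw [Finset.sum_insert ha, Finset.sum_insert ha]
    exact (l1_add _ _).trans (by linarith)

theorem l1_monomial_mul (i : ℕ) (a : ℝ) (g : ℝ[X]) : l1 (monomial i a * g) ≤ |a| * l1 g := by
  classical
  have hsub : (monomial i a * g).support ⊆ g.support.image (fun x => x + i) := by
    intro n hn
    rw [mem_support_iff] at hn
    have hi : i ≤ n := by
      by_contra hcon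
      apply hn
      rw [← C_mul_X_pow_eq_monomial, mul_assoc, coeff_C_mul, coeff_X_pow_mul', if_neg hcon,
        mul_zero]
    obtain ⟨m, rfl⟩ := Nat.exists_eq_add_of_le hi
    rw [Finset.mem_image]
    refine ⟨m, ?_, by ring⟩
    rw [mem_support_iff]
    intro h0
    apply hn
    rw [add_comm i m, coeff_monomial_mul, h0, mul_zero]
  rw [l1_eq hsub, Finset.sum_image (fun x _ y _ h => Nat.add_right_cancel h)]
  unfold l1
  rw [Finset.mul_sum]
  refine le_of_eq (Finset.sum_congr rfl fun x _ => ?_)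
  rw [coeff_monomial_mul, abs_mul]

theorem l1_mul (f g : ℝ[X]) : l1 (f * g) ≤ l1 f * l1 g := by
  have h : f * g = ∑ i ∈ f.support, monomial i (f.coeff i) * g := by
    rw [← Finset.sum_mul]
    congr 1
    exact f.as_sum_support
  rw [h]
  refine (l1_sum _ _).trans ?_
  unfold l1
  rw [Finset.sum_mul]
  exact Finset.sum_le_sum fun i _ => l1_monomial_mul i _ g

/-- Nonnegative coefficients. -/
def Nc (f : ℝ[X]) : Prop := ∀ n, 0 ≤ f.coeff n

theorem Nc.mul {f g : ℝ[X]} (hf : Nc f) (hg : Nc g) : Nc (f * g) := fun n => by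
  rw [coeff_mul]
  exact Finset.sum_nonneg fun x _ => mul_nonneg (hf _) (hg _)

theorem Nc.one : Nc (1 : ℝ[X]) := fun n => by
  rw [coeff_one]; split_ifs <;> norm_num

theorem Nc.pow {f : ℝ[X]} (hf : Nc f) (n : ℕ) : Nc (f ^ n) := by
  induction n with
  | zero => simpa using Nc.one
  | succ n ih => rw [pow_succ]; exact ih.mul hf

theorem Nc.lin {a b : ℝ} (ha : 0 ≤ a) (hb : 0 ≤ b) : Nc (C a + C b * X) := fun n => by
  rw [coeff_add, coeff_C, coeff_C_mul, coeff_X]
  split_ifs <;> simp [ha, hb, add_nonneg]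

theorem l1_of_nc {f : ℝ[X]} (hf : Nc f) : l1 f = f.eval 1 := by
  unfold l1
  rw [eval_eq_sum, Polynomial.sum]
  refine Finset.sum_congr rfl fun x _ => ?_
  rw [one_pow, mul_one, abs_of_nonneg (hf x)]

theorem sum_eq_eval {f : ℝ[X]} {s : Finset ℕ} (h : f.support ⊆ s) :
    ∑ x ∈ s, f.coeff x = f.eval 1 := by
  rw [eval_eq_sum, Polynomial.sum]
  simp only [one_pow, mul_one]
  symm
  refine Finset.sum_subset h fun x _ hx => ?_
  rwa [Polynomial.notMem_support_iff] at hx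

theorem coeff_X_deriv (f : ℝ[X]) (n : ℕ) : (X * derivative f).coeff n = n * f.coeff n := by
  cases n with
  | zero => simp
  | succ n => rw [coeff_X_mul, coeff_derivative]; push_cast; ring

section binom

variable (θ : ℝ)

/-- The generating polynomial of one Bernoulli variable. -/
noncomputable def ber : ℝ[X] := C (1 - θ) + C θ * X

theorem ber_eval : (ber θ).eval 1 = 1 := by simp [ber]

theorem ber_pow_eval (N : ℕ) : (ber θ ^ N).eval 1 = 1 := by
  rw [eval_pow, ber_eval, one_pow]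

theorem ber_natDegree : (ber θ).natDegree ≤ 1 := by
  unfold ber
  refine (natDegree_add_le _ _).trans ?_
  rw [natDegree_C]
  refine max_le (Nat.zero_le 1) ?_
  exact (natDegree_C_mul_le _ _).trans natDegree_X_le

theorem ber_pow_natDegree (N : ℕ) : (ber θ ^ N).natDegree ≤ N := by
  refine natDegree_pow_le.trans ?_
  calc N * (ber θ).natDegree ≤ N * 1 := Nat.mul_le_mul_left _ (ber_natDegree θ)
    _ = N := mul_one N

theorem key_id (N : ℕ) :
    C (θ * (N + 1)) * ber θ ^ (N + 1) - X * derivative (ber θ ^ (N + 1))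
      = C ((N + 1) * (θ * (1 - θ))) * ((1 - X) * ber θ ^ N) := by
  have hd : derivative (ber θ) = C θ := by simp [ber]
  have e : ber θ ^ (N + 1) = ber θ ^ N * ber θ := pow_succ _ _
  rw [derivative_pow, hd, Nat.add_sub_cancel, e]
  unfold ber
  simp only [map_mul, map_sub, map_add, map_one, map_natCast, Nat.cast_add, Nat.cast_one]
  ring

theorem coeff_id (N x : ℕ) :
    (θ * (N + 1) - x) * (ber θ ^ (N + 1)).coeff x
      = ((N + 1) * (θ * (1 - θ))) * ((1 - X) * ber θ ^ N).coeff x := by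
  rw [← coeff_C_mul (a := ((N : ℝ) + 1) * (θ * (1 - θ))), ← key_id, coeff_sub, coeff_C_mul,
    coeff_X_deriv]
  ring

theorem var_id (N : ℕ) :
    ∑ x ∈ range (N + 2), (θ * (N + 1) - x) ^ 2 * (ber θ ^ (N + 1)).coeff x
      = (N + 1) * (θ * (1 - θ)) := by
  have h1 : ∀ x : ℕ, (θ * (N + 1) - x) ^ 2 * (ber θ ^ (N + 1)).coeff x
      = ((N + 1) * (θ * (1 - θ))) * (C (θ * (N + 1)) * ((1 - X) * ber θ ^ N)
        - X * derivative ((1 - X) * ber θ ^ N)).coeff x := by
    intro x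
    rw [sq, mul_assoc, coeff_id, coeff_sub, coeff_C_mul, coeff_X_deriv]
    ring
  simp only [h1]
  rw [← Finset.mul_sum, sum_eq_eval]
  · simp [ber_eval]
  · have hdeg : ((1 - X) * ber θ ^ N : ℝ[X]).natDegree ≤ N + 1 := by
      refine natDegree_mul_le.trans ?_
      have a1 : (1 - X : ℝ[X]).natDegree ≤ 1 := by
        refine (natDegree_sub_le _ _).trans ?_
        simp
      have a2 := ber_pow_natDegree θ N
      omega
    have h2 : (C (θ * (N + 1)) * ((1 - X) * ber θ ^ N)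
        - X * derivative ((1 - X) * ber θ ^ N)).natDegree ≤ N + 1 := by
      refine (natDegree_sub_le _ _).trans (max_le ((natDegree_C_mul_le _ _).trans hdeg) ?_)
      rw [natDegree_le_iff_coeff_eq_zero]
      intro n hn
      rw [coeff_X_deriv, coeff_eq_zero_of_natDegree_lt (lt_of_le_of_lt hdeg hn), mul_zero]
    exact supp_subset_range (by omega)

theorem nc_ber (h0 : 0 ≤ θ) (h1 : θ ≤ 1) : Nc (ber θ) := Nc.lin (by linarith) h0

theorem l1_shift (h0 : 0 < θ) (h1 : θ < 1) (N : ℕ) :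
    l1 ((1 - X) * ber θ ^ N) ^ 2 * ((N + 1) * (θ * (1 - θ))) ≤ 1 := by
  set κ : ℝ := (N + 1) * (θ * (1 - θ)) with hκ
  have hκ0 : 0 < κ := by
    have : 0 < θ * (1 - θ) := mul_pos h0 (by linarith)
    positivity
  set w : ℕ → ℝ := fun x => (ber θ ^ (N + 1)).coeff x with hw
  have hw0 : ∀ x, 0 ≤ w x := (nc_ber θ h0.le h1.le).pow (N + 1)
  have hdeg : ((1 - X) * ber θ ^ N : ℝ[X]).natDegree ≤ N + 1 := by
    refine natDegree_mul_le.trans ?_
    have a1 : (1 - X : ℝ[X]).natDegree ≤ 1 := by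
      refine (natDegree_sub_le _ _).trans ?_
      simp
    have a2 := ber_pow_natDegree θ N
    omega
  have hl : κ * l1 ((1 - X) * ber θ ^ N) = ∑ x ∈ range (N + 2), |θ * (N + 1) - x| * w x := by
    rw [l1_eq (s := range (N + 2)) (supp_subset_range (by omega)), Finset.mul_sum]
    refine Finset.sum_congr rfl fun x _ => ?_
    have := coeff_id θ N x
    rw [← hκ] at this
    calc κ * |((1 - X) * ber θ ^ N).coeff x| = |κ * ((1 - X) * ber θ ^ N).coeff x| := by
          rw [abs_mul, abs_of_pos hκ0]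
      _ = |θ * (N + 1) - x| * w x := by
          rw [← this, abs_mul]
          congr 1
          exact abs_of_nonneg (hw0 x)
  have hcs : (∑ x ∈ range (N + 2), |θ * (N + 1) - x| * w x) ^ 2
      ≤ (∑ x ∈ range (N + 2), (θ * (N + 1) - x) ^ 2 * w x) * ∑ x ∈ range (N + 2), w x := by
    refine Finset.sum_sq_le_sum_mul_sum_of_sq_le_mul _ (fun x _ => mul_nonneg (sq_nonneg _) (hw0 x))
      (fun x _ => hw0 x) fun x _ => le_of_eq ?_
    rw [mul_pow, sq_abs]; ring
  rw [var_id, ← hl, ← hκ] at hcs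
  have hs : ∑ x ∈ range (N + 2), w x = 1 := by
    rw [hw, sum_eq_eval, ber_pow_eval]
    exact supp_subset_range (by have := ber_pow_natDegree θ (N + 1); omega)
  rw [hs, mul_one, mul_pow, sq κ, mul_assoc] at hcs
  have := le_of_mul_le_mul_left (hcs.trans (mul_one κ).symm.le) hκ0
  linarith

theorem coeff_le_shift (f : ℝ[X]) (x : ℕ) : |f.coeff x| ≤ l1 ((1 - X) * f) := by
  have h : ∀ x, f.coeff x = ∑ y ∈ range (x + 1), ((1 - X) * f).coeff y := by
    intro x
    induction x with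
    | zero => simp
    | succ x ih =>
      rw [Finset.sum_range_succ, ← ih, sub_mul, one_mul, coeff_sub, coeff_X_mul]
      ring
  rw [h x]
  exact (Finset.abs_sum_le_sum_abs _ _).trans (sum_le_l1 _ _)

theorem coeff_mul_le {f g : ℝ[X]} {s : ℝ} (hf : ∀ x, |f.coeff x| ≤ s) (hg : Nc g)
    (hg1 : g.eval 1 = 1) (x : ℕ) : (f * g).coeff x ≤ s := by
  have hs : 0 ≤ s := (abs_nonneg _).trans (hf 0)
  rw [mul_comm, coeff_mul]
  calc ∑ y ∈ antidiagonal x, g.coeff y.1 * f.coeff y.2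
      ≤ ∑ y ∈ antidiagonal x, g.coeff y.1 * s :=
        Finset.sum_le_sum fun y _ =>
          mul_le_mul_of_nonneg_left ((le_abs_self _).trans (hf _)) (hg _)
    _ = (∑ y ∈ range (x + 1), g.coeff y) * s := by
        rw [← Finset.sum_mul, Finset.Nat.sum_antidiagonal_eq_sum_range_succ (fun a _ => g.coeff a)]
    _ ≤ 1 * s := by
        refine mul_le_mul_of_nonneg_right ?_ hs
        rw [← hg1, ← l1_of_nc hg]
        refine le_trans (le_of_eq ?_) (sum_le_l1 g (range (x + 1)))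
        exact Finset.sum_congr rfl fun y _ => (abs_of_nonneg (hg y)).symm
    _ = s := one_mul s

/-- A probability generating polynomial minus one is `1 - X` times a polynomial of small norm. -/
theorem sub_one_factor (Q : ℝ[X]) (hQ : Nc Q) (h1 : Q.eval 1 = 1) (d : ℕ)
    (hd : Q.natDegree ≤ d) : ∃ R : ℝ[X], Q - 1 = (1 - X) * R ∧ l1 R ≤ d := by
  refine ⟨-∑ j ∈ range (d + 1), C (Q.coeff j) * ∑ i ∈ range j, X ^ i, ?_, ?_⟩
  · have e1 : Q = ∑ j ∈ range (d + 1), C (Q.coeff j) * X ^ j := by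
      conv_lhs => rw [Q.as_sum_range' (d + 1) (by omega)]
      exact Finset.sum_congr rfl fun j _ => (C_mul_X_pow_eq_monomial).symm
    have e2 : (1 : ℝ[X]) = ∑ j ∈ range (d + 1), C (Q.coeff j) := by
      rw [← map_sum, sum_eq_eval (supp_subset_range (by omega)), h1, C_1]
    conv_lhs => rw [e1]
    nth_rewrite 1 [e2]
    rw [← Finset.sum_sub_distrib, mul_neg, Finset.mul_sum, ← Finset.sum_neg_distrib]
    refine Finset.sum_congr rfl fun j _ => ?_
    have := geom_sum_mul_neg (X : ℝ[X]) j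
    calc C (Q.coeff j) * X ^ j - C (Q.coeff j) = -(C (Q.coeff j) * (1 - X ^ j)) := by ring
      _ = _ := by rw [← this]; ring
  · have hneg : ∀ f : ℝ[X], l1 (-f) = l1 f := by
      intro f
      simp [l1]
    rw [hneg]
    refine (l1_sum _ _).trans ?_
    have hj : ∀ j ∈ range (d + 1), l1 (C (Q.coeff j) * ∑ i ∈ range j, X ^ i) ≤ Q.coeff j * d := by
      intro j hj
      have a1 : l1 (∑ i ∈ range j, (X : ℝ[X]) ^ i) ≤ j := by
        refine (l1_sum _ _).trans ?_
        have : ∀ i ∈ range j, l1 ((X : ℝ[X]) ^ i) ≤ 1 := by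
          intro i _
          rw [l1_of_nc]
          · simp
          · intro n
            rw [coeff_X_pow]; split_ifs <;> norm_num
        refine (Finset.sum_le_sum this).trans ?_
        simp
      have a2 := l1_monomial_mul 0 (Q.coeff j) (∑ i ∈ range j, (X : ℝ[X]) ^ i)
      rw [monomial_zero_left, abs_of_nonneg (hQ j)] at a2
      refine a2.trans (mul_le_mul_of_nonneg_left (a1.trans ?_) (hQ j))
      have : j ≤ d := by have := Finset.mem_range.mp hj; omega
      exact_mod_cast this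
    refine (Finset.sum_le_sum hj).trans ?_
    rw [← Finset.sum_mul, sum_eq_eval (supp_subset_range (by omega)), h1, one_mul]

end binom

/-- The mass of a window around the mean. -/
theorem window (θ : ℝ) (h0 : 0 ≤ θ) (h1 : θ ≤ 1) (N : ℕ) (L : ℝ) (hL : 0 < L) (J : Finset ℕ)
    (hJ : ∀ x : ℕ, |θ * (N + 1) - x| ≤ L → x ∈ J) :
    1 - (N + 1) * (θ * (1 - θ)) / L ^ 2 ≤ ∑ x ∈ J, (ber θ ^ (N + 1)).coeff x := by
  classical
  set w : ℕ → ℝ := fun x => (ber θ ^ (N + 1)).coeff x with hw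
  have hw0 : ∀ x, 0 ≤ w x := (nc_ber θ h0 h1).pow (N + 1)
  have hs : ∑ x ∈ range (N + 2), w x = 1 := by
    rw [hw, sum_eq_eval, ber_pow_eval]
    exact supp_subset_range (by have := ber_pow_natDegree θ (N + 1); omega)
  have hv := var_id θ N
  have hpt : ∀ x ∈ range (N + 2), w x ≤ (if x ∈ J then w x else 0)
      + (θ * (N + 1) - x) ^ 2 * w x / L ^ 2 := by
    intro x _
    by_cases hx : x ∈ J
    · rw [if_pos hx]
      have : 0 ≤ (θ * (N + 1) - x) ^ 2 * w x / L ^ 2 :=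
        div_nonneg (mul_nonneg (sq_nonneg _) (hw0 x)) (sq_nonneg _)
      linarith
    · rw [if_neg hx, zero_add, le_div_iff₀ (by positivity), mul_comm]
      refine mul_le_mul_of_nonneg_right ?_ (hw0 x)
      rw [← sq_abs (θ * (N + 1) - x)]
      have : L < |θ * (N + 1) - x| := by
        by_contra hcon
        exact hx (hJ x (not_lt.mp hcon))
      exact pow_le_pow_left₀ hL.le this.le 2
  have h2 := Finset.sum_le_sum hpt
  rw [hs, Finset.sum_add_distrib, ← Finset.sum_div, hv] at h2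
  have h3 : ∑ x ∈ range (N + 2), (if x ∈ J then w x else 0) ≤ ∑ x ∈ J, w x := by
    rw [← Finset.sum_filter]
    refine Finset.sum_le_sum_of_subset_of_nonneg ?_ fun x _ _ => hw0 x
    intro x hx
    exact (Finset.mem_filter.mp hx).2
  linarith

/-- Enlarging a window to absorb a bounded independent variable. -/
theorem window_mul (f g : ℝ[X]) (hf : Nc f) (hg : Nc g) (hg1 : g.eval 1 = 1) (d : ℕ)
    (hd : g.natDegree ≤ d) (J I : Finset ℕ) (hJI : ∀ x ∈ J, ∀ y ≤ d, x + y ∈ I) :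
    ∑ x ∈ J, f.coeff x ≤ ∑ x ∈ I, (f * g).coeff x := by
  classical
  set fJ : ℝ[X] := ∑ x ∈ J, monomial x (f.coeff x) with hfJ
  have hc : ∀ n, fJ.coeff n = if n ∈ J then f.coeff n else 0 := by
    intro n
    rw [hfJ, finsetSum_coeff]
    simp only [coeff_monomial]
    rw [Finset.sum_ite_eq' J n]
  have hr : Nc (f - fJ) := by
    intro n
    rw [coeff_sub, hc]
    split_ifs
    · simp
    · simpa using hf n
  have hsplit : f * g = fJ * g + (f - fJ) * g := by ring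
  have hsum : ∑ x ∈ I, (f * g).coeff x = ∑ x ∈ I, (fJ * g).coeff x
      + ∑ x ∈ I, ((f - fJ) * g).coeff x := by
    rw [← Finset.sum_add_distrib]
    refine Finset.sum_congr rfl fun x _ => ?_
    rw [← coeff_add, ← hsplit]
  have hpos : 0 ≤ ∑ x ∈ I, ((f - fJ) * g).coeff x :=
    Finset.sum_nonneg fun x _ => (hr.mul hg) x
  have hsup : (fJ * g).support ⊆ I := by
    intro n hn
    rw [mem_support_iff, coeff_mul] at hn
    obtain ⟨y, hy, hyn⟩ := Finset.exists_ne_zero_of_sum_ne_zero hn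
    have hyJ : y.1 ∈ J := by
      by_contra hcon
      apply hyn
      rw [hc, if_neg hcon, zero_mul]
    have hyd : y.2 ≤ d := by
      by_contra hcon
      apply hyn
      rw [coeff_eq_zero_of_natDegree_lt (lt_of_le_of_lt hd (not_le.mp hcon)), mul_zero]
    rw [← Finset.HasAntidiagonal.mem_antidiagonal.mp hy]
    exact hJI _ hyJ _ hyd
  have he : ∑ x ∈ I, (fJ * g).coeff x = ∑ x ∈ J, f.coeff x := by
    rw [sum_eq_eval hsup, eval_mul, hg1, mul_one, hfJ, eval_finsetSum]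
    refine Finset.sum_congr rfl fun x _ => ?_
    rw [eval_monomial, one_pow, mul_one]
  linarith

/-- The shift bound in the form used below. -/
theorem shift_bound {θ κ : ℝ} {C1 h N : ℕ} (hθ0 : 0 < θ) (hθ1 : θ < 1) (hκ : κ = θ * (1 - θ))
    (hκ0 : 0 < κ) (hC1κ : 72 ≤ (C1 : ℝ) * κ) (hh : 1 ≤ h) (hN1 : 2 * (C1 : ℝ) * h ^ 2 ≤ N) :
    l1 ((1 - X) * ber θ ^ N) ≤ 1 / (12 * h) := by
  have hhr : (1 : ℝ) ≤ h := by exact_mod_cast hh
  set δ : ℝ := l1 ((1 - X) * ber θ ^ N) with hδ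
  have hδ0 : 0 ≤ δ := l1_nonneg _
  have h1 := l1_shift θ hθ0 hθ1 N
  rw [← hδ, ← hκ] at h1
  have h2 : (12 * (h : ℝ)) ^ 2 ≤ (N + 1) * κ := by
    have h4 : 2 * (C1 : ℝ) * h ^ 2 * κ ≤ N * κ := mul_le_mul_of_nonneg_right hN1 hκ0.le
    have h3 : 144 * (h : ℝ) ^ 2 ≤ 2 * C1 * h ^ 2 * κ := by
      have := mul_le_mul_of_nonneg_left hC1κ (sq_nonneg (h : ℝ))
      linarith
    linarith
  have h3 : (δ * (12 * h)) ^ 2 ≤ 1 := by
    rw [mul_pow]
    exact (mul_le_mul_of_nonneg_left h2 (sq_nonneg δ)).trans h1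
  rw [le_div_iff₀ (by positivity)]
  have h5 : |δ * (12 * h)| ≤ 1 := (sq_le_one_iff_abs_le_one _).mp h3
  exact (le_abs_self _).trans h5

/-- The cardinality of the window. -/
theorem card_bound {m L w : ℝ} (hw : 0 ≤ m + L + w) :
    ((Finset.Icc ⌈m - L⌉₊ ⌊m + L + w⌋₊).card : ℝ) ≤ max 0 (2 * L + w + 1) := by
  rw [Nat.card_Icc]
  have a1 : (⌊m + L + w⌋₊ : ℝ) ≤ m + L + w := Nat.floor_le hw
  have a2 := Nat.le_ceil (m - L)
  rcases le_total ⌈m - L⌉₊ (⌊m + L + w⌋₊ + 1) with hc | hc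
  · rw [Nat.cast_sub hc]
    push_cast
    exact le_max_of_le_right (by linarith)
  · rw [Nat.sub_eq_zero_of_le hc]
    push_cast
    exact le_max_left _ _

/-- The mass of the big window. -/
theorem window_mass {θ κ : ℝ} {C1 h N : ℕ} (hθ0 : 0 < θ) (hθ1 : θ < 1) (hκ : κ = θ * (1 - θ))
    (hκ0 : 0 < κ) (hC : 1 ≤ C1) (hh : 1 ≤ h) (hNpos : 1 ≤ N)
    (hN2 : (N : ℝ) ≤ 4 * C1 * h ^ 2) (g : ℝ[X]) (hg : Nc g) (hg1 : g.eval 1 = 1)
    (hd : g.natDegree ≤ C1 * h) :
    7 / 8 ≤ ∑ x ∈ Finset.Icc ⌈θ * N - 8 * C1 * h⌉₊ ⌊θ * N + 8 * C1 * h + C1 * h⌋₊,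
      (ber θ ^ N * g).coeff x := by
  have hhr : (1 : ℝ) ≤ h := by exact_mod_cast hh
  have hCr : (1 : ℝ) ≤ C1 := by exact_mod_cast hC
  have hκ1 : κ ≤ 1 / 4 := by rw [hκ]; nlinarith [sq_nonneg (θ - 1 / 2)]
  set L : ℝ := 8 * C1 * h with hL
  have hL0 : 0 < L := by positivity
  have hθN : 0 ≤ θ * N := by positivity
  have hJ1 : 7 / 8 ≤ ∑ x ∈ Finset.Icc ⌈θ * N - L⌉₊ ⌊θ * N + L⌋₊, (ber θ ^ N).coeff x := by
    obtain ⟨N', hN'⟩ := Nat.exists_eq_add_of_le' hNpos
    have e : ((N' : ℝ) + 1) = N := by rw [hN']; push_cast; ring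
    have hw := window θ hθ0.le hθ1.le N' L hL0 (Finset.Icc ⌈θ * N - L⌉₊ ⌊θ * N + L⌋₊) (by
      intro x hx
      rw [e, abs_le] at hx
      rw [Finset.mem_Icc]
      constructor
      · rw [Nat.ceil_le]; linarith [hx.2]
      · rw [Nat.le_floor_iff (by positivity)]; linarith [hx.1])
    rw [← hN', ← hκ, e] at hw
    have h5 : (N : ℝ) * κ / L ^ 2 ≤ 1 / 8 := by
      rw [div_le_iff₀ (by positivity), hL]
      have h1 : (N : ℝ) * κ ≤ 4 * C1 * h ^ 2 * (1 / 4) :=
        mul_le_mul hN2 hκ1 hκ0.le (by positivity)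
      have h2 : (C1 : ℝ) * h ^ 2 ≤ C1 ^ 2 * h ^ 2 := by
        have : (C1 : ℝ) ≤ C1 ^ 2 := by nlinarith
        exact mul_le_mul_of_nonneg_right this (sq_nonneg _)
      have h3 : (0 : ℝ) ≤ C1 ^ 2 * h ^ 2 := by positivity
      have h4 : 1 / 8 * (8 * (C1 : ℝ) * h) ^ 2 = 8 * (C1 ^ 2 * h ^ 2) := by ring
      rw [h4]
      linarith
    linarith
  refine hJ1.trans (window_mul (ber θ ^ N) g ((nc_ber θ hθ0.le hθ1.le).pow N) hg hg1 (C1 * h) hd
    _ _ ?_)
  intro x hx y hy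
  rw [Finset.mem_Icc] at hx ⊢
  refine ⟨by omega, ?_⟩
  have h1 := hx.2
  rw [Nat.le_floor_iff (by positivity)] at h1 ⊢
  push_cast
  have : (y : ℝ) ≤ C1 * h := by exact_mod_cast hy
  linarith

/-- Common part of two laws on a window. -/
theorem min_sum (a b : ℝ[X]) (I : Finset ℕ) (h1 : 7 / 8 ≤ ∑ x ∈ I, a.coeff x)
    (h2 : l1 (b - a) ≤ 1 / 4) : 1 / 2 ≤ ∑ x ∈ I, min (a.coeff x) (b.coeff x) := by
  have hmin : ∀ T ∈ I, a.coeff T - |(b - a).coeff T| ≤ min (a.coeff T) (b.coeff T) := by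
    intro T _
    rw [coeff_sub]
    refine le_min ?_ ?_
    · linarith [abs_nonneg (b.coeff T - a.coeff T)]
    · linarith [neg_abs_le (b.coeff T - a.coeff T)]
  have hfin := Finset.sum_le_sum hmin
  rw [Finset.sum_sub_distrib] at hfin
  have hl := sum_le_l1 (b - a) I
  linarith

/-- One more factor changes the law little. -/
theorem tv_bound (P A Q : ℝ[X]) (hA : Nc A) (hA1 : A.eval 1 = 1) (hQ : Nc Q)
    (hQ1 : Q.eval 1 = 1) (h : ℕ) (hh : 1 ≤ h) (hd : Q.natDegree ≤ 2 * h + 1)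
    (hP : l1 ((1 - X) * P) ≤ 1 / (12 * h)) : l1 (P * A * Q - P * A) ≤ 1 / 4 := by
  have hhr : (1 : ℝ) ≤ h := by exact_mod_cast hh
  obtain ⟨R, hR, hRl⟩ := sub_one_factor Q hQ hQ1 (2 * h + 1) hd
  have e : P * A * Q - P * A = ((1 - X) * P) * (R * A) := by
    calc P * A * Q - P * A = P * A * (Q - 1) := by ring
      _ = _ := by rw [hR]; ring
  rw [e]
  refine (l1_mul _ _).trans ?_
  have h1 : l1 (R * A) ≤ 3 * h := by
    refine (l1_mul _ _).trans ?_
    rw [l1_of_nc hA, hA1, mul_one]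
    refine hRl.trans ?_
    push_cast
    linarith
  calc l1 ((1 - X) * P) * l1 (R * A) ≤ 1 / (12 * h) * (3 * h) :=
        mul_le_mul hP h1 (l1_nonneg _) (by positivity)
    _ = 1 / 4 := by field_simp; norm_num

end B1d

open B1d in
theorem totals {q : ℝ} (hq : 0 < q) (hq1 : q < 1) :
    ∃ C1 : ℕ, ∃ C : ℝ, 1 ≤ C1 ∧ 0 < C ∧ ∀ h : ℕ, 1 ≤ h → ∃ I : Finset ℕ,
      ((I.card : ℝ) ≤ C * h) ∧
      (1 / 2 ≤ ∑ T ∈ I, min ((pp q h (C1 * h + 1)).coeff T) ((pp q h (C1 * h + 2)).coeff T)) ∧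
      (∀ T, (pp q h (C1 * h + 1)).coeff T ≤ C / h) := by
  obtain ⟨θ, hθ⟩ : ∃ θ : ℝ, θ = 1 - q ^ 2 := ⟨_, rfl⟩
  have hq2 : q ^ 2 < 1 := by nlinarith
  have hq2' : 0 < q ^ 2 := by positivity
  have hθ0 : 0 < θ := by linarith
  have hθ1 : θ < 1 := by linarith
  obtain ⟨κ, hκ⟩ : ∃ κ : ℝ, κ = θ * (1 - θ) := ⟨_, rfl⟩
  have hκ0 : 0 < κ := by rw [hκ]; exact mul_pos hθ0 (by linarith)
  obtain ⟨C1, hC1κ⟩ : ∃ C1 : ℕ, 72 ≤ (C1 : ℝ) * κ := by
    obtain ⟨n, hn⟩ := exists_nat_ge (72 / κ)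
    exact ⟨n, by rwa [div_le_iff₀ hκ0] at hn⟩
  have hC1pos : 1 ≤ C1 := by
    by_contra hcon
    have : C1 = 0 := by omega
    rw [this] at hC1κ
    norm_num at hC1κ
  have hC1r : (1 : ℝ) ≤ C1 := by exact_mod_cast hC1pos
  refine ⟨C1, 17 * C1 + 2, hC1pos, by positivity, ?_⟩
  intro h hh
  have hhr : (1 : ℝ) ≤ h := by exact_mod_cast hh
  obtain ⟨N, hN⟩ : ∃ N : ℕ, N = 2 * h * (C1 * h + 1) := ⟨_, rfl⟩
  have hNr : (N : ℝ) = 2 * h * (C1 * h + 1) := by rw [hN]; push_cast; ring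
  have hNpos : 1 ≤ N := by
    rw [hN]
    exact Nat.one_le_iff_ne_zero.mpr (by positivity)
  have hN1 : 2 * (C1 : ℝ) * h ^ 2 ≤ N := by
    rw [hNr]; nlinarith
  have hN2 : (N : ℝ) ≤ 4 * C1 * h ^ 2 := by
    rw [hNr]
    have : (1 : ℝ) ≤ C1 * h := by nlinarith
    nlinarith
  obtain ⟨B, hB⟩ : ∃ B : ℝ[X], B = C q + C (1 - q) * X := ⟨_, rfl⟩
  have hber : C (q ^ 2) + C (1 - q ^ 2) * X = ber θ := by
    unfold ber; rw [hθ]; congr 2; ring
  have hBn : Nc B := by rw [hB]; exact Nc.lin hq.le (by linarith)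
  have hB1 : B.eval 1 = 1 := by simp [hB]
  have hBg1 : ∀ n : ℕ, (B ^ n).eval 1 = 1 := fun n => by rw [eval_pow, hB1, one_pow]
  have hBd : B.natDegree ≤ 1 := by
    rw [hB]
    refine (natDegree_add_le _ _).trans ?_
    rw [natDegree_C]
    exact max_le (Nat.zero_le 1) ((natDegree_C_mul_le _ _).trans natDegree_X_le)
  have hBnd : ∀ n : ℕ, (B ^ n).natDegree ≤ n := fun n => by
    refine natDegree_pow_le.trans ?_
    calc n * B.natDegree ≤ n * 1 := Nat.mul_le_mul_left _ hBd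
      _ = n := mul_one n
  have hpp1 : pp q h (C1 * h + 1) = ber θ ^ N * B ^ (C1 * h) := by
    unfold pp
    rw [hber, Nat.add_sub_cancel, ← hB, ← hN]
  have hpp2 : pp q h (C1 * h + 2) = ber θ ^ N * B ^ (C1 * h) * (ber θ ^ (2 * h) * B) := by
    unfold pp
    have e1 : 2 * h * (C1 * h + 2) = N + 2 * h := by rw [hN]; ring
    have e2 : C1 * h + 2 - 1 = C1 * h + 1 := by omega
    rw [hber, ← hB, e1, e2, pow_add, pow_succ B]
    ring
  have hQ1 : (ber θ ^ (2 * h) * B).eval 1 = 1 := by rw [eval_mul, hB1, ber_pow_eval, mul_one]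
  have hQd : (ber θ ^ (2 * h) * B).natDegree ≤ 2 * h + 1 := by
    refine natDegree_mul_le.trans ?_
    have := ber_pow_natDegree θ (2 * h)
    omega
  have hδ1 := shift_bound hθ0 hθ1 hκ hκ0 hC1κ hh hN1
  have htv := tv_bound (ber θ ^ N) (B ^ (C1 * h)) (ber θ ^ (2 * h) * B) (hBn.pow _) (hBg1 _)
    (((nc_ber θ hθ0.le hθ1.le).pow _).mul hBn) hQ1 h hh hQd hδ1
  rw [← hpp2, ← hpp1] at htv
  have hmass := window_mass hθ0 hθ1 hκ hκ0 hC1pos hh hNpos hN2 (B ^ (C1 * h)) (hBn.pow _)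
    (hBg1 _) (hBnd _)
  rw [← hpp1] at hmass
  refine ⟨_, ?_, min_sum _ _ _ hmass htv, ?_⟩
  · refine (card_bound (by positivity)).trans (max_le (by positivity) ?_)
    have : (17 * (C1 : ℝ) + 2) * h = 17 * (C1 * h) + 2 * h := by ring
    rw [this]
    linarith
  · intro T
    have hsup : (pp q h (C1 * h + 1)).coeff T ≤ l1 ((1 - X) * ber θ ^ N) := by
      rw [hpp1]
      exact coeff_mul_le (coeff_le_shift (ber θ ^ N)) (hBn.pow _) (hBg1 _) T
    refine (hsup.trans hδ1).trans ?_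
    rw [div_le_div_iff₀ (by positivity) (by positivity)]
    nlinarith

end Vale.Agent.P321.SP
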