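import Vale.Agent.Lib.P321.SP.B1Defs

/-!
P321, superpolynomial lower bound: two increasing measures with large mass and bounded second
moment on each of many lengths have a large common part (Paley-Zygmund and Harris inequalities).
-/

namespace Vale.Agent.P321.SP

open Finset

namespace B1e

/-- the words of length `T` -/
def words : ℕ → Finset (List Bool)
  | 0 => {[]}
  | T + 1 => (words T).image (List.cons true) ∪ (words T).image (List.cons false)

theorem mem_words {T : ℕ} {z : List Bool} : z ∈ words T ↔ z.length = T := by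
  induction T generalizing z with
  | zero => simp [words]
  | succ T ih =>
    simp only [words, mem_union, mem_image]
    constructor
    · rintro (⟨w, hw, rfl⟩ | ⟨w, hw, rfl⟩)
      · rw [List.length_cons, ih.mp hw]
      · rw [List.length_cons, ih.mp hw]
    · intro h
      rcases z with _ | ⟨b, w⟩
      · simp at h
      · rw [List.length_cons] at h
        have hw : w.length = T := by omega
        cases b
        · exact Or.inr ⟨w, ih.mpr hw, rfl⟩
        · exact Or.inl ⟨w, ih.mpr hw, rfl⟩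

theorem sum_words_succ (T : ℕ) (f : List Bool → ℝ) :
    ∑ z ∈ words (T + 1), f z =
      ∑ z ∈ words T, f (true :: z) + ∑ z ∈ words T, f (false :: z) := by
  have hd : Disjoint ((words T).image (List.cons true)) ((words T).image (List.cons false)) := by
    rw [Finset.disjoint_left]
    intro z h1 h2
    rw [mem_image] at h1 h2
    obtain ⟨w, -, rfl⟩ := h1
    obtain ⟨w', -, h⟩ := h2
    simp at h
  rw [words, sum_union hd, sum_image (fun a _ b _ h => by simpa using h),
    sum_image (fun a _ b _ h => by simpa using h)]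

/-- weight of a list of letters -/
noncomputable def rf (β : ℝ) (z : List Bool) : ℝ := ref β (FreeMonoid.ofList z)

theorem rf_nil (β : ℝ) : rf β [] = 1 := by
  unfold rf; simp

theorem rf_cons (β : ℝ) (b : Bool) (z : List Bool) :
    rf β (b :: z) = (if b then β else 1 - β) * rf β z := by
  unfold rf
  rw [FreeMonoid.ofList_cons, map_mul]
  congr 1

theorem rf_pos {β : ℝ} (h0 : 0 < β) (h1 : β < 1) (z : List Bool) : 0 < rf β z := by
  induction z with
  | nil => rw [rf_nil]; exact one_pos
  | cons b z ih =>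
    rw [rf_cons]
    refine mul_pos ?_ ih
    cases b
    · simpa using h1
    · simpa using h0

/-- expectation over words of length `T` -/
noncomputable def EE (β : ℝ) (T : ℕ) (f : List Bool → ℝ) : ℝ := ∑ z ∈ words T, rf β z * f z

theorem EE_succ (β : ℝ) (T : ℕ) (f : List Bool → ℝ) :
    EE β (T + 1) f = β * EE β T (fun z => f (true :: z)) +
      (1 - β) * EE β T (fun z => f (false :: z)) := by
  unfold EE
  rw [sum_words_succ, mul_sum, mul_sum]
  congr 1
  · refine sum_congr rfl fun z _ => ?_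
    rw [rf_cons]; simp [mul_assoc]
  · refine sum_congr rfl fun z _ => ?_
    rw [rf_cons]; simp [mul_assoc]

theorem EE_one (β : ℝ) (T : ℕ) : EE β T (fun _ => 1) = 1 := by
  induction T with
  | zero => simp [EE, words, rf_nil]
  | succ T ih => rw [EE_succ, ih]; ring

theorem EE_mono {β : ℝ} (h0 : 0 < β) (h1 : β < 1) (T : ℕ) {f g : List Bool → ℝ}
    (h : ∀ z ∈ words T, f z ≤ g z) : EE β T f ≤ EE β T g :=
  sum_le_sum fun z hz => mul_le_mul_of_nonneg_left (h z hz) (rf_pos h0 h1 z).le

/-- nondecreasing functions of words -/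
def Mn (f : List Bool → ℝ) : Prop :=
  ∀ z z' : List Bool, List.Forall₂ (fun a b => a = true → b = true) z z' → f z ≤ f z'

theorem forall₂_self (z : List Bool) : List.Forall₂ (fun a b => a = true → b = true) z z := by
  induction z with
  | nil => exact List.Forall₂.nil
  | cons a z ih => exact List.Forall₂.cons (fun h => h) ih

theorem Mn.cons {f : List Bool → ℝ} (hf : Mn f) (b : Bool) : Mn (fun z => f (b :: z)) :=
  fun z z' h => hf _ _ (List.Forall₂.cons (fun h => h) h)

/-- Harris inequality -/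
theorem harris {β : ℝ} (h0 : 0 < β) (h1 : β < 1) (T : ℕ) :
    ∀ {f g : List Bool → ℝ}, Mn f → Mn g →
      EE β T f * EE β T g ≤ EE β T (fun z => f z * g z) := by
  induction T with
  | zero =>
    intro f g _ _
    simp [EE, words, rf_nil]
  | succ T ih =>
    intro f g hf hg
    rw [EE_succ, EE_succ, EE_succ]
    have a1 := ih (hf.cons true) (hg.cons true)
    have a2 := ih (hf.cons false) (hg.cons false)
    have m1 : EE β T (fun z => f (false :: z)) ≤ EE β T (fun z => f (true :: z)) :=
      EE_mono h0 h1 T fun z _ => hf _ _ (List.Forall₂.cons (by simp) (forall₂_self z))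
    have m2 : EE β T (fun z => g (false :: z)) ≤ EE β T (fun z => g (true :: z)) :=
      EE_mono h0 h1 T fun z _ => hg _ _ (List.Forall₂.cons (by simp) (forall₂_self z))
    have b1 := mul_le_mul_of_nonneg_left a1 h0.le
    have b2 := mul_le_mul_of_nonneg_left a2 (sub_pos.mpr h1).le
    refine le_trans ?_ (add_le_add b1 b2)
    have c : 0 ≤ (β * (1 - β)) * ((EE β T (fun z => f (true :: z)) -
        EE β T (fun z => f (false :: z))) * (EE β T (fun z => g (true :: z)) -
        EE β T (fun z => g (false :: z)))) :=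
      mul_nonneg (mul_nonneg h0.le (sub_pos.mpr h1).le)
        (mul_nonneg (sub_nonneg.mpr m1) (sub_nonneg.mpr m2))
    nlinarith [c]

/-- values on lists -/
noncomputable def vl (F : Al Wd) (z : List Bool) : ℝ := F.coeff (FreeMonoid.ofList z)

theorem sum_support_eq (F : Al Wd) (T : ℕ) (φ : Wd → ℝ)
    (hφ : ∀ z : Wd, F.coeff z = 0 → φ z = 0) :
    ∑ z ∈ F.coeff.support with z.length = T, φ z =
      ∑ z ∈ words T, φ (FreeMonoid.ofList z) := by
  classical
  have h1 : ∑ z ∈ words T, φ (FreeMonoid.ofList z) =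
      ∑ z ∈ (words T).image FreeMonoid.ofList, φ z := by
    rw [sum_image (fun a _ b _ h => FreeMonoid.ofList.injective h)]
  rw [h1]
  refine sum_subset ?_ ?_
  · intro z hz
    rw [mem_filter] at hz
    rw [mem_image]
    exact ⟨FreeMonoid.toList z, mem_words.mpr hz.2, FreeMonoid.ofList_toList z⟩
  · intro z hz hz2
    rw [mem_image] at hz
    obtain ⟨w, hw, rfl⟩ := hz
    refine hφ _ ?_
    by_contra hne
    refine hz2 ?_
    rw [mem_filter, Finsupp.mem_support_iff]
    exact ⟨hne, mem_words.mp hw⟩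

theorem RT_eq (F : Al Wd) (T : ℕ) : RT F T = ∑ z ∈ words T, vl F z :=
  sum_support_eq F T (fun z => F.coeff z) fun _ h => h

theorem WT_eq (β : ℝ) (F : Al Wd) (T : ℕ) :
    WT β F T = ∑ z ∈ words T, vl F z ^ 2 / rf β z :=
  sum_support_eq F T (fun z => F.coeff z ^ 2 / ref β z) fun z h => by
    simp [h]

open Classical in
/-- indicator of the set where the density is at least `r / 2` -/
noncomputable def ia (β r : ℝ) (F : Al Wd) (z : List Bool) : ℝ :=
  if r / 2 * rf β z ≤ vl F z then 1 else 0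

theorem ia_nonneg (β r : ℝ) (F : Al Wd) (z : List Bool) : 0 ≤ ia β r F z := by
  unfold ia; split_ifs <;> norm_num

theorem ia_le_one (β r : ℝ) (F : Al Wd) (z : List Bool) : ia β r F z ≤ 1 := by
  unfold ia; split_ifs <;> norm_num

theorem ia_mn {β : ℝ} (h0 : 0 < β) (h1 : β < 1) {r : ℝ} (hr : 0 < r) {F : Al Wd}
    (hF : Inc β F) : Mn (ia β r F) := by
  intro z z' h
  by_cases hz : r / 2 * rf β z ≤ vl F z
  · have h2 : vl F z * rf β z' ≤ vl F z' * rf β z := hF.2 z z' h
    have hp := rf_pos h0 h1 z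
    have hp' := rf_pos h0 h1 z'
    have h3 : r / 2 * rf β z' ≤ vl F z' := by
      have h4 := mul_le_mul_of_nonneg_right hz hp'.le
      have h5 : (r / 2 * rf β z') * rf β z ≤ vl F z' * rf β z := by nlinarith
      exact le_of_mul_le_mul_right h5 hp
    unfold ia
    rw [if_pos hz, if_pos h3]
  · have : ia β r F z = 0 := by unfold ia; rw [if_neg hz]
    rw [this]
    exact ia_nonneg _ _ _ _

/-- Paley-Zygmund -/
theorem ia_large {β : ℝ} (h0 : 0 < β) (h1 : β < 1) {r Ψ : ℝ} (hr : 0 < r) (hΨ : 0 < Ψ)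
    {F : Al Wd} (T : ℕ) (hR : r ≤ RT F T) (hW : WT β F T ≤ Ψ) :
    r ^ 2 / (4 * Ψ) ≤ EE β T (ia β r F) := by
  have hA : r / 2 ≤ ∑ z ∈ words T, ia β r F z * vl F z := by
    have e1 : RT F T ≤ ∑ z ∈ words T, ia β r F z * vl F z + ∑ z ∈ words T, rf β z * (r / 2) := by
      rw [RT_eq, ← sum_add_distrib]
      refine sum_le_sum fun z _ => ?_
      have hp := rf_pos h0 h1 z
      by_cases hz : r / 2 * rf β z ≤ vl F z
      · have : ia β r F z = 1 := by unfold ia; rw [if_pos hz]
        rw [this]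
        nlinarith [mul_pos hp hr]
      · have : ia β r F z = 0 := by unfold ia; rw [if_neg hz]
        rw [this]
        rw [not_le] at hz
        nlinarith
    have e2 : ∑ z ∈ words T, rf β z * (r / 2) = r / 2 := by
      have := EE_one β T
      unfold EE at this
      simp only [mul_one] at this
      rw [← sum_mul, this, one_mul]
    rw [e2] at e1
    linarith
  have hCS : (∑ z ∈ words T, ia β r F z * vl F z) ^ 2 ≤
      (∑ z ∈ words T, rf β z * ia β r F z) * ∑ z ∈ words T, vl F z ^ 2 / rf β z := by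
    refine Finset.sum_sq_le_sum_mul_sum_of_sq_eq_mul _ ?_ ?_ ?_
    · intro z _
      exact mul_nonneg (rf_pos h0 h1 z).le (ia_nonneg _ _ _ _)
    · intro z _
      exact div_nonneg (sq_nonneg _) (rf_pos h0 h1 z).le
    · intro z _
      have hp := (rf_pos h0 h1 z).ne'
      have hi : ia β r F z ^ 2 = ia β r F z := by
        unfold ia; split_ifs <;> norm_num
      rw [mul_pow, hi]
      field_simp
  have hE : 0 ≤ EE β T (ia β r F) :=
    sum_nonneg fun z _ => mul_nonneg (rf_pos h0 h1 z).le (ia_nonneg _ _ _ _)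
  rw [WT_eq] at hW
  have h3 : (r / 2) ^ 2 ≤ EE β T (ia β r F) * Ψ :=
    calc (r / 2) ^ 2 ≤ (∑ z ∈ words T, ia β r F z * vl F z) ^ 2 :=
          pow_le_pow_left₀ (by positivity) hA 2
      _ ≤ _ := hCS
      _ ≤ EE β T (ia β r F) * Ψ := mul_le_mul_of_nonneg_left hW hE
  rw [div_le_iff₀ (by positivity)]
  nlinarith

/-- the common part -/
noncomputable def cp (β r : ℝ) (F F' : Al Wd) (z : List Bool) : ℝ :=
  r / 2 * (rf β z * (ia β r F z * ia β r F' z))

theorem cp_nonneg {β : ℝ} (h0 : 0 < β) (h1 : β < 1) {r : ℝ} (hr : 0 < r) (F F' : Al Wd)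
    (z : List Bool) : 0 ≤ cp β r F F' z :=
  mul_nonneg (by positivity) (mul_nonneg (rf_pos h0 h1 z).le
    (mul_nonneg (ia_nonneg _ _ _ _) (ia_nonneg _ _ _ _)))

theorem cp_symm (β r : ℝ) (F F' : Al Wd) (z : List Bool) : cp β r F F' z = cp β r F' F z := by
  unfold cp; ring

theorem cp_le {β : ℝ} (h0 : 0 < β) (h1 : β < 1) {r : ℝ} (hr : 0 < r) {F : Al Wd} (hF : Nn F)
    (F' : Al Wd) (z : List Bool) : cp β r F F' z ≤ vl F z := by
  have hp := rf_pos h0 h1 z
  have hrp : 0 < r / 2 * rf β z := by positivity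
  by_cases hz : r / 2 * rf β z ≤ vl F z
  · have : ia β r F z = 1 := by unfold ia; rw [if_pos hz]
    unfold cp
    rw [this, one_mul]
    calc r / 2 * (rf β z * ia β r F' z) = (r / 2 * rf β z) * ia β r F' z := by ring
      _ ≤ (r / 2 * rf β z) * 1 := mul_le_mul_of_nonneg_left (ia_le_one _ _ _ _) hrp.le
      _ ≤ vl F z := by rw [mul_one]; exact hz
  · have : ia β r F z = 0 := by unfold ia; rw [if_neg hz]
    unfold cp
    rw [this]
    simp only [zero_mul, mul_zero]
    exact hF _

end B1e

open B1e in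
theorem overlap_of_inc {β : ℝ} (hβ : 0 < β) (hβ1 : β < 1) {F F' : Al Wd} (hF : Inc β F)
    (hF' : Inc β F') (S : Finset ℕ) {r Ψ : ℝ} (hr : 0 < r) (hΨ : 0 < Ψ)
    (h : ∀ T ∈ S, r ≤ RT F T ∧ r ≤ RT F' T ∧ WT β F T ≤ Ψ ∧ WT β F' T ≤ Ψ) :
    ∃ ν : Al Wd, Nn ν ∧ Nn (F - ν) ∧ Nn (F' - ν) ∧
      S.card * (r ^ 5 / (32 * Ψ ^ 2)) ≤ mass ν := by
  classical
  let Z : Finset (List Bool) := S.biUnion words
  let ν : Al Wd := ∑ z ∈ Z, MonoidAlgebra.single (FreeMonoid.ofList z) (cp β r F F' z)
  have hν : Nn ν := Nn.sum _ fun z _ => Nn.single _ (cp_nonneg hβ hβ1 hr F F' z)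
  have hcoe : ∀ g : Wd, ν.coeff g ≤ cp β r F F' (FreeMonoid.toList g) := by
    intro g
    have e1 : ν.coeff g = ∑ z ∈ Z, if z = FreeMonoid.toList g then cp β r F F' z else 0 := by
      simp only [ν, MonoidAlgebra.coeff_sum, Finsupp.coe_finsetSum, Finset.sum_apply,
        MonoidAlgebra.coeff_single, Finsupp.single_apply]
      refine sum_congr rfl fun z _ => ?_
      have : (FreeMonoid.ofList z = g) ↔ (z = FreeMonoid.toList g) := by
        constructor
        · rintro rfl; rfl
        · rintro rfl; rfl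
      by_cases hz : z = FreeMonoid.toList g
      · rw [if_pos hz, if_pos (this.mpr hz)]
      · rw [if_neg hz, if_neg (fun h => hz (this.mp h))]
    rw [e1, Finset.sum_ite_eq']
    split_ifs
    · exact le_rfl
    · exact cp_nonneg hβ hβ1 hr F F' _
  refine ⟨ν, hν, ?_, ?_, ?_⟩
  · intro g
    simp only [MonoidAlgebra.coeff_sub, Finsupp.coe_sub, Pi.sub_apply]
    have h1 := hcoe g
    have h2 := cp_le hβ hβ1 hr hF.1 F' (FreeMonoid.toList g)
    have h3 : vl F (FreeMonoid.toList g) = F.coeff g := rfl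
    rw [h3] at h2
    linarith
  · intro g
    simp only [MonoidAlgebra.coeff_sub, Finsupp.coe_sub, Pi.sub_apply]
    have h1 := hcoe g
    rw [cp_symm] at h1
    have h2 := cp_le hβ hβ1 hr hF'.1 F (FreeMonoid.toList g)
    have h3 : vl F' (FreeMonoid.toList g) = F'.coeff g := rfl
    rw [h3] at h2
    linarith
  · have e1 : mass ν = ∑ z ∈ Z, cp β r F F' z := by
      simp only [ν, map_sum, mass_single]
    have e2 : ∑ z ∈ Z, cp β r F F' z = ∑ T ∈ S, ∑ z ∈ words T, cp β r F F' z := by
      refine sum_biUnion ?_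
      intro T _ T' _ hne
      rw [Function.onFun, Finset.disjoint_left]
      intro z hz hz'
      exact hne ((mem_words.mp hz).symm.trans (mem_words.mp hz'))
    rw [e1, e2, ← nsmul_eq_mul]
    refine card_nsmul_le_sum _ _ _ fun T hT => ?_
    obtain ⟨r1, r2, w1, w2⟩ := h T hT
    have p1 := ia_large hβ hβ1 hr hΨ T r1 w1
    have p2 := ia_large hβ hβ1 hr hΨ T r2 w2
    have p3 := harris hβ hβ1 T (ia_mn hβ hβ1 hr hF) (ia_mn hβ hβ1 hr hF')
    have e3 : ∑ z ∈ words T, cp β r F F' z =
        r / 2 * EE β T (fun z => ia β r F z * ia β r F' z) := by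
      unfold EE cp
      rw [mul_sum]
    rw [e3]
    have hq : 0 ≤ r ^ 2 / (4 * Ψ) := by positivity
    have p4 : r ^ 2 / (4 * Ψ) * (r ^ 2 / (4 * Ψ)) ≤
        EE β T (fun z => ia β r F z * ia β r F' z) :=
      (mul_le_mul p1 p2 hq (hq.trans p1)).trans p3
    calc r ^ 5 / (32 * Ψ ^ 2) = r / 2 * (r ^ 2 / (4 * Ψ) * (r ^ 2 / (4 * Ψ))) := by
          field_simp; ring
      _ ≤ _ := mul_le_mul_of_nonneg_left p4 (by positivity)

end Vale.Agent.P321.SP
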