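import Vale.Agent.Lib.P321.SP.B1Defs

/-!
P321, superpolynomial lower bound: monotone density and length law of `FF`.
-/

namespace Vale.Agent.P321.SP

open Finset Polynomial

/-- The order on words: letters `false` may be changed into `true`. -/
abbrev LeW : List Bool → List Bool → Prop :=
  List.Forall₂ (fun a b => a = true → b = true)

theorem coeff_mul_list (F G : Al Wd) (z : List Bool) :
    (F * G).coeff (FreeMonoid.ofList z) = ∑ i ∈ range (z.length + 1),
      F.coeff (FreeMonoid.ofList (z.take i)) * G.coeff (FreeMonoid.ofList (z.drop i)) := by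
  classical
  rw [MonoidAlgebra.coeff_mul_antidiag F G (FreeMonoid.ofList z)
    ((range (z.length + 1)).image fun i =>
      ((FreeMonoid.ofList (z.take i), FreeMonoid.ofList (z.drop i)) : Wd × Wd)) ?_]
  · rw [Finset.sum_image]
    intro i hi j hj hij
    have h1 : z.take i = z.take j := FreeMonoid.ofList.injective (congrArg Prod.fst hij)
    have h2 := congrArg List.length h1
    rw [List.length_take, List.length_take] at h2
    have hi' := Finset.mem_range.1 hi
    have hj' := Finset.mem_range.1 hj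
    omega
  · intro p
    simp only [mem_image, mem_range]
    constructor
    · rintro ⟨i, hi, rfl⟩
      rw [← FreeMonoid.ofList_append, List.take_append_drop]
    · intro hp
      obtain ⟨p1, p2⟩ := p
      have h1 : p1.toList ++ p2.toList = z := by
        have := congrArg FreeMonoid.toList hp
        rw [FreeMonoid.toList_ofList] at this
        exact this
      refine ⟨p1.toList.length, ?_, ?_⟩
      · rw [← h1, List.length_append]; omega
      · rw [← h1, List.take_left, List.drop_left]
        rfl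

theorem ref_pos {β : ℝ} (h0 : 0 < β) (h1 : β < 1) (z : Wd) : 0 < ref β z := by
  induction z using FreeMonoid.recOn with
  | one => simp
  | of_mul b z hz =>
    rw [map_mul]
    refine mul_pos ?_ hz
    unfold ref
    rw [FreeMonoid.lift_eval_of]
    split_ifs
    · exact h0
    · linarith

theorem Inc.add {β : ℝ} {F G : Al Wd} (hF : Inc β F) (hG : Inc β G) : Inc β (F + G) := by
  refine ⟨hF.1.add hG.1, fun z z' h => ?_⟩
  have h1 := hF.2 z z' h
  have h2 := hG.2 z z' h
  simp only [MonoidAlgebra.coeff_add, Finsupp.coe_add, Pi.add_apply, add_mul]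
  linarith

theorem Inc.smul {β : ℝ} {F : Al Wd} {c : ℝ} (hc : 0 ≤ c) (hF : Inc β F) : Inc β (c • F) := by
  refine ⟨hF.1.smul hc, fun z z' h => ?_⟩
  have h1 := mul_le_mul_of_nonneg_left (hF.2 z z' h) hc
  simp only [MonoidAlgebra.coeff_smul, Finsupp.coe_smul, Pi.smul_apply, smul_eq_mul]
  linarith

theorem Inc.mul {β : ℝ} (h0 : 0 < β) (h1 : β < 1) {F G : Al Wd} (hF : Inc β F) (hG : Inc β G) :
    Inc β (F * G) := by
  refine ⟨hF.1.mul hG.1, fun z z' h => ?_⟩
  rw [coeff_mul_list, coeff_mul_list, Finset.sum_mul, Finset.sum_mul, h.length_eq]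
  refine Finset.sum_le_sum fun i _ => ?_
  have e : ∀ y : List Bool, ref β (FreeMonoid.ofList y) =
      ref β (FreeMonoid.ofList (y.take i)) * ref β (FreeMonoid.ofList (y.drop i)) := by
    intro y
    rw [← map_mul, ← FreeMonoid.ofList_append, List.take_append_drop]
  rw [e z, e z']
  have a1 := hF.2 _ _ (List.forall₂_take i h)
  have a2 := hG.2 _ _ (List.forall₂_drop i h)
  have b1 : 0 ≤ G.coeff (FreeMonoid.ofList (z.drop i)) * ref β (FreeMonoid.ofList (z'.drop i)) :=
    mul_nonneg (hG.1 _) (ref_pos h0 h1 _).le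
  have b2 : 0 ≤ F.coeff (FreeMonoid.ofList (z'.take i)) * ref β (FreeMonoid.ofList (z.take i)) :=
    mul_nonneg (hF.1 _) (ref_pos h0 h1 _).le
  have := mul_le_mul a1 a2 b1 b2
  calc _ = F.coeff (FreeMonoid.ofList (z.take i)) * ref β (FreeMonoid.ofList (z'.take i)) *
      (G.coeff (FreeMonoid.ofList (z.drop i)) * ref β (FreeMonoid.ofList (z'.drop i))) := by ring
    _ ≤ _ := this
    _ = _ := by ring

theorem Inc.one {β : ℝ} : Inc β (1 : Al Wd) := by
  classical
  refine ⟨Nn.one, fun z z' h => ?_⟩
  have h1 : (1 : Al Wd) = MonoidAlgebra.single 1 1 := rfl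
  cases h with
  | nil => exact le_rfl
  | cons hab hzz =>
    rename_i a b l l'
    have e : ∀ (x : Bool) (y : List Bool), (1 : Al Wd).coeff (FreeMonoid.ofList (x :: y)) = 0 := by
      intro x y
      rw [h1, MonoidAlgebra.coeff_single, Finsupp.single_apply, if_neg]
      intro h2
      have := congrArg FreeMonoid.toList h2
      rw [FreeMonoid.toList_ofList] at this
      exact List.cons_ne_nil _ _ this.symm
    rw [e, e, zero_mul, zero_mul]

theorem Inc.pow {β : ℝ} (h0 : 0 < β) (h1 : β < 1) {F : Al Wd} (hF : Inc β F) (n : ℕ) :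
    Inc β (F ^ n) := by
  induction n with
  | zero => rw [pow_zero]; exact Inc.one
  | succ n ih => rw [pow_succ]; exact ih.mul h0 h1 hF

theorem coeff_of_ofList (b : Bool) (z : List Bool) :
    (MonoidAlgebra.single (FreeMonoid.of b) (1 : ℝ) : Al Wd).coeff (FreeMonoid.ofList z) =
      if z = [b] then 1 else 0 := by
  classical
  rw [MonoidAlgebra.coeff_single, Finsupp.single_apply]
  have : FreeMonoid.of b = FreeMonoid.ofList z ↔ z = [b] := by
    rw [← FreeMonoid.ofList_singleton]
    constructor
    · intro h; exact (FreeMonoid.ofList.injective h).symm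
    · intro h; rw [h]
  simp only [this]

theorem Inc.tt {β : ℝ} (h0 : 0 < β) (h1 : β < 1) : Inc β tt := by
  refine ⟨Nn.single _ zero_le_one, fun z z' h => ?_⟩
  unfold SP.tt
  rw [coeff_of_ofList, coeff_of_ofList]
  by_cases hz : z = [true]
  · subst hz
    cases h with
    | cons hab hzz =>
      rename_i b l'
      cases hzz
      have hb : b = true := hab rfl
      subst hb
      exact le_rfl
  · rw [if_neg hz, zero_mul]
    refine mul_nonneg ?_ (ref_pos h0 h1 _).le
    split_ifs <;> norm_num

theorem coeff_bb (β : ℝ) (z : List Bool) :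
    (bb β).coeff (FreeMonoid.ofList z) = if z.length = 1 then ref β (FreeMonoid.ofList z) else 0 := by
  unfold bb SP.tt ff
  simp only [MonoidAlgebra.coeff_add, Finsupp.coe_add, Pi.add_apply, MonoidAlgebra.coeff_smul,
    Finsupp.coe_smul, Pi.smul_apply, smul_eq_mul]
  rw [coeff_of_ofList, coeff_of_ofList]
  by_cases hz : z.length = 1
  · rw [if_pos hz]
    obtain ⟨b, rfl⟩ := List.length_eq_one_iff.1 hz
    rw [FreeMonoid.ofList_singleton]
    unfold ref
    rw [FreeMonoid.lift_eval_of]
    cases b <;> simp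
  · rw [if_neg hz, if_neg, if_neg]
    · ring
    · rintro rfl; exact hz rfl
    · rintro rfl; exact hz rfl

theorem Inc.bb {β : ℝ} (h0 : 0 < β) (h1 : β < 1) : Inc β (bb β) := by
  refine ⟨?_, fun z z' h => ?_⟩
  · unfold SP.bb
    exact ((Nn.single _ zero_le_one).smul h0.le).add
      ((Nn.single _ zero_le_one).smul (by linarith))
  · rw [coeff_bb, coeff_bb, h.length_eq]
    split_ifs
    · rw [mul_comm]
    · rw [zero_mul, zero_mul]

theorem bet_pos {q : ℝ} (hq : 0 < q) : 0 < bet q := by unfold bet; positivity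

theorem bet_lt_one {q : ℝ} (hq : 0 < q) : bet q < 1 := by
  unfold bet
  rw [div_lt_one (by linarith)]
  linarith

theorem inc_AA {q : ℝ} (hq : 0 < q) (hq1 : q < 1) (h : ℕ) : Inc (bet q) (AA q h) := by
  have h0 := bet_pos hq
  have h1 := bet_lt_one hq
  unfold AA
  exact Inc.pow h0 h1 ((Inc.one.smul (by positivity)).add
    ((Inc.bb h0 h1).smul (by nlinarith))) _

theorem inc_II {q : ℝ} (hq : 0 < q) (hq1 : q < 1) : Inc (bet q) (II q) := by
  have h0 := bet_pos hq
  have h1 := bet_lt_one hq
  unfold II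
  exact (Inc.one.smul hq.le).add ((Inc.tt h0 h1).smul (by linarith))

/-- The density of `FF` is nondecreasing. -/
theorem inc_FF {q : ℝ} (hq : 0 < q) (hq1 : q < 1) (h n : ℕ) : Inc (bet q) (FF q h n) := by
  have h0 := bet_pos hq
  have h1 := bet_lt_one hq
  unfold FF
  exact (inc_AA hq hq1 h).mul h0 h1 (((inc_II hq hq1).mul h0 h1 (inc_AA hq hq1 h)).pow h0 h1 n)

/-- The generating polynomial of the word lengths. -/
noncomputable def lenHom : Al Wd →ₐ[ℝ] ℝ[X] :=
  MonoidAlgebra.lift ℝ ℝ[X] Wd (FreeMonoid.lift (fun _ : Bool => (X : ℝ[X])))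

theorem lift_X_eq (z : Wd) : FreeMonoid.lift (fun _ : Bool => (X : ℝ[X])) z = X ^ z.length := by
  induction z using FreeMonoid.recOn with
  | one => simp
  | of_mul b z hz =>
    rw [map_mul, hz, FreeMonoid.lift_eval_of, FreeMonoid.length_mul, FreeMonoid.length_of,
      pow_add, pow_one]

theorem RT_eq_coeff (F : Al Wd) (T : ℕ) : RT F T = (lenHom F).coeff T := by
  unfold lenHom RT
  rw [MonoidAlgebra.lift_apply, Finsupp.sum, Polynomial.finsetSum_coeff, Finset.sum_filter]
  refine Finset.sum_congr rfl fun z _ => ?_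
  rw [lift_X_eq, Polynomial.coeff_smul, Polynomial.coeff_X_pow, smul_eq_mul]
  by_cases hz : z.length = T
  · rw [if_pos hz, if_pos hz.symm, mul_one]
  · rw [if_neg hz, if_neg (Ne.symm hz), mul_zero]

theorem lenHom_tt : lenHom tt = X := by
  unfold lenHom tt
  rw [MonoidAlgebra.lift_single, FreeMonoid.lift_eval_of, one_smul]

theorem lenHom_ff : lenHom ff = X := by
  unfold lenHom ff
  rw [MonoidAlgebra.lift_single, FreeMonoid.lift_eval_of, one_smul]

theorem lenHom_bb (β : ℝ) : lenHom (bb β) = X := by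
  unfold bb
  rw [map_add, map_smul, map_smul, lenHom_tt, lenHom_ff, ← add_smul, add_sub_cancel, one_smul]

/-- The length law of `FF`. -/
theorem RT_FF {q : ℝ} (hq : 0 < q) (hq1 : q < 1) (h n T : ℕ) :
    RT (FF q h n) T = (pp q h (n + 1)).coeff T := by
  rw [RT_eq_coeff]
  congr 1
  unfold FF AA II pp
  rw [map_mul, map_pow, map_pow, map_mul, map_pow, map_add, map_add, map_smul, map_smul, map_smul,
    map_smul, map_one, lenHom_bb, lenHom_tt, Polynomial.smul_eq_C_mul, Polynomial.smul_eq_C_mul,
    Polynomial.smul_eq_C_mul, Polynomial.smul_eq_C_mul, mul_one, mul_one, Nat.add_sub_cancel,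
    mul_pow, ← pow_mul, mul_add, mul_one, pow_add]
  ring

end Vale.Agent.P321.SP
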