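import Vale.Agent.Lib.P321.SP.B1a
import Vale.Agent.Lib.P321.SP.B1b
import Vale.Agent.Lib.P321.SP.B1c
import Vale.Agent.Lib.P321.SP.B1d
import Vale.Agent.Lib.P321.SP.B1e
import Vale.Agent.Lib.P321.SP.B1f

/-!
P321, superpolynomial lower bound: assembly of the hiding lemma.
-/

namespace Vale.Agent.P321.SP

open Finset Polynomial

namespace B1g

theorem pp_coeff_nonneg {q : ℝ} (hq : 0 < q) (hq1 : q < 1) (h n T : ℕ) :
    0 ≤ (pp q h (n + 1)).coeff T := by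
  rw [← RT_FF hq hq1]
  exact Finset.sum_nonneg fun z _ => (inc_FF hq hq1 h n).1 z

theorem ip_mono {f g g' : ℝ[X]} (hf : ∀ T, 0 ≤ f.coeff T) (hg : ∀ T, g.coeff T ≤ g'.coeff T) :
    ip f g ≤ ip f g' :=
  Finset.sum_le_sum fun x _ => mul_le_mul_of_nonneg_left (hg x) (hf x)

theorem W2_nonneg {β : ℝ} (h0 : 0 < β) (h1 : β < 1) (F : Al Wd) : 0 ≤ W2 β F :=
  Finset.sum_nonneg fun z _ => div_nonneg (sq_nonneg _) (ref_pos h0 h1 z).le

theorem WT_nonneg {β : ℝ} (h0 : 0 < β) (h1 : β < 1) (F : Al Wd) (T : ℕ) : 0 ≤ WT β F T :=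
  Finset.sum_nonneg fun z _ => div_nonneg (sq_nonneg _) (ref_pos h0 h1 z).le

theorem sum_WT_le {β : ℝ} (h0 : 0 < β) (h1 : β < 1) (F : Al Wd) (I : Finset ℕ) :
    ∑ T ∈ I, WT β F T ≤ W2 β F := by
  classical
  unfold WT W2
  have hnn : ∀ z : Wd, 0 ≤ F.coeff z ^ 2 / ref β z := fun z =>
    div_nonneg (sq_nonneg _) (ref_pos h0 h1 z).le
  simp only [Finset.sum_filter]
  rw [Finset.sum_comm]
  refine Finset.sum_le_sum fun z _ => ?_
  rw [Finset.sum_ite_eq]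
  split_ifs
  · exact le_rfl
  · exact hnn z

/-- the second moment bound -/
theorem W2_bound {q : ℝ} (hq : 0 < q) (hq1 : q < 1) (C1 : ℕ) :
    ∃ C' : ℝ, 0 < C' ∧ ∀ h n : ℕ, 1 ≤ h → n ≤ C1 * h →
      W2 (bet q) (FF q h n) ≤ C' / √(((n : ℝ) + 1) * h) := by
  obtain ⟨C, hC, hip⟩ := ip_bound hq hq1 C1
  have hD : 0 < (1 / q) * (1 - q) ^ 2 := by
    have : 0 < 1 - q := by linarith
    positivity
  obtain ⟨C', hC', hrec⟩ := scalar_rec hC hD C1
  refine ⟨C', hC', fun h n hh hn => ?_⟩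
  refine hrec h n (fun n => W2 (bet q) (FF q h n)) hh hn
    (fun k _ => W2_nonneg (bet_pos hq) (bet_lt_one hq) _) (fun k hk => ?_) n le_rfl
  have hkC : k ≤ C1 * h := hk.trans hn
  -- coefficients of partial sums
  have hcoef : ∀ (s : Finset ℕ), (∀ g ∈ s, 1 ≤ g) → ∀ T, 0 ≤ (∑ g' ∈ s, pp q h g').coeff T := by
    intro s hs T
    rw [Polynomial.finsetSum_coeff]
    refine Finset.sum_nonneg fun g hg => ?_
    have h1 := hs g hg
    obtain ⟨m, rfl⟩ : ∃ m, g = m + 1 := ⟨g - 1, by omega⟩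
    exact pp_coeff_nonneg hq hq1 h m T
  have e1 : ip (pp q h (k + 1)) (pp q h (k + 1)) ≤ C / √(((k : ℝ) + 1) * h) := by
    have h1 : ip (pp q h (k + 1)) (pp q h (k + 1)) ≤
        ip (pp q h (k + 1)) (∑ g' ∈ Icc 1 (k + 1), pp q h g') := by
      refine ip_mono (pp_coeff_nonneg hq hq1 h k) fun T => ?_
      have h2 : (∑ g' ∈ Icc 1 (k + 1), pp q h g') =
          ∑ g' ∈ Icc 1 k, pp q h g' + pp q h (k + 1) := by
        rw [Finset.sum_Icc_succ_top (by omega)]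
      rw [h2, Polynomial.coeff_add]
      have := hcoef (Icc 1 k) (fun g hg => (Finset.mem_Icc.1 hg).1) T
      linarith
    have h3 := hip h k (k + 1) hh hkC (by omega) le_rfl
    push_cast at h3
    exact h1.trans h3
  have e2 : ∑ g ∈ Icc 1 k, ip (pp q h g) (∑ g' ∈ Icc 1 k, pp q h g') *
      W2 (bet q) (FF q h (k - g)) ≤
      ∑ g ∈ Icc 1 k, C / √((g : ℝ) * h) * W2 (bet q) (FF q h (k - g)) := by
    refine Finset.sum_le_sum fun g hg => ?_
    obtain ⟨hg1, hgk⟩ := Finset.mem_Icc.1 hg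
    refine mul_le_mul_of_nonneg_right ?_ (W2_nonneg (bet_pos hq) (bet_lt_one hq) _)
    have h1 : ip (pp q h g) (∑ g' ∈ Icc 1 k, pp q h g') ≤
        ip (pp q h g) (∑ g' ∈ Icc 1 (k + 1), pp q h g') := by
      obtain ⟨m, rfl⟩ : ∃ m, g = m + 1 := ⟨g - 1, by omega⟩
      refine ip_mono (pp_coeff_nonneg hq hq1 h m) fun T => ?_
      rw [Finset.sum_Icc_succ_top (by omega : 1 ≤ k + 1), Polynomial.coeff_add]
      have := pp_coeff_nonneg hq hq1 h k T
      linarith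
    exact h1.trans (hip h k g hh hkC hg1 (by omega))
  have e3 := W2_rec hq hq1 h k
  have e4 := mul_le_mul_of_nonneg_left e2 hD.le
  exact e3.trans (add_le_add e1 e4)

end B1g

open B1g

theorem overlap_FF {q : ℝ} (hq : 0 < q) (hq1 : q < 1) :
    ∃ C1 : ℕ, ∃ c : ℝ, 0 < c ∧ ∀ h : ℕ, 1 ≤ h → ∃ m ≤ C1 * h, ∃ ν : Al Wd,
      Nn ν ∧ Nn (FF q h m - ν) ∧ Nn (FF q h (m + 1) - ν) ∧ c ≤ mass ν := by
  classical
  obtain ⟨C1, C, hC1, hC, htot⟩ := totals hq hq1
  obtain ⟨C', hC', hW⟩ := W2_bound hq hq1 (C1 + 1)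
  have hb0 := bet_pos hq
  have hb1 := bet_lt_one hq
  set r0 : ℝ := 1 / (8 * C) with hr0
  set Ψ0 : ℝ := 16 * C * C' with hΨ0
  have hr0p : 0 < r0 := by rw [hr0]; positivity
  have hΨ0p : 0 < Ψ0 := by rw [hΨ0]; positivity
  refine ⟨C1, 1 / (4 * C) * (r0 ^ 5 / (32 * Ψ0 ^ 2)), by positivity, fun h hh => ?_⟩
  obtain ⟨I, hcard, hsum, hsup⟩ := htot h hh
  have hh0 : (0 : ℝ) < h := by exact_mod_cast hh
  refine ⟨C1 * h, le_rfl, ?_⟩
  set F : Al Wd := FF q h (C1 * h) with hF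
  set F' : Al Wd := FF q h (C1 * h + 1) with hF'
  set a : ℕ → ℝ := fun T => min ((pp q h (C1 * h + 1)).coeff T) ((pp q h (C1 * h + 2)).coeff T)
    with ha
  have haF : ∀ T, a T ≤ RT F T := fun T => by
    rw [hF, RT_FF hq hq1]; exact min_le_left _ _
  have haF' : ∀ T, a T ≤ RT F' T := fun T => by
    rw [hF', RT_FF hq hq1]; exact min_le_right _ _
  have haC : ∀ T, a T ≤ C / h := fun T => (min_le_left _ _).trans (hsup T)
  -- second moments
  have hsq : ∀ x : ℝ, (h : ℝ) ≤ x → C' / √(x * h) ≤ C' / h := by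
    intro x hx
    refine div_le_div_of_nonneg_left hC'.le hh0 ?_
    refine Real.le_sqrt_of_sq_le ?_
    nlinarith
  have hC1h : (h : ℝ) ≤ C1 * h := by
    have : (1 : ℝ) ≤ C1 := by exact_mod_cast hC1
    nlinarith
  have hWF : W2 (bet q) F ≤ C' / h := by
    refine (hW h (C1 * h) hh (Nat.mul_le_mul_right h (by omega))).trans (hsq _ ?_)
    push_cast
    linarith
  have hWF' : W2 (bet q) F' ≤ C' / h := by
    refine (hW h (C1 * h + 1) hh (by rw [add_mul]; omega)).trans (hsq _ ?_)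
    push_cast
    linarith
  set S : Finset ℕ := I.filter (fun T => r0 / h ≤ a T ∧ WT (bet q) F T ≤ Ψ0 / h ^ 2 ∧
    WT (bet q) F' T ≤ Ψ0 / h ^ 2) with hS
  have hpt : ∀ T ∈ I, a T ≤ (if T ∈ S then C / h else 0) + r0 / h +
      C / h * (h ^ 2 / Ψ0) * WT (bet q) F T + C / h * (h ^ 2 / Ψ0) * WT (bet q) F' T := by
    intro T hT
    have hw := WT_nonneg hb0 hb1 F T
    have hw' := WT_nonneg hb0 hb1 F' T
    have hk : 0 < C / h * (h ^ 2 / Ψ0) := by positivity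
    have hk1 : C / h * (h ^ 2 / Ψ0) * (Ψ0 / h ^ 2) = C / h := by
      field_simp
    have hrh : 0 < r0 / h := by positivity
    by_cases hTS : T ∈ S
    · rw [if_pos hTS]
      have := haC T
      have h1 := mul_nonneg hk.le hw
      have h2 := mul_nonneg hk.le hw'
      linarith
    · rw [if_neg hTS]
      have h1 := mul_nonneg hk.le hw
      have h2 := mul_nonneg hk.le hw'
      have h3 : ¬ (r0 / h ≤ a T ∧ WT (bet q) F T ≤ Ψ0 / h ^ 2 ∧
        WT (bet q) F' T ≤ Ψ0 / h ^ 2) := fun hcon => hTS (Finset.mem_filter.2 ⟨hT, hcon⟩)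
      by_cases c1 : r0 / h ≤ a T
      · by_cases c2 : WT (bet q) F T ≤ Ψ0 / h ^ 2
        · have c3 : Ψ0 / h ^ 2 < WT (bet q) F' T := by
            by_contra hcon
            exact h3 ⟨c1, c2, not_lt.1 hcon⟩
          have := mul_le_mul_of_nonneg_left c3.le hk.le
          rw [hk1] at this
          have := haC T
          linarith
        · have c3 : Ψ0 / h ^ 2 < WT (bet q) F T := not_le.1 c2
          have := mul_le_mul_of_nonneg_left c3.le hk.le
          rw [hk1] at this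
          have := haC T
          linarith
      · have := not_le.1 c1
        linarith
  have hsum2 := Finset.sum_le_sum hpt
  rw [Finset.sum_add_distrib, Finset.sum_add_distrib, Finset.sum_add_distrib,
    ← Finset.mul_sum, ← Finset.mul_sum, Finset.sum_const, nsmul_eq_mul] at hsum2
  have hSI : ∑ T ∈ I, (if T ∈ S then C / (h : ℝ) else 0) = S.card * (C / h) := by
    rw [← Finset.sum_filter, Finset.sum_const, nsmul_eq_mul]
    congr 2
    rw [Finset.filter_mem_eq_inter, Finset.inter_eq_right.2 (Finset.filter_subset _ _)]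
  rw [hSI] at hsum2
  have hkp : 0 < C / h * (h ^ 2 / Ψ0) := by positivity
  have b1 : (I.card : ℝ) * (r0 / h) ≤ 1 / 8 := by
    calc (I.card : ℝ) * (r0 / h) ≤ C * h * (r0 / h) :=
          mul_le_mul_of_nonneg_right hcard (by positivity)
      _ = 1 / 8 := by rw [hr0]; field_simp
  have b2 : C / h * (h ^ 2 / Ψ0) * ∑ T ∈ I, WT (bet q) F T ≤ 1 / 16 := by
    calc C / h * (h ^ 2 / Ψ0) * ∑ T ∈ I, WT (bet q) F T
        ≤ C / h * (h ^ 2 / Ψ0) * (C' / h) :=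
          mul_le_mul_of_nonneg_left ((sum_WT_le hb0 hb1 F I).trans hWF) hkp.le
      _ = 1 / 16 := by rw [hΨ0]; field_simp
  have b3 : C / h * (h ^ 2 / Ψ0) * ∑ T ∈ I, WT (bet q) F' T ≤ 1 / 16 := by
    calc C / h * (h ^ 2 / Ψ0) * ∑ T ∈ I, WT (bet q) F' T
        ≤ C / h * (h ^ 2 / Ψ0) * (C' / h) :=
          mul_le_mul_of_nonneg_left ((sum_WT_le hb0 hb1 F' I).trans hWF') hkp.le
      _ = 1 / 16 := by rw [hΨ0]; field_simp
  have hcardS : 1 / 4 ≤ (S.card : ℝ) * (C / h) := by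
    have := hsum
    linarith
  have hcardS' : 1 / (4 * C) * h ≤ S.card := by
    have h1 : (S.card : ℝ) * (C / h) * (h / C) = S.card := by field_simp
    have h2 : 1 / 4 * (h / C) ≤ (S.card : ℝ) * (C / h) * (h / C) :=
      mul_le_mul_of_nonneg_right hcardS (by positivity)
    rw [h1] at h2
    calc 1 / (4 * C) * h = 1 / 4 * (h / C) := by field_simp
      _ ≤ _ := h2
  obtain ⟨ν, hν, hν1, hν2, hν3⟩ := overlap_of_inc hb0 hb1 (inc_FF hq hq1 h (C1 * h))
    (inc_FF hq hq1 h (C1 * h + 1)) S (r := r0 / h) (Ψ := Ψ0 / h ^ 2) (by positivity)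
    (by positivity) (fun T hT => by
      obtain ⟨-, c1, c2, c3⟩ := Finset.mem_filter.1 hT
      exact ⟨c1.trans (haF T), c1.trans (haF' T), c2, c3⟩)
  refine ⟨ν, hν, hν1, hν2, le_trans ?_ hν3⟩
  have hfin : (r0 / h) ^ 5 / (32 * (Ψ0 / h ^ 2) ^ 2) = r0 ^ 5 / (32 * Ψ0 ^ 2) / h := by
    field_simp
  rw [hfin]
  calc 1 / (4 * C) * (r0 ^ 5 / (32 * Ψ0 ^ 2))
      = (1 / (4 * C) * h) * (r0 ^ 5 / (32 * Ψ0 ^ 2) / h) := by field_simp
    _ ≤ S.card * (r0 ^ 5 / (32 * Ψ0 ^ 2) / h) :=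
        mul_le_mul_of_nonneg_right hcardS' (by positivity)

end Vale.Agent.P321.SP
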