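import Mathlib

/-!
P321, superpolynomial lower bound: bookkeeping of polynomial orders of magnitude.
-/

namespace Vale.Agent.P321.SP

open Filter

/-- `f N = O(N ^ p)` as `N → ∞`. -/
def BO (f : ℝ → ℝ) (p : ℝ) : Prop := ∃ A : ℝ, 0 < A ∧ ∀ᶠ N : ℝ in atTop, |f N| ≤ A * N ^ p

theorem BO.rpow (p : ℝ) : BO (fun N => N ^ p) p := by
  refine ⟨1, one_pos, ?_⟩
  filter_upwards [eventually_ge_atTop (0 : ℝ)] with N hN
  rw [abs_of_nonneg (Real.rpow_nonneg hN p), one_mul]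

theorem BO.const (a : ℝ) : BO (fun _ => a) 0 := by
  refine ⟨|a| + 1, by positivity, ?_⟩
  filter_upwards with N
  rw [Real.rpow_zero, mul_one]; linarith

theorem BO.mono {f : ℝ → ℝ} {p r : ℝ} (h : BO f p) (hpr : p ≤ r) : BO f r := by
  obtain ⟨A, hA, h1⟩ := h
  refine ⟨A, hA, ?_⟩
  filter_upwards [h1, eventually_ge_atTop (1 : ℝ)] with N hN hN1
  exact hN.trans (mul_le_mul_of_nonneg_left (Real.rpow_le_rpow_of_exponent_le hN1 hpr) hA.le)

theorem BO.add {f g : ℝ → ℝ} {p : ℝ} (hf : BO f p) (hg : BO g p) :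
    BO (fun N => f N + g N) p := by
  obtain ⟨A, hA, h1⟩ := hf
  obtain ⟨B, hB, h2⟩ := hg
  refine ⟨A + B, by positivity, ?_⟩
  filter_upwards [h1, h2] with N hN hN'
  refine (abs_add_le _ _).trans ?_
  rw [add_mul]; exact add_le_add hN hN'

theorem BO.mul {f g : ℝ → ℝ} {p r : ℝ} (hf : BO f p) (hg : BO g r) :
    BO (fun N => f N * g N) (p + r) := by
  obtain ⟨A, hA, h1⟩ := hf
  obtain ⟨B, hB, h2⟩ := hg
  refine ⟨A * B, by positivity, ?_⟩
  filter_upwards [h1, h2, eventually_gt_atTop (0 : ℝ)] with N hN hN' hN0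
  rw [abs_mul, Real.rpow_add hN0]
  calc |f N| * |g N| ≤ (A * N ^ p) * (B * N ^ r) :=
        mul_le_mul hN hN' (abs_nonneg _) (by positivity)
    _ = _ := by ring

theorem BO.const_mul {f : ℝ → ℝ} {p : ℝ} (a : ℝ) (hf : BO f p) : BO (fun N => a * f N) p := by
  have := (BO.const a).mul hf
  rwa [zero_add] at this

theorem BO.pow {f : ℝ → ℝ} {p : ℝ} (hf : BO f p) (k : ℕ) :
    BO (fun N => f N ^ k) (k * p) := by
  induction k with
  | zero => simpa using BO.const 1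
  | succ k ih =>
    have := ih.mul hf
    have e : (k : ℝ) * p + p = ((k + 1 : ℕ) : ℝ) * p := by push_cast; ring
    rw [e] at this
    simpa only [pow_succ] using this

theorem BO.of_le {f g : ℝ → ℝ} {p : ℝ} (hg : BO g p) (h : ∀ᶠ N : ℝ in atTop, |f N| ≤ g N) :
    BO f p := by
  obtain ⟨A, hA, h1⟩ := hg
  refine ⟨A, hA, ?_⟩
  filter_upwards [h, h1] with N hN hN'
  exact hN.trans ((le_abs_self _).trans hN')

theorem BO.ceil {f : ℝ → ℝ} {p : ℝ} (hp : 0 ≤ p) (hf : BO f p) (h0 : ∀ᶠ N : ℝ in atTop, 0 ≤ f N) :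
    BO (fun N => (⌈f N⌉₊ : ℝ)) p := by
  refine BO.of_le (hf.add ((BO.const 1).mono hp)) ?_
  filter_upwards [h0] with N hN
  rw [abs_of_nonneg (Nat.cast_nonneg _)]
  exact (Nat.ceil_lt_add_one hN).le

theorem BO.floor {f : ℝ → ℝ} {p : ℝ} (hf : BO f p) (h0 : ∀ᶠ N : ℝ in atTop, 0 ≤ f N) :
    BO (fun N => (⌊f N⌋₊ : ℝ)) p := by
  refine BO.of_le hf ?_
  filter_upwards [h0] with N hN
  rw [abs_of_nonneg (Nat.cast_nonneg _)]
  exact Nat.floor_le hN

theorem BO.lt_rpow {f : ℝ → ℝ} {p r : ℝ} (hf : BO f p) (h : p < r) :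
    ∀ᶠ N : ℝ in atTop, f N ≤ N ^ r := by
  obtain ⟨A, hA, h1⟩ := hf
  have h2 : Tendsto (fun N : ℝ => N ^ (r - p)) atTop atTop := tendsto_rpow_atTop (by linarith)
  filter_upwards [h1, h2.eventually_ge_atTop A, eventually_gt_atTop (0 : ℝ)] with N a1 a2 a3
  calc f N ≤ |f N| := le_abs_self _
    _ ≤ A * N ^ p := a1
    _ ≤ N ^ (r - p) * N ^ p := mul_le_mul_of_nonneg_right a2 (Real.rpow_nonneg a3.le _)
    _ = N ^ r := by rw [← Real.rpow_add a3]; congr 1; ring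

theorem BO.small {f : ℝ → ℝ} {p : ℝ} (hf : BO f p) (h : p < 0) {ε : ℝ} (hε : 0 < ε) :
    ∀ᶠ N : ℝ in atTop, f N ≤ ε := by
  have h1 := hf.lt_rpow (show p < p / 2 by linarith)
  have h2 : Tendsto (fun N : ℝ => N ^ (p / 2)) atTop (nhds 0) := by
    have := tendsto_rpow_neg_atTop (show 0 < -(p / 2) by linarith)
    simpa using this
  filter_upwards [h1, h2.eventually_lt_const hε] with N a1 a2
  exact a1.trans a2.le

theorem BO.exp_neg {C δ : ℝ} (hC : 0 < C) (hδ : 0 < δ) (r : ℝ) :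
    BO (fun N => Real.exp (-(C * N ^ δ))) r := by
  -- `exp (-u) ≤ k! / u ^ k`
  obtain ⟨k, hk⟩ := exists_nat_gt (-r / δ)
  refine ⟨k.factorial / C ^ k, by positivity, ?_⟩
  filter_upwards [eventually_ge_atTop (1 : ℝ)] with N hN
  have hN0 : 0 < N := by linarith
  rw [abs_of_pos (Real.exp_pos _)]
  have hu : 0 < C * N ^ δ := by positivity
  have h1 : (C * N ^ δ) ^ k / k.factorial ≤ Real.exp (C * N ^ δ) :=
    Real.pow_div_factorial_le_exp _ hu.le k
  have h2 : Real.exp (-(C * N ^ δ)) ≤ k.factorial / (C * N ^ δ) ^ k := by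
    rw [Real.exp_neg, inv_eq_one_div, div_le_div_iff₀ (Real.exp_pos _) (by positivity)]
    rw [div_le_iff₀ (by positivity)] at h1
    linarith
  refine h2.trans ?_
  rw [mul_pow, ← div_div, ← Real.rpow_natCast (N ^ δ) k, ← Real.rpow_mul hN0.le]
  rw [div_eq_mul_inv (_ / _), ← Real.rpow_neg hN0.le]
  apply mul_le_mul_of_nonneg_left _ (by positivity)
  apply Real.rpow_le_rpow_of_exponent_le hN
  rw [div_lt_iff₀ hδ] at hk
  nlinarith

/-- `1 / √(K + 1)` when `K ≥ κ N ^ p`. -/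
theorem BO.inv_sqrt {K : ℝ → ℝ} {p κ : ℝ} (hκ : 0 < κ)
    (h : ∀ᶠ N : ℝ in atTop, κ * N ^ p ≤ K N + 1) (a : ℝ) :
    BO (fun N => a / √(K N + 1)) (-(p / 2)) := by
  refine ⟨|a| / √κ + 1, by positivity, ?_⟩
  filter_upwards [h, eventually_gt_atTop (0 : ℝ)] with N h1 hN
  have h2 : 0 < κ * N ^ p := by positivity
  have h3 : √κ * N ^ (p / 2) ≤ √(K N + 1) := by
    have e : √(κ * N ^ p) = √κ * N ^ (p / 2) := by
      rw [Real.sqrt_mul hκ.le]
      congr 1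
      rw [Real.sqrt_eq_rpow, ← Real.rpow_mul hN.le]
      congr 1; ring
    rw [← e]
    exact Real.sqrt_le_sqrt h1
  have h4 : 0 < √κ * N ^ (p / 2) := by positivity
  rw [abs_div, abs_of_nonneg (Real.sqrt_nonneg _)]
  calc |a| / √(K N + 1) ≤ |a| / (√κ * N ^ (p / 2)) :=
        div_le_div_of_nonneg_left (abs_nonneg _) h4 h3
    _ = |a| / √κ * N ^ (-(p / 2)) := by
        rw [Real.rpow_neg hN.le]; field_simp
    _ ≤ _ := by
        apply mul_le_mul_of_nonneg_right _ (Real.rpow_nonneg hN.le _)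
        linarith

theorem BO.sqrt {f : ℝ → ℝ} {p : ℝ} (hf : BO f p) : BO (fun N => √(f N)) (p / 2) := by
  obtain ⟨A, hA, h1⟩ := hf
  refine ⟨√A + 1, by positivity, ?_⟩
  filter_upwards [h1, eventually_gt_atTop (0 : ℝ)] with N a1 hN
  rw [abs_of_nonneg (Real.sqrt_nonneg _)]
  have h2 : √(f N) ≤ √(A * N ^ p) := Real.sqrt_le_sqrt ((le_abs_self _).trans a1)
  have e : √(A * N ^ p) = √A * N ^ (p / 2) := by
    rw [Real.sqrt_mul hA.le]
    congr 1
    rw [Real.sqrt_eq_rpow, ← Real.rpow_mul hN.le]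
    congr 1; ring
  rw [e] at h2
  refine h2.trans ?_
  apply mul_le_mul_of_nonneg_right _ (Real.rpow_nonneg hN.le _)
  linarith

end Vale.Agent.P321.SP
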