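import Vale.Agent.Lib.P321.SP.Ev

/-!
P321, superpolynomial lower bound: measures whose translates mix in a subgaussian way.
-/

namespace Vale.Agent.P321.SP

open Finset

section

variable {G : Type} [Monoid G]

/-- `F` spans `L` blocks of `P` and superpositions of its translates, multiplied on the right by
measures with bounded densities, are subgaussian. -/
def Mono (P : Al G) (L : ℕ) (θ : ℝ) (F : Al G) : Prop :=
  0 ≤ θ ∧ ∀ (J N : ℕ) (X : ℕ → Al G) (b : ℕ → ℝ), (∀ j ≤ J, Bdd P (N + j) (b j) (X j)) →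
    ∃ f : List G → ℝ, ev P (J + L + N) f = ∑ j ∈ range (J + 1), P ^ (J - j) * F * X j ∧
      SG P (J + L + N) f (θ ^ 2 * ∑ j ∈ range (J + 1), b j ^ 2) ∧
      ∀ y, |f y| ≤ θ * ∑ j ∈ range (J + 1), b j

theorem Mono.cast {P : Al G} {L L' : ℕ} {θ : ℝ} {F : Al G} (h : Mono P L θ F) (hL : L = L') :
    Mono P L' θ F := hL ▸ h

theorem SG.cast {P : Al G} {N N' : ℕ} {f : List G → ℝ} {V : ℝ} (h : SG P N f V) (hN : N = N') :
    SG P N' f V := hN ▸ h

theorem Mono.base {P : Al G} (hP : Prob P) {τ : Al G} {ζ : ℝ} (hζ : 0 ≤ ζ) (h : Ab τ (ζ • P))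
    (h0 : mass τ = 0) : Mono P 1 ζ τ := by
  refine ⟨hζ, ?_⟩
  obtain ⟨s, hs1, hs2⟩ := exists_density hζ hP.1 h
  have hs0 : ∑ a ∈ P.coeff.support, P.coeff a * s a = 0 := by
    have h1 : ∑ a ∈ P.coeff.support, P.coeff a * s a = ∑ a ∈ P.coeff.support, τ.coeff a :=
      Finset.sum_congr rfl fun a _ => (hs1 a).symm
    rw [h1, ← h0, mass_eq]
    symm
    apply Finset.sum_subset
    · intro g hg
      rw [Finsupp.mem_support_iff] at hg ⊢
      intro hz
      apply hg
      rw [hs1, hz, zero_mul]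
    · intro g _ hg
      rwa [Finsupp.notMem_support_iff] at hg
  intro J
  induction J with
  | zero =>
    intro N X b hX
    obtain ⟨g, hg1, hg2⟩ := hX 0 le_rfl
    rw [add_zero] at hg1
    refine ⟨fun y => match y with | [] => 0 | a :: y => s a * g y, ?_, ?_, ?_⟩
    · rw [show 0 + 1 + N = N + 1 by ring, ev_cons P N g s τ hs1 _ (fun a y => rfl), hg1]
      simp
    · have := (SG.zero hP N le_rfl).cons hP s g hs2 hs0 hg2
        (fun y => match y with | [] => 0 | a :: y => s a * g y) (fun a y => by simp)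
      refine (this.cast (by ring)).mono (le_of_eq ?_)
      simp
    · intro y
      have hb := (abs_nonneg _).trans (hg2 [])
      cases y with
      | nil => simpa using mul_nonneg hζ hb
      | cons a y =>
        simp only [zero_add, Finset.sum_range_one, abs_mul]
        exact mul_le_mul (hs2 a) (hg2 y) (abs_nonneg _) hζ
  | succ J ih =>
    intro N X b hX
    obtain ⟨f, hf1, hf2, hf3⟩ := ih N X b (fun j hj => hX j (by omega))
    obtain ⟨g, hg1, hg2⟩ := hX (J + 1) le_rfl
    have hb := (abs_nonneg _).trans (hg2 [])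
    have hN : N + (J + 1) = J + 1 + N := by ring
    rw [hN] at hg1
    refine ⟨fun y => (match y with | [] => 0 | _ :: y => f y) +
      (match y with | [] => 0 | a :: y => s a * g y), ?_, ?_, ?_⟩
    · rw [show J + 1 + 1 + N = (J + 1 + N) + 1 by ring, ev_add,
        ev_left P (J + 1 + N) f _ (fun a y => rfl),
        ev_cons P (J + 1 + N) g s τ hs1 _ (fun a y => rfl), hf1, hg1,
        Finset.sum_range_succ _ (J + 1), Finset.mul_sum]
      congr 1
      · refine Finset.sum_congr rfl fun j hj => ?_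
        have : j < J + 1 := Finset.mem_range.mp hj
        rw [show J + 1 - j = J - j + 1 by omega, pow_succ']
        simp only [mul_assoc]
      · simp
    · have := hf2.cons hP s g hs2 hs0 hg2
        (fun y => (match y with | [] => 0 | _ :: y => f y) +
          (match y with | [] => 0 | a :: y => s a * g y)) (fun a y => by simp)
      refine (this.cast (by ring)).mono (le_of_eq ?_)
      rw [Finset.sum_range_succ _ (J + 1)]
      ring
    · intro y
      have hh := (abs_nonneg _).trans (hf3 [])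
      rw [Finset.sum_range_succ _ (J + 1), mul_add]
      cases y with
      | nil =>
        simp only [add_zero, abs_zero]
        have := mul_nonneg hζ hb
        linarith
      | cons a y =>
        refine (abs_add_le _ _).trans (add_le_add (hf3 y) ?_)
        rw [abs_mul]
        exact mul_le_mul (hs2 a) (hg2 y) (abs_nonneg _) hζ

theorem Mono.bdd {P : Al G} {L : ℕ} {θ : ℝ} {F : Al G} (h : Mono P L θ F) : Bdd P L θ F := by
  obtain ⟨f, h1, _, h3⟩ := h.2 0 0 (fun _ => 1) (fun _ => 1) (fun j hj => by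
    have : j = 0 := by omega
    rw [this]
    simpa using Bdd.pow P 0)
  refine ⟨f, ?_, fun y => by simpa using h3 y⟩
  simpa using h1

theorem Mono.mono {P : Al G} {L : ℕ} {θ θ' : ℝ} {F : Al G} (h : Mono P L θ F) (hθ : θ ≤ θ') :
    Mono P L θ' F := by
  refine ⟨h.1.trans hθ, fun J N X b hX => ?_⟩
  obtain ⟨f, h1, h2, h3⟩ := h.2 J N X b hX
  have h0 := h.1
  have hb : ∀ j ∈ range (J + 1), 0 ≤ b j := fun j hj =>
    (hX j (by have := Finset.mem_range.mp hj; omega)).nonneg
  refine ⟨f, h1, h2.mono ?_, fun y => (h3 y).trans ?_⟩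
  · exact mul_le_mul_of_nonneg_right (pow_le_pow_left₀ h0 hθ 2)
      (Finset.sum_nonneg fun _ _ => sq_nonneg _)
  · exact mul_le_mul_of_nonneg_right hθ (Finset.sum_nonneg hb)

theorem Mono.mul_bdd {P : Al G} {L M : ℕ} {θ c : ℝ} {F Y : Al G} (h : Mono P L θ F)
    (hY : Bdd P M c Y) : Mono P (L + M) (θ * c) (F * Y) := by
  refine ⟨mul_nonneg h.1 hY.nonneg, fun J N X b hX => ?_⟩
  obtain ⟨f, h1, h2, h3⟩ := h.2 J (M + N) (fun j => Y * X j) (fun j => c * b j)
    (fun j hj => (hY.mul (hX j hj)).cast (by ring))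
  refine ⟨f, ?_, ?_, fun y => ?_⟩
  · rw [show J + (L + M) + N = J + L + (M + N) by ring, h1]
    refine Finset.sum_congr rfl fun j _ => ?_
    simp only [mul_assoc]
  · refine (h2.cast (by ring)).mono (le_of_eq ?_)
    rw [Finset.mul_sum, Finset.mul_sum]
    exact Finset.sum_congr rfl fun j _ => by ring
  · refine (h3 y).trans (le_of_eq ?_)
    rw [Finset.mul_sum, Finset.mul_sum]
    exact Finset.sum_congr rfl fun j _ => by ring

theorem Mono.left {P : Al G} (hP : Prob P) {L : ℕ} {θ : ℝ} {F : Al G} (h : Mono P L θ F) :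
    Mono P (L + 1) θ (P * F) := by
  refine ⟨h.1, fun J N X b hX => ?_⟩
  obtain ⟨f, h1, h2, h3⟩ := h.2 J N X b hX
  refine ⟨fun y => match y with | [] => 0 | _ :: y => f y, ?_, ?_, fun y => ?_⟩
  · rw [show J + (L + 1) + N = (J + L + N) + 1 by ring,
      ev_left P (J + L + N) f _ (fun a y => rfl), h1, Finset.mul_sum]
    refine Finset.sum_congr rfl fun j _ => ?_
    have : P * (P ^ (J - j) * F * X j) = (P * P ^ (J - j)) * F * X j := by
      simp only [mul_assoc]
    rw [this, ← pow_succ', pow_succ]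
    simp only [mul_assoc]
  · exact (h2.tail_cons hP _ (fun a y => rfl)).cast (by ring)
  · cases y with
    | nil => simpa using (abs_nonneg _).trans (h3 [])
    | cons a y => exact h3 y

theorem Mono.pow_mul {P : Al G} (hP : Prob P) {L : ℕ} {θ : ℝ} {F : Al G} (h : Mono P L θ F)
    (M : ℕ) : Mono P (M + L) θ (P ^ M * F) := by
  induction M with
  | zero => simpa using h
  | succ M ih =>
    have := (ih.left hP).cast (show M + L + 1 = M + 1 + L by ring)
    rwa [← mul_assoc, ← pow_succ'] at this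

theorem Mono.mul_pow {P : Al G} {L : ℕ} {θ : ℝ} {F : Al G} (h : Mono P L θ F)
    (M : ℕ) : Mono P (L + M) θ (F * P ^ M) := by
  have := h.mul_bdd (Bdd.pow P M)
  rwa [mul_one] at this

theorem Mono.add {P : Al G} (hP : Prob P) {L : ℕ} {θ θ' : ℝ} {F F' : Al G} (h : Mono P L θ F)
    (h' : Mono P L θ' F') : Mono P L (θ + θ') (F + F') := by
  refine ⟨add_nonneg h.1 h'.1, fun J N X b hX => ?_⟩
  obtain ⟨f, h1, h2, h3⟩ := h.2 J N X b hX
  obtain ⟨f', h1', h2', h3'⟩ := h'.2 J N X b hX
  refine ⟨fun y => f y + f' y, ?_, ?_, fun y => ?_⟩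
  · rw [ev_add, h1, h1', ← Finset.sum_add_distrib]
    refine Finset.sum_congr rfl fun j _ => ?_
    noncomm_ring
  · rcases eq_or_lt_of_le h.1 with h0 | h0
    · have : (fun y => f y + f' y) = f' := by
        funext y
        have := h3 y
        rw [← h0, zero_mul] at this
        rw [abs_eq_zero.mp (le_antisymm this (abs_nonneg _)), zero_add]
      rw [this, ← h0, zero_add]; exact h2'
    · rcases eq_or_lt_of_le h'.1 with h0' | h0'
      · have : (fun y => f y + f' y) = f := by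
          funext y
          have := h3' y
          rw [← h0', zero_mul] at this
          rw [abs_eq_zero.mp (le_antisymm this (abs_nonneg _)), add_zero]
        rw [this, ← h0', add_zero]; exact h2
      · exact SG.add hP h0 h0' h2 h2'
  · rw [add_mul]
    exact (abs_add_le _ _).trans (add_le_add (h3 y) (h3' y))

theorem Mono.smul {P : Al G} {L : ℕ} {θ : ℝ} {F : Al G} (h : Mono P L θ F) (c : ℝ) :
    Mono P L (|c| * θ) (c • F) := by
  refine ⟨mul_nonneg (abs_nonneg c) h.1, fun J N X b hX => ?_⟩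
  obtain ⟨f, h1, h2, h3⟩ := h.2 J N X b hX
  refine ⟨fun y => c * f y, ?_, ?_, fun y => ?_⟩
  · rw [ev_smul, h1, Finset.smul_sum]
    refine Finset.sum_congr rfl fun j _ => ?_
    rw [mul_smul_comm, smul_mul_assoc]
  · refine (h2.smul c).mono (le_of_eq ?_)
    rw [_root_.mul_pow, sq_abs]; ring
  · rw [abs_mul, mul_assoc]
    exact mul_le_mul_of_nonneg_left (h3 y) (abs_nonneg c)

theorem Mono.neg {P : Al G} {L : ℕ} {θ : ℝ} {F : Al G} (h : Mono P L θ F) : Mono P L θ (-F) := by
  have := h.smul (-1)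
  simpa using this

theorem Mono.sub {P : Al G} (hP : Prob P) {L : ℕ} {θ θ' : ℝ} {F F' : Al G} (h : Mono P L θ F)
    (h' : Mono P L θ' F') : Mono P L (θ + θ') (F - F') := by
  rw [sub_eq_add_neg]; exact h.add hP h'.neg

theorem Mono.zero {P : Al G} (hP : Prob P) (L : ℕ) : Mono P L 0 (0 : Al G) := by
  refine ⟨le_rfl, fun J N X b _ => ⟨fun _ => 0, ?_, ?_, fun y => by simp⟩⟩
  · rw [ev_const]; simp
  · simpa using SG.zero hP (J + L + N) le_rfl

theorem Mono.ab {P : Al G} (hP : Prob P) {L : ℕ} {θ : ℝ} {F : Al G} (h : Mono P L θ F) :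
    Ab F (θ • P ^ L) := h.bdd.ab hP.1

theorem Mono.nrm {P : Al G} (hP : Prob P) {L : ℕ} {θ : ℝ} {F : Al G} (h : Mono P L θ F) :
    Nrm F θ := ⟨θ • P ^ L, h.ab hP, by rw [map_smul, (hP.pow L).2]; simp⟩

/-- `Z` is `P ^ L` up to a `Mono` error. -/
def Near (P : Al G) (L : ℕ) (x : ℝ) (Z : Al G) : Prop := Mono P L x (Z - P ^ L)

theorem Near.self {P : Al G} (hP : Prob P) (L : ℕ) : Near P L 0 (P ^ L) := by
  unfold Near; rw [sub_self]; exact Mono.zero hP L

theorem Near.bdd {P : Al G} {L : ℕ} {x : ℝ} {Z : Al G} (h : Near P L x Z) :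
    Bdd P L (1 + x) Z := by
  have := (Bdd.pow P L).add (Mono.bdd h)
  convert this using 1
  abel

theorem Near.mul_mono {P : Al G} (hP : Prob P) {L L' : ℕ} {x θ : ℝ} {Z F : Al G}
    (h : Near P L x Z) (hF : Mono P L' θ F) : Mono P (L + L') ((1 + x) * θ) (Z * F) := by
  have h1 := (hF.pow_mul hP L).add hP (Mono.mul_bdd h hF.bdd)
  convert h1 using 1
  · ring
  · noncomm_ring

theorem Near.mul {P : Al G} (hP : Prob P) {L L' : ℕ} {x x' : ℝ} {Z Z' : Al G}
    (h : Near P L x Z) (h' : Near P L' x' Z') : Near P (L + L') ((1 + x) * (1 + x') - 1) (Z * Z') := by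
  have h1 := (Mono.mul_bdd h h'.bdd).add hP (Mono.pow_mul hP h' L)
  unfold Near
  convert h1 using 1
  · ring
  · rw [pow_add]; noncomm_ring

theorem Near.pow {P : Al G} (hP : Prob P) {L : ℕ} {x : ℝ} {Z : Al G} (h : Near P L x Z) (k : ℕ) :
    Near P (L * k) ((1 + x) ^ k - 1) (Z ^ k) := by
  induction k with
  | zero =>
    have := Near.self hP 0
    simpa using this
  | succ k ih =>
    have := ih.mul hP h
    rw [pow_succ, pow_succ, Nat.mul_succ]
    convert this using 1
    ring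

theorem Av_const (P : Al G) (R : Al G) (K L a r : ℕ) (hR : R = P ^ L) (har : a + r ≤ K) :
    Av^[a] (fun i => P ^ (K - i) * R * P ^ i) r = P ^ (K + L) := by
  rw [Av_iter]
  have h1 : ∀ i ∈ range (a + 1), ((a.choose i : ℝ) / 2 ^ a) • (P ^ (K - (r + i)) * R * P ^ (r + i))
      = ((a.choose i : ℝ) / 2 ^ a) • P ^ (K + L) := by
    intro i hi
    have : i < a + 1 := Finset.mem_range.mp hi
    rw [hR, ← pow_add, ← pow_add]
    congr 2
    omega
  rw [Finset.sum_congr rfl h1, ← Finset.sum_smul, ← Finset.sum_div]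
  have h4 : (∑ i ∈ range (a + 1), (a.choose i : ℝ)) = 2 ^ a := by
    exact_mod_cast Nat.sum_range_choose a
  rw [h4]; simp

/-- The gain from mixing. -/
theorem gain {P : Al G} (hP : Prob P) {m : ℕ} {c : ℝ} (hc : 0 < c) (hH : Hid P m c) (K : ℕ)
    {F : Al G} {L : ℕ} {θ : ℝ} (hθ : 0 < θ) (hF : Mono P L θ F) {r : ℕ} (hr : r ≤ 2) (a0 : ℕ)
    (ha : 2 * (a0 : ℝ) ≤ c ^ 2 * K) {l : ℝ} (hl : 0 ≤ l) :
    Small (P ^ (K * (m + 1)) * ((Dc P)^[r] F) * P ^ (K * (m + 1)))
      (P ^ (2 * (K * (m + 1)) + L + r))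
      (l * √(θ ^ 2 * (12 / (((a0 : ℝ) + 1) ^ r * √((a0 : ℝ) + 1)))))
      (4 * θ * (2 * Real.exp (-(l ^ 2 / 2)) + Real.exp (-(c ^ 2 * K / 8)))) := by
  have hc1 := hH.le_one hP
  set V0 : ℝ := 12 / (((a0 : ℝ) + 1) ^ r * √((a0 : ℝ) + 1)) with hV0
  have ha0 : (0 : ℝ) < (a0 : ℝ) + 1 := by positivity
  have hV0p : 0 < V0 := by positivity
  have h1 : ∀ a j, a + j ≤ K → Small (Av^[a] (fun i => P ^ (K - i) * ((Dc P)^[r] F) * P ^ i) j)
      (Av^[a] (fun i => P ^ (K - i) * P ^ (L + r) * P ^ i) j) (l * √(θ ^ 2 * V0))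
      ((4 * θ * (2 * Real.exp (-(l ^ 2 / 2)))) * 1 + (4 * θ) * (if a < a0 then (1 : ℝ) else 0)) := by
    intro a j haj
    rw [Av_comm P r F K a j haj, Av_const P (P ^ (L + r)) K (L + r) a j rfl haj]
    obtain ⟨f, hf1, hf2, hf3⟩ := hF.2 (a + r) j (fun i => cf r a i • P ^ (j + i))
      (fun i => |cf r a i|) (fun i _ => by
        have := (Bdd.pow P (j + i)).smul (cf r a i)
        rwa [mul_one] at this)
    have e1 : ∑ i ∈ range (a + r + 1), cf r a i • (P ^ (K + r - (j + i)) * F * P ^ (j + i))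
        = P ^ (K - j - a) * ev P (a + r + L + j) f := by
      rw [hf1, Finset.mul_sum]
      refine Finset.sum_congr rfl fun i hi => ?_
      have : i < a + r + 1 := Finset.mem_range.mp hi
      rw [mul_smul_comm, mul_smul_comm]
      congr 1
      rw [← mul_assoc, ← mul_assoc, ← pow_add]
      congr 3
      omega
    rw [e1]
    have e2 : P ^ (K + (L + r)) = P ^ (K - j - a) * P ^ (a + r + L + j) := by
      rw [← pow_add]; congr 1; omega
    rw [e2]
    have hb : ∀ y, |f y| ≤ 4 * θ := by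
      intro y
      refine (hf3 y).trans ?_
      have h5 := cf_abs_sum r a (a + r + 1)
      have h6 : (2 : ℝ) ^ r ≤ 4 := by
        calc (2 : ℝ) ^ r ≤ 2 ^ 2 := pow_le_pow_right₀ (by norm_num) hr
          _ = 4 := by norm_num
      have := mul_le_mul_of_nonneg_left (h5.trans h6) hθ.le
      linarith
    have hqq : θ ^ 2 * ∑ i ∈ range (a + r + 1), |cf r a i| ^ 2 = θ ^ 2 * qq r a := by
      congr 1
      exact Finset.sum_congr rfl fun i _ => by rw [sq_abs]
    rw [hqq] at hf2
    apply Small.mul_left (hP.pow _)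
    by_cases hcase : a < a0
    · rw [if_pos hcase]
      have : Nrm (ev P (a + r + L + j) f) (4 * θ) :=
        ⟨(4 * θ) • P ^ (a + r + L + j), Bdd.ab hP.1 ⟨f, rfl, hb⟩, by
          rw [map_smul, (hP.pow _).2]; simp⟩
      refine (Small.of_nrm _ this).mono (hP.pow _).1 (by positivity) ?_
      have := Real.exp_pos (-(l ^ 2 / 2))
      have : 0 ≤ 4 * θ * (2 * Real.exp (-(l ^ 2 / 2))) * 1 := by positivity
      linarith
    · rw [if_neg hcase]
      have hle : qq r a ≤ V0 := (qq_anti r (not_lt.mp hcase)).trans (qq_le hr a0)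
      have h7 : SG P (a + r + L + j) f (θ ^ 2 * V0) :=
        hf2.mono (mul_le_mul_of_nonneg_left hle (sq_nonneg θ))
      refine (h7.small hP (by positivity) hl hb).mono (hP.pow _).1 le_rfl (le_of_eq ?_)
      ring
  have h2 := mix2 hP hc.le hH K _ _ _ _ h1
  rw [binE_lin] at h2
  rw [← pow_add, ← pow_add] at h2
  have e3 : K * (m + 1) + (L + r) + K * (m + 1) = 2 * (K * (m + 1)) + L + r := by ring
  rw [e3] at h2
  refine h2.mono (hP.pow _).1 le_rfl ?_
  rw [binE_const]
  have h3 := binE_tail (sq_nonneg c) (by nlinarith) K a0 ha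
  have := mul_le_mul_of_nonneg_left h3 (show 0 ≤ 4 * θ by positivity)
  linarith

end

end Vale.Agent.P321.SP
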