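import Vale.Agent.Lib.P321.SP.Law
import Vale.Agent.Lib.P321.SP.Mono

/-!
P321, superpolynomial lower bound: closeness of shifted windows.
-/

namespace Vale.Agent.P321.SP

open Finset

theorem bc_dl_win (q : ℝ) (a b : ℕ) :
    dl q (win a b) = dl q blk ^ a * dl q mrk * dl q blk ^ b := by
  unfold win; rw [map_mul, map_mul, map_pow, map_pow]

theorem bc_dl_blk (q : ℝ) : dl q blk = bit q false * dl q mrk := by
  unfold blk mrk
  rw [map_mul]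
  congr 1

theorem bc_dl_mrk (q : ℝ) : dl q mrk = bit q true := rfl

theorem bc_hid {q : ℝ} (hq : 0 < q) (hq1 : q < 1) : Hid (dl q blk) 0 (q ^ 2) := by
  refine ⟨(q ^ 2) • (1 : Al Bw), Nn.one.smul (by positivity), ?_, ?_, ?_⟩
  · have h : (dl q blk) ^ 0 - (q ^ 2) • (1 : Al Bw) = (1 - q ^ 2) • (1 : Al Bw) := by
      rw [pow_zero]; module
    rw [h]
    exact Nn.one.smul (by nlinarith)
  · have h0 : Nn (MonoidAlgebra.single (FreeMonoid.of false) (1 : ℝ) : Al Bw) :=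
      Nn.single _ zero_le_one
    have h1 : Nn (MonoidAlgebra.single (FreeMonoid.of true) (1 : ℝ) : Al Bw) :=
      Nn.single _ zero_le_one
    have h : (dl q blk) ^ (0 + 1) - (q ^ 2) • (1 : Al Bw) =
        (q * (1 - q)) • (MonoidAlgebra.single (FreeMonoid.of true) (1 : ℝ) : Al Bw) +
        ((1 - q) * q) • (MonoidAlgebra.single (FreeMonoid.of false) (1 : ℝ) : Al Bw) +
        ((1 - q) * (1 - q)) • ((MonoidAlgebra.single (FreeMonoid.of false) (1 : ℝ) : Al Bw) *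
          MonoidAlgebra.single (FreeMonoid.of true) (1 : ℝ)) := by
      rw [zero_add, pow_one, bc_dl_blk, bc_dl_mrk]
      unfold bit
      simp only [add_mul, mul_add, smul_mul_smul_comm, one_mul, mul_one]
      module
    rw [h]
    have hp : 0 ≤ 1 - q := by linarith
    exact ((h1.smul (by positivity)).add (h0.smul (by positivity))).add
      ((h0.mul h1).smul (by positivity))
  · rw [map_smul, map_one, smul_eq_mul, mul_one]

theorem bc_sigma_ab {q : ℝ} (hq : 0 < q) (hq1 : q < 1) :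
    Ab (dl q mrk - dl q blk) ((1 / q) • dl q blk) := by
  have hI : Nn (dl q mrk) := (dl_prob hq.le hq1.le mrk).1
  have hB : Nn (dl q blk) := (dl_prob hq.le hq1.le blk).1
  have hp : 0 ≤ 1 - q := by linarith
  have h0 : Nn (MonoidAlgebra.single (FreeMonoid.of false) (1 : ℝ) : Al Bw) :=
    Nn.single _ zero_le_one
  have hq' : 1 / q * q = 1 := by field_simp
  have hB2 : (1 / q) • dl q blk = dl q mrk + (1 / q * (1 - q)) •
      ((MonoidAlgebra.single (FreeMonoid.of false) (1 : ℝ) : Al Bw) * dl q mrk) := by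
    rw [bc_dl_blk]
    unfold bit
    rw [add_mul, smul_mul_assoc, smul_mul_assoc, one_mul, smul_add, smul_smul, smul_smul, hq',
      one_smul]
  constructor
  · have h : (1 / q) • dl q blk - (dl q mrk - dl q blk) = (1 / q * (1 - q)) •
        ((MonoidAlgebra.single (FreeMonoid.of false) (1 : ℝ) : Al Bw) * dl q mrk) + dl q blk := by
      rw [hB2]; abel
    rw [h]
    exact ((h0.mul hI).smul (by positivity)).add hB
  · have h : (1 / q) • dl q blk + (dl q mrk - dl q blk) = (1 / q - 1) • dl q blk + dl q mrk := by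
      module
    rw [h]
    refine (hB.smul ?_).add hI
    rw [sub_nonneg, le_div_iff₀ hq]
    linarith

theorem bc_sigma_mono {q : ℝ} (hq : 0 < q) (hq1 : q < 1) :
    Mono (dl q blk) 1 (1 / q) (dl q mrk - dl q blk) := by
  refine Mono.base (dl_prob hq.le hq1.le blk) (by positivity) (bc_sigma_ab hq hq1) ?_
  rw [map_sub, (dl_prob hq.le hq1.le mrk).2, (dl_prob hq.le hq1.le blk).2, sub_self]

theorem bc_rate {θ A : ℝ} (hθ : 0 < θ) (hA : 0 < A) (hA1 : A ≤ 1) {r : ℕ} (hr : r ≤ 2)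
    {y x : ℝ} (hx : 0 < x) (hxy : A * x ≤ y) :
    √(θ ^ 2 * (12 / (y ^ r * √y))) ≤
      (4 * θ * (A ^ (3 : ℕ))⁻¹) * x ^ (-((2 * (r : ℝ) + 1) / 4)) := by
  have hy : 0 < y := lt_of_lt_of_le (by positivity) hxy
  have hpos : 0 < (4 * θ * (A ^ (3 : ℕ))⁻¹) * x ^ (-((2 * (r : ℝ) + 1) / 4)) := by positivity
  rw [Real.sqrt_le_left hpos.le]
  have e1 : y ^ r * √y = y ^ ((r : ℝ) + 1 / 2) := by
    rw [Real.rpow_add hy, Real.rpow_natCast, Real.sqrt_eq_rpow]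
  have e2 : (x ^ (-((2 * (r : ℝ) + 1) / 4))) ^ 2 = (x ^ ((r : ℝ) + 1 / 2))⁻¹ := by
    rw [← Real.rpow_natCast, ← Real.rpow_mul hx.le, ← Real.rpow_neg hx.le]
    congr 1
    push_cast
    ring
  have e3 : A ^ (3 : ℕ) * x ^ ((r : ℝ) + 1 / 2) ≤ y ^ ((r : ℝ) + 1 / 2) := by
    have h1 : (A * x) ^ ((r : ℝ) + 1 / 2) ≤ y ^ ((r : ℝ) + 1 / 2) :=
      Real.rpow_le_rpow (by positivity) hxy (by positivity)
    rw [Real.mul_rpow hA.le hx.le] at h1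
    refine le_trans (mul_le_mul_of_nonneg_right ?_ (by positivity)) h1
    rw [← Real.rpow_natCast]
    refine Real.rpow_le_rpow_of_exponent_ge hA hA1 ?_
    have : (r : ℝ) ≤ 2 := by exact_mod_cast hr
    push_cast
    linarith
  have hX : 0 < x ^ ((r : ℝ) + 1 / 2) := Real.rpow_pos_of_pos hx _
  have hY : 0 < y ^ ((r : ℝ) + 1 / 2) := Real.rpow_pos_of_pos hy _
  rw [e1, mul_pow, e2]
  have e4 : θ ^ 2 * (12 / y ^ ((r : ℝ) + 1 / 2)) ≤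
      θ ^ 2 * (12 / (A ^ (3 : ℕ) * x ^ ((r : ℝ) + 1 / 2))) := by
    refine mul_le_mul_of_nonneg_left ?_ (sq_nonneg θ)
    exact div_le_div_of_nonneg_left (by norm_num) (by positivity) e3
  refine e4.trans ?_
  have hA3 : 0 < A ^ (3 : ℕ) := by positivity
  have hA3' : A ^ (3 : ℕ) ≤ 1 := pow_le_one₀ hA.le hA1
  have e5 : θ ^ 2 * (12 / (A ^ (3 : ℕ) * x ^ ((r : ℝ) + 1 / 2))) =
      (12 * θ ^ 2) * ((A ^ (3 : ℕ))⁻¹ * (x ^ ((r : ℝ) + 1 / 2))⁻¹) := by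
    rw [← mul_inv]; ring
  have e6 : (4 * θ * (A ^ (3 : ℕ))⁻¹) ^ 2 * (x ^ ((r : ℝ) + 1 / 2))⁻¹ =
      (16 * θ ^ 2 * (A ^ (3 : ℕ))⁻¹) * ((A ^ (3 : ℕ))⁻¹ * (x ^ ((r : ℝ) + 1 / 2))⁻¹) := by ring
  rw [e5, e6]
  refine mul_le_mul_of_nonneg_right ?_ (by positivity)
  have h1 : 1 ≤ (A ^ (3 : ℕ))⁻¹ := (one_le_inv₀ hA3).2 hA3'
  nlinarith [sq_nonneg θ]

/-- The algebraic part. -/
theorem bc_alg {B I : Al Bw} (hPB : Prob B) (hPI : Prob I) (k : ℕ) {e0 e1 e2 β : ℝ}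
    (h0 : 0 ≤ e1) (h0' : 0 ≤ e2) (he0 : e0 ≤ 1 / 2) (he1 : e1 ≤ 1 / 2) (he2 : e2 ≤ 1 / 2)
    (g0 : Small (B ^ k * (I - B) * B ^ k) (B ^ (2 * k + 1)) e0 β)
    (g1 : Small (B ^ k * Dc B (I - B) * B ^ k) (B ^ (2 * k + 2)) e1 β)
    (g2 : Small (B ^ k * Dc B (Dc B (I - B)) * B ^ k) (B ^ (2 * k + 3)) e2 β) :
    Small ((1 / 2 : ℝ) • (B ^ (k + 2) * I * B ^ k - B ^ k * I * B ^ (k + 2)))
      (B ^ (k + 1) * I * B ^ (k + 1)) (2 * e1) (2 * β) ∧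
    Small ((1 / 2 : ℝ) • (B ^ (k + 2) * I * B ^ k + B ^ k * I * B ^ (k + 2))
      - B ^ (k + 1) * I * B ^ (k + 1))
      (B ^ (k + 1) * I * B ^ (k + 1)) e2 (2 * β) := by
  have hW : B ^ (k + 1) = B * B ^ k := pow_succ' B k
  have hW2 : B ^ (k + 2) = B * (B * B ^ k) := by rw [pow_succ', pow_succ']
  have hR0 : B * B ^ (2 * k + 1) * B = B ^ (2 * k + 3) := by
    rw [← pow_succ', ← pow_succ]
  have hR1 : B * B ^ (2 * k + 2) = B ^ (2 * k + 3) := by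
    rw [← pow_succ']
  have hR1' : B ^ (2 * k + 2) * B = B ^ (2 * k + 3) := by
    rw [← pow_succ]
  have hR' : B ^ (2 * k + 3) = B ^ k * (B ^ k * (B * (B * B))) := by
    have h3 : B * (B * B) = B ^ 3 := by rw [pow_succ', pow_two]
    rw [h3, ← pow_add, ← pow_add]
    congr 1
    ring
  have hRn : Nn (B ^ (2 * k + 3)) := (hPB.pow _).1
  have hWn : Nn (B ^ (k + 1) * I * B ^ (k + 1)) := (((hPB.pow _).mul hPI).mul (hPB.pow _)).1
  have G0 := Small.mul_right hPB (Small.mul_left hPB g0)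
  have ga := Small.mul_left hPB g1
  have gb := Small.mul_right hPB g1
  rw [hR1] at ga
  rw [hR1'] at gb
  rw [hR0] at G0
  rw [hW2, hW]
  rw [hW] at hWn
  have hBQ : B * B ^ k = B ^ k * B := (Commute.self_pow B k)
  generalize B ^ k = Q at *
  generalize B ^ (2 * k + 3) = R at *
  have hBQ' : ∀ z, B * (Q * z) = Q * (B * z) := fun z => by
    rw [← mul_assoc, hBQ, mul_assoc]
  have hX0 : B * (Q * (I - B) * Q) * B = (B * Q) * I * (B * Q) - R := by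
    rw [hR']
    simp only [mul_sub, sub_mul, mul_assoc, hBQ, hBQ']
  rw [hX0] at G0
  obtain ⟨ω, hω, hωm, hωab⟩ := G0
  have hβ0 : 0 ≤ β := hω.mass_nonneg.trans hωm
  have href : Nn ((2 : ℝ) • ((B * Q) * I * (B * Q)) + (2 : ℝ) • ω - R) := by
    have h1 := (hωab.2.smul (show (0 : ℝ) ≤ 2 by norm_num)).add
      (hRn.smul (show 0 ≤ 1 - 2 * e0 by linarith))
    convert h1 using 1
    module
  have hπm : mass ((2 : ℝ) • ω) ≤ 2 * β := by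
    rw [map_smul, smul_eq_mul]; linarith
  have hπ : Nn ((2 : ℝ) • ω) := hω.smul (by norm_num)
  have hab : |(1 / 2 : ℝ)| = 1 / 2 := abs_of_pos (by norm_num)
  constructor
  · have gc := (ga.add gb).smul (1 / 2 : ℝ)
    have he : (1 / 2 : ℝ) • (B * (Q * Dc B (I - B) * Q) + Q * Dc B (I - B) * Q * B) =
        (1 / 2 : ℝ) • (B * (B * Q) * I * Q - Q * I * (B * (B * Q))) := by
      congr 1
      unfold Dc
      simp only [mul_sub, sub_mul, mul_assoc, hBQ, hBQ']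
      abel
    rw [he, hab] at gc
    have gd := gc.ref (by linarith) hπ hπm href
    refine gd.mono hWn (by linarith) ?_
    have h1 := mul_le_mul_of_nonneg_right he1 hβ0
    linarith
  · have gc := g2.smul (1 / 2 : ℝ)
    have he : (1 / 2 : ℝ) • (Q * Dc B (Dc B (I - B)) * Q) =
        (1 / 2 : ℝ) • (B * (B * Q) * I * Q + Q * I * (B * (B * Q))) - B * Q * I * (B * Q) := by
      unfold Dc
      simp only [mul_sub, sub_mul, mul_assoc, hBQ, hBQ']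
      module
    rw [he, hab] at gc
    have gd := gc.ref (by linarith) hπ hπm href
    refine gd.mono hWn (by linarith) ?_
    have h1 := mul_le_mul_of_nonneg_right he2 hβ0
    linarith

/-- The scalar part: tails. -/
theorem bc_tail {q C l x : ℝ} (hq : 0 < q) (hq1 : q < 1) (hC : 8 / q ^ 4 ≤ C) (hx0 : 0 ≤ x) :
    4 * (1 / q) * (2 * Real.exp (-(l ^ 2 / 2)) + Real.exp (-((q ^ 2) ^ 2 * (x - 1) / 8))) ≤
      8 * (1 / q) * (Real.exp (-(l ^ 2 / 2)) + Real.exp (-(x / C))) := by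
  have hq4 : q ^ 4 ≤ 1 := pow_le_one₀ hq.le hq1.le
  have hq40 : 0 < q ^ 4 := by positivity
  have hCp : 0 < C := lt_of_lt_of_le (by positivity) hC
  have h1 : Real.exp (-((q ^ 2) ^ 2 * (x - 1) / 8)) ≤ 2 * Real.exp (-(x / C)) := by
    have h3 : x / C ≤ q ^ 4 * x / 8 := by
      rw [div_le_div_iff₀ hCp (by norm_num)]
      have h4 : 8 ≤ q ^ 4 * C := by
        rw [div_le_iff₀ hq40] at hC
        linarith
      nlinarith
    have h7 : Real.exp (q ^ 4 / 8) ≤ 2 := by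
      have h8 : q ^ 4 / 8 ≤ 1 / 8 := by linarith
      refine (Real.exp_le_exp.2 h8).trans ?_
      have h9 := Real.log_two_gt_d9
      rw [← Real.le_log_iff_exp_le (by norm_num)]
      linarith
    have h10 : -((q ^ 2) ^ 2 * (x - 1) / 8) = q ^ 4 / 8 + -(q ^ 4 * x / 8) := by ring
    rw [h10, Real.exp_add]
    exact mul_le_mul h7 (Real.exp_le_exp.2 (by linarith)) (Real.exp_pos _).le (by norm_num)
  have h11 : 0 ≤ 4 * (1 / q) := by positivity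
  calc _ ≤ 4 * (1 / q) * (2 * Real.exp (-(l ^ 2 / 2)) + 2 * Real.exp (-(x / C))) :=
        mul_le_mul_of_nonneg_left (by linarith) h11
    _ = _ := by ring

/-- The scalar part: smallness. -/
theorem bc_small {C0 C l x s a : ℝ} (hC0 : 0 ≤ C0) (hC : 2 * C0 ≤ C) (hl : 0 ≤ l) (hx : 1 ≤ x)
    (hCl : C * l ≤ x ^ (1 / 4 : ℝ)) (ha : (1 / 4 : ℝ) ≤ a) (hs : s ≤ C0 * x ^ (-a)) :
    l * s ≤ 1 / 2 := by
  have hx0 : 0 < x := by linarith
  have hxx : x ^ (-a) ≤ x ^ (-(1 / 4) : ℝ) :=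
    Real.rpow_le_rpow_of_exponent_le hx (by linarith)
  have h1 : x ^ (1 / 4 : ℝ) * x ^ (-(1 / 4) : ℝ) = 1 := by
    rw [← Real.rpow_add hx0]; norm_num
  have hp : 0 ≤ x ^ (-(1 / 4) : ℝ) := by positivity
  have h2 : (C * l) * x ^ (-(1 / 4) : ℝ) ≤ 1 := by
    have := mul_le_mul_of_nonneg_right hCl hp
    rwa [h1] at this
  have h3 : 2 * C0 * (l * x ^ (-(1 / 4) : ℝ)) ≤ C * (l * x ^ (-(1 / 4) : ℝ)) :=
    mul_le_mul_of_nonneg_right hC (by positivity)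
  have h4 : l * s ≤ l * (C0 * x ^ (-(1 / 4) : ℝ)) :=
    mul_le_mul_of_nonneg_left (hs.trans (mul_le_mul_of_nonneg_left hxx hC0)) hl
  have h5 : l * (C0 * x ^ (-(1 / 4) : ℝ)) = C0 * (l * x ^ (-(1 / 4) : ℝ)) := by ring
  have h6 : C * (l * x ^ (-(1 / 4) : ℝ)) = (C * l) * x ^ (-(1 / 4) : ℝ) := by ring
  rw [h5] at h4
  rw [h6] at h3
  linarith

/-- The gains for the windows. -/
theorem bc_gain {q : ℝ} (hq : 0 < q) (hq1 : q < 1) :
    ∃ C0 : ℝ, 0 < C0 ∧ ∀ (k : ℕ) (l : ℝ), 0 ≤ l → ∃ s0 s1 s2 : ℝ, 0 ≤ s0 ∧ 0 ≤ s1 ∧ 0 ≤ s2 ∧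
      s0 ≤ C0 * ((k : ℝ) + 1) ^ (-(1 / 4) : ℝ) ∧ s1 ≤ C0 * ((k : ℝ) + 1) ^ (-(3 / 4) : ℝ) ∧
      s2 ≤ C0 * ((k : ℝ) + 1) ^ (-(5 / 4) : ℝ) ∧
      Small ((dl q blk) ^ k * (dl q mrk - dl q blk) * (dl q blk) ^ k)
        ((dl q blk) ^ (2 * k + 1)) (l * s0)
        (4 * (1 / q) * (2 * Real.exp (-(l ^ 2 / 2)) + Real.exp (-((q ^ 2) ^ 2 * (k : ℝ) / 8)))) ∧
      Small ((dl q blk) ^ k * Dc (dl q blk) (dl q mrk - dl q blk) * (dl q blk) ^ k)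
        ((dl q blk) ^ (2 * k + 2)) (l * s1)
        (4 * (1 / q) * (2 * Real.exp (-(l ^ 2 / 2)) + Real.exp (-((q ^ 2) ^ 2 * (k : ℝ) / 8)))) ∧
      Small ((dl q blk) ^ k * Dc (dl q blk) (Dc (dl q blk) (dl q mrk - dl q blk)) *
        (dl q blk) ^ k) ((dl q blk) ^ (2 * k + 3)) (l * s2)
        (4 * (1 / q) * (2 * Real.exp (-(l ^ 2 / 2)) +
          Real.exp (-((q ^ 2) ^ 2 * (k : ℝ) / 8)))) := by
  have hA0 : 0 < q ^ 4 / 4 := by positivity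
  have hq4 : q ^ 4 ≤ 1 := pow_le_one₀ hq.le hq1.le
  have hA1 : q ^ 4 / 4 ≤ 1 := by linarith
  have hθ0 : 0 < 1 / q := by positivity
  refine ⟨4 * (1 / q) * ((q ^ 4 / 4) ^ (3 : ℕ))⁻¹, by positivity, fun k l hl => ?_⟩
  have hM := bc_sigma_mono hq hq1
  have hH := bc_hid hq hq1
  have hPB : Prob (dl q blk) := dl_prob hq.le hq1.le blk
  have ha0' : ((⌊q ^ 4 * (k : ℝ) / 2⌋₊ : ℕ) : ℝ) ≤ q ^ 4 * (k : ℝ) / 2 :=
    Nat.floor_le (by positivity)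
  have ha0'' : q ^ 4 * (k : ℝ) / 2 < ((⌊q ^ 4 * (k : ℝ) / 2⌋₊ : ℕ) : ℝ) + 1 :=
    Nat.lt_floor_add_one _
  generalize (⌊q ^ 4 * (k : ℝ) / 2⌋₊ : ℕ) = a0 at *
  have hx0 : (0 : ℝ) < (k : ℝ) + 1 := by positivity
  have hAx : q ^ 4 / 4 * ((k : ℝ) + 1) ≤ (a0 : ℝ) + 1 := by
    have h0 : (0 : ℝ) ≤ a0 := Nat.cast_nonneg _
    linarith
  have ha : 2 * (a0 : ℝ) ≤ (q ^ 2) ^ 2 * (k : ℝ) := by
    have : (q ^ 2) ^ 2 = q ^ 4 := by ring
    rw [this]; linarith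
  have hq2 : 0 < q ^ 2 := by positivity
  have g0 := gain hPB hq2 hH k hθ0 hM (r := 0) (by norm_num) a0 ha hl
  have g1 := gain hPB hq2 hH k hθ0 hM (r := 1) (by norm_num) a0 ha hl
  have g2 := gain hPB hq2 hH k hθ0 hM (r := 2) (by norm_num) a0 ha hl
  have e0 : (-((2 * ((0 : ℕ) : ℝ) + 1) / 4)) = (-(1 / 4) : ℝ) := by norm_num
  have e1 : (-((2 * ((1 : ℕ) : ℝ) + 1) / 4)) = (-(3 / 4) : ℝ) := by norm_num
  have e2 : (-((2 * ((2 : ℕ) : ℝ) + 1) / 4)) = (-(5 / 4) : ℝ) := by norm_num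
  have r0 := bc_rate hθ0 hA0 hA1 (r := 0) (by norm_num) hx0 hAx
  have r1 := bc_rate hθ0 hA0 hA1 (r := 1) (by norm_num) hx0 hAx
  have r2 := bc_rate hθ0 hA0 hA1 (r := 2) (by norm_num) hx0 hAx
  rw [e0] at r0
  rw [e1] at r1
  rw [e2] at r2
  have hk0 : k * (0 + 1) = k := by ring
  rw [hk0] at g0 g1 g2
  exact ⟨_, _, _, Real.sqrt_nonneg _, Real.sqrt_nonneg _, Real.sqrt_nonneg _, r0, r1, r2,
    g0, g1, g2⟩

theorem base_close {q : ℝ} (hq : 0 < q) (hq1 : q < 1) :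
    ∃ C : ℝ, 1 ≤ C ∧ ∀ (h : ℕ) (l : ℝ), 1 ≤ h → 1 ≤ l → C * l ≤ (h : ℝ) ^ (1 / 4 : ℝ) →
      Small ((1 / 2 : ℝ) • (dl q (win (h + 1) (h - 1)) - dl q (win (h - 1) (h + 1))))
        (dl q (win h h)) (C * l * (h : ℝ) ^ (-(3 / 4) : ℝ))
        (C * (Real.exp (-(l ^ 2 / 2)) + Real.exp (-(h / C)))) ∧
      Small ((1 / 2 : ℝ) • (dl q (win (h + 1) (h - 1)) + dl q (win (h - 1) (h + 1)))
          - dl q (win h h))
        (dl q (win h h)) (C * l * (h : ℝ) ^ (-(5 / 4) : ℝ))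
        (C * (Real.exp (-(l ^ 2 / 2)) + Real.exp (-(h / C)))) := by
  obtain ⟨C0, hC00, hgain⟩ := bc_gain hq hq1
  have hθ0 : 0 < 1 / q := by positivity
  have hq4' : 0 < 8 / q ^ 4 := by positivity
  refine ⟨1 + 2 * C0 + 16 * (1 / q) + 8 / q ^ 4, by linarith, fun h l hh hl hCl => ?_⟩
  have hC1 : 1 ≤ 1 + 2 * C0 + 16 * (1 / q) + 8 / q ^ 4 := by linarith
  have hC2 : 2 * C0 ≤ 1 + 2 * C0 + 16 * (1 / q) + 8 / q ^ 4 := by linarith
  have hC3 : 16 * (1 / q) ≤ 1 + 2 * C0 + 16 * (1 / q) + 8 / q ^ 4 := by linarith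
  have hC4 : 8 / q ^ 4 ≤ 1 + 2 * C0 + 16 * (1 / q) + 8 / q ^ 4 := by linarith
  generalize 1 + 2 * C0 + 16 * (1 / q) + 8 / q ^ 4 = C at *
  obtain ⟨k, rfl⟩ : ∃ k, h = k + 1 := ⟨h - 1, by omega⟩
  have hl0 : 0 ≤ l := by linarith
  obtain ⟨s0, s1, s2, h0, h1, h2, r0, r1, r2, g0, g1, g2⟩ := hgain k l hl0
  have hx1 : (1 : ℝ) ≤ (k : ℝ) + 1 := by
    have : (0 : ℝ) ≤ k := Nat.cast_nonneg k
    linarith
  have hcast : ((k + 1 : ℕ) : ℝ) = (k : ℝ) + 1 := by push_cast; ring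
  rw [hcast] at hCl ⊢
  have hl0' : l * s0 ≤ 1 / 2 := bc_small hC00.le hC2 hl0 hx1 hCl le_rfl r0
  have hl1' : l * s1 ≤ 1 / 2 := bc_small hC00.le hC2 hl0 hx1 hCl (by norm_num) r1
  have hl2' : l * s2 ≤ 1 / 2 := bc_small hC00.le hC2 hl0 hx1 hCl (by norm_num) r2
  have htail := bc_tail (l := l) hq hq1 hC4 (show (0 : ℝ) ≤ (k : ℝ) + 1 by linarith)
  rw [add_sub_cancel_right] at htail
  obtain ⟨k1, k2⟩ := bc_alg (dl_prob hq.le hq1.le blk) (dl_prob hq.le hq1.le mrk) k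
    (mul_nonneg hl0 h1) (mul_nonneg hl0 h2) hl0' hl1' hl2' g0 g1 g2
  generalize 4 * (1 / q) * (2 * Real.exp (-(l ^ 2 / 2)) +
    Real.exp (-((q ^ 2) ^ 2 * (k : ℝ) / 8))) = β at *
  have hρ0 : 0 < Real.exp (-(l ^ 2 / 2)) + Real.exp (-(((k : ℝ) + 1) / C)) := by positivity
  generalize Real.exp (-(l ^ 2 / 2)) + Real.exp (-(((k : ℝ) + 1) / C)) = ρ at *
  have hβC : 2 * β ≤ C * ρ := by
    have h5 := mul_le_mul_of_nonneg_right hC3 hρ0.le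
    linarith
  have hWn : Nn (dl q (win (k + 1) (k + 1))) := (dl_prob hq.le hq1.le _).1
  rw [← bc_dl_win, ← bc_dl_win, ← bc_dl_win] at k1 k2
  rw [Nat.add_sub_cancel]
  refine ⟨k1.mono hWn ?_ hβC, k2.mono hWn ?_ hβC⟩
  · have h5 : l * s1 ≤ l * (C0 * ((k : ℝ) + 1) ^ (-(3 / 4) : ℝ)) :=
      mul_le_mul_of_nonneg_left r1 hl0
    have h6 : 0 ≤ l * ((k : ℝ) + 1) ^ (-(3 / 4) : ℝ) := by positivity
    have h7 := mul_le_mul_of_nonneg_right hC2 h6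
    calc 2 * (l * s1) ≤ 2 * (l * (C0 * ((k : ℝ) + 1) ^ (-(3 / 4) : ℝ))) := by linarith
      _ = 2 * C0 * (l * ((k : ℝ) + 1) ^ (-(3 / 4) : ℝ)) := by ring
      _ ≤ C * (l * ((k : ℝ) + 1) ^ (-(3 / 4) : ℝ)) := h7
      _ = _ := by ring
  · have h5 : l * s2 ≤ l * (C0 * ((k : ℝ) + 1) ^ (-(5 / 4) : ℝ)) :=
      mul_le_mul_of_nonneg_left r2 hl0
    have h6 : 0 ≤ l * ((k : ℝ) + 1) ^ (-(5 / 4) : ℝ) := by positivity
    have h7 := mul_le_mul_of_nonneg_right (show C0 ≤ C by linarith) h6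
    calc l * s2 ≤ l * (C0 * ((k : ℝ) + 1) ^ (-(5 / 4) : ℝ)) := h5
      _ = C0 * (l * ((k : ℝ) + 1) ^ (-(5 / 4) : ℝ)) := by ring
      _ ≤ C * (l * ((k : ℝ) + 1) ^ (-(5 / 4) : ℝ)) := h7
      _ = _ := by ring

end Vale.Agent.P321.SP
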