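import Vale.Agent.Lib.P321.SP.Law
import Vale.Agent.Lib.P321.SP.B1Defs
import Vale.Agent.Lib.P321.SP.B1g

/-!
P321, superpolynomial lower bound: hiding of the marked window at the level of words. The law of
the trace of the window is the image of the measure on words of pieces.
-/

namespace Vale.Agent.P321.SP

open Finset

namespace BaseHid

/-- The law of a letter: `true` is the piece `1`, `false` is a piece `0` or `01`. -/
noncomputable def let1 (q : ℝ) (b : Bool) : Al Bw :=
  if b then MonoidAlgebra.single (FreeMonoid.of true) 1 else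
    q • MonoidAlgebra.single (FreeMonoid.of false) 1 +
      (1 - q) • MonoidAlgebra.single (FreeMonoid.of false * FreeMonoid.of true) 1

theorem let1_prob {q : ℝ} (h0 : 0 ≤ q) (h1 : q ≤ 1) (b : Bool) : Prob (let1 q b) := by
  cases b with
  | true => exact Prob.single _
  | false =>
    refine ⟨?_, ?_⟩
    · unfold let1
      rw [if_neg (by decide)]
      exact ((Nn.single _ zero_le_one).smul h0).add
        ((Nn.single _ zero_le_one).smul (by linarith))
    · unfold let1
      rw [if_neg (by decide), map_add, map_smul, map_smul, mass_single, mass_single]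
      simp

/-- The monoid homomorphism of words of pieces. -/
noncomputable def let2 (q : ℝ) : Wd →* Al Bw := FreeMonoid.lift (let1 q)

theorem let2_prob {q : ℝ} (h0 : 0 ≤ q) (h1 : q ≤ 1) (x : Wd) : Prob (let2 q x) := by
  induction x using FreeMonoid.recOn with
  | one => rw [map_one]; exact Prob.one
  | of_mul b x ih =>
    rw [map_mul]
    refine Prob.mul ?_ ih
    rw [let2, FreeMonoid.lift_eval_of]; exact let1_prob h0 h1 b

/-- The map from measures on words of pieces to measures on binary words. -/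
noncomputable def Phi (q : ℝ) : Al Wd →ₐ[ℝ] Al Bw := MonoidAlgebra.lift ℝ (Al Bw) Wd (let2 q)

theorem Phi_single (q : ℝ) (x : Wd) (a : ℝ) :
    Phi q (MonoidAlgebra.single x a) = a • let2 q x := by
  unfold Phi
  rw [MonoidAlgebra.lift_single]

theorem Phi_nn {q : ℝ} (h0 : 0 ≤ q) (h1 : q ≤ 1) {x : Al Wd} (hx : Nn x) : Nn (Phi q x) := by
  unfold Phi
  rw [MonoidAlgebra.lift_apply]
  exact Nn.sum _ fun i _ => (let2_prob h0 h1 i).1.smul (hx i)

theorem Phi_mass {q : ℝ} (h0 : 0 ≤ q) (h1 : q ≤ 1) (x : Al Wd) : mass (Phi q x) = mass x := by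
  unfold Phi
  rw [MonoidAlgebra.lift_apply, Finsupp.sum, map_sum, mass_eq]
  refine Finset.sum_congr rfl fun g _ => ?_
  rw [map_smul, (let2_prob h0 h1 g).2, smul_eq_mul, mul_one]

theorem Phi_II (q : ℝ) : Phi q (II q) = dl q mrk := by
  unfold II tt mrk
  rw [map_add, map_smul, map_smul, map_one, Phi_single, one_smul, dl, FreeMonoid.lift_eval_of,
    let2, FreeMonoid.lift_eval_of]
  rfl

theorem Phi_block {q : ℝ} (h0 : 0 < q) :
    Phi q ((q ^ 2) • (1 : Al Wd) + (1 - q ^ 2) • bb (bet q)) = dl q blk := by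
  have h2 : (1 + q) ≠ 0 := by positivity
  have e1 : (1 - q ^ 2) * bet q = (1 - q) * q := by
    unfold bet; field_simp; ring
  have e2 : (1 - q ^ 2) * (1 - bet q) = 1 - q := by
    unfold bet; field_simp; ring
  unfold bb tt ff blk
  rw [map_add, map_smul, map_smul, map_one, map_add, map_smul, map_smul, Phi_single, Phi_single,
    one_smul, one_smul, map_mul, dl, FreeMonoid.lift_eval_of, FreeMonoid.lift_eval_of,
    let2, FreeMonoid.lift_eval_of, FreeMonoid.lift_eval_of, smul_add, smul_smul, smul_smul, e1, e2]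
  have e3 : let1 q true = MonoidAlgebra.single (FreeMonoid.of true) 1 := rfl
  have e4 : let1 q false = q • MonoidAlgebra.single (FreeMonoid.of false) 1 +
      (1 - q) • MonoidAlgebra.single (FreeMonoid.of false * FreeMonoid.of true) 1 := rfl
  have e5 : (MonoidAlgebra.single (FreeMonoid.of false * FreeMonoid.of true) 1 : Al Bw) =
      MonoidAlgebra.single (FreeMonoid.of false) 1 *
        MonoidAlgebra.single (FreeMonoid.of true) 1 := by
    rw [MonoidAlgebra.single_mul_single, one_mul]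
  rw [e3, e4, e5]
  unfold bit
  simp only [add_mul, mul_add, smul_mul_assoc, mul_smul_comm, one_mul, mul_one, smul_add,
    smul_smul]
  module

theorem Phi_FF {q : ℝ} (h0 : 0 < q) (h m : ℕ) :
    Phi q (FF q h m) = dl q blk ^ (2 * h) * (dl q mrk * dl q blk ^ (2 * h)) ^ m := by
  unfold FF AA
  rw [map_mul, map_pow, map_pow, map_mul, map_pow, Phi_block h0, Phi_II]

theorem win_pow (q : ℝ) (h m : ℕ) : dl q (win h h) ^ (m + 2) =
    dl q blk ^ h * dl q mrk * (dl q blk ^ (2 * h) * (dl q mrk * dl q blk ^ (2 * h)) ^ m) *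
      (dl q mrk * dl q blk ^ h) := by
  have hw : dl q (win h h) = dl q blk ^ h * dl q mrk * dl q blk ^ h := by
    unfold win
    rw [map_mul, map_mul, map_pow]
  rw [hw]
  set B := dl q blk
  set I := dl q mrk
  have h2 : B ^ (2 * h) = B ^ h * B ^ h := by rw [two_mul, pow_add]
  rw [h2]
  have key : ∀ m : ℕ, (B ^ h * I * B ^ h) ^ (m + 1) =
      B ^ h * (I * (B ^ h * B ^ h)) ^ m * I * B ^ h := by
    intro m
    induction m with
    | zero => simp
    | succ m ih =>
      rw [pow_succ, ih, pow_succ (I * (B ^ h * B ^ h)) m]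
      simp only [mul_assoc]
  have h3 : (B ^ h * I * B ^ h) ^ (m + 2) = (B ^ h * I * B ^ h) ^ ((m + 1) + 1) := rfl
  rw [h3, key (m + 1), pow_succ' (I * (B ^ h * B ^ h)) m]
  simp only [mul_assoc]

end BaseHid

open BaseHid

theorem base_hid {q : ℝ} (hq : 0 < q) (hq1 : q < 1) :
    ∃ C0 : ℕ, ∃ c : ℝ, 0 < c ∧ ∀ h : ℕ, 1 ≤ h → ∃ m ≤ C0 * h, Hid (dl q (win h h)) m c := by
  obtain ⟨C1, c, hc, hov⟩ := overlap_FF hq hq1
  refine ⟨C1 + 2, c, hc, fun h hh => ?_⟩
  obtain ⟨m, hm, ν, hν, hν1, hν2, hνc⟩ := hov h hh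
  refine ⟨m + 2, by nlinarith, ?_⟩
  have hB : Prob (dl q blk ^ h) := (dl_prob hq.le hq1.le blk).pow h
  have hI : Prob (dl q mrk) := dl_prob hq.le hq1.le mrk
  have hnn : ∀ x : Al Wd, Nn x →
      Nn (dl q blk ^ h * dl q mrk * Phi q x * (dl q mrk * dl q blk ^ h)) := fun x hx =>
    ((hB.1.mul hI.1).mul (Phi_nn hq.le hq1.le hx)).mul (hI.1.mul hB.1)
  refine Hid.of_ge (ν := dl q blk ^ h * dl q mrk * Phi q ν * (dl q mrk * dl q blk ^ h)) hc
    (hnn ν hν) ?_ ?_ ?_
  · have h1 := hnn _ hν1
    rw [map_sub, mul_sub, sub_mul, Phi_FF hq, ← win_pow] at h1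
    exact h1
  · have h1 := hnn _ hν2
    rw [map_sub, mul_sub, sub_mul, Phi_FF hq, ← win_pow] at h1
    exact h1
  · rw [map_mul, map_mul, map_mul, map_mul, hB.2, hI.2, Phi_mass hq.le hq1.le]
    simpa using hνc

end Vale.Agent.P321.SP
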