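import Vale.Agent.Lib.P321.SP.Good
import Vale.Agent.Lib.P321.SP.BaseClose
import Vale.Agent.Lib.P321.SP.BaseHid

/-!
P321, superpolynomial lower bound: the base case of the iteration.
-/

namespace Vale.Agent.P321.SP

open Finset Filter

theorem win_ne {a b c d : ℕ} (h : c < a) : win a b ≠ win c d := by
  intro he
  have h1 : blk ^ (a - c) * mrk * blk ^ b = mrk * blk ^ d := by
    have e1 : blk ^ a = blk ^ c * blk ^ (a - c) := by rw [← pow_add]; congr 1; omega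
    unfold win at he
    rw [e1, mul_assoc, mul_assoc, mul_assoc, mul_left_cancel_iff] at he
    rw [mul_assoc]; exact he
  obtain ⟨k, hk⟩ : ∃ k, a - c = k + 1 := ⟨a - c - 1, by omega⟩
  rw [hk, pow_succ'] at h1
  have h2 := congrArg FreeMonoid.toList h1
  simp [blk, mrk, mul_assoc, FreeMonoid.toList_mul, FreeMonoid.toList_of] at h2

/-- The scale estimates for the base case. -/
theorem base_scale {C δ B : ℝ} (hC : 1 ≤ C) (hδ : 0 < δ) (hδ1 : δ ≤ 1 / 10) :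
    ∀ᶠ N : ℝ in atTop, ∃ (h : ℕ) (l : ℝ), 1 ≤ h ∧ 1 ≤ l ∧ C * l ≤ (h : ℝ) ^ (1 / 4 : ℝ) ∧
      4 * (h : ℝ) + 1 ≤ N ∧ C * l * (h : ℝ) ^ (-(3 / 4) : ℝ) ≤ N ^ (-(3 / 4 - δ)) ∧
      C * l * (h : ℝ) ^ (-(5 / 4) : ℝ) ≤ N ^ (-(5 / 4 - δ)) ∧
      C * (Real.exp (-(l ^ 2 / 2)) + Real.exp (-(h / C))) ≤ N ^ (-B) := by
  have hC0 : 0 < C := by linarith
  have t1 : ∀ᶠ N : ℝ in atTop, (C * (8 : ℝ) ^ (1 / 4 : ℝ)) * N ^ (δ / 2) ≤ N ^ (1 / 4 : ℝ) :=
    ((BO.rpow (δ / 2)).const_mul _).lt_rpow (by linarith)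
  have t2 : ∀ᶠ N : ℝ in atTop, (C * (8 : ℝ) ^ (3 / 4 : ℝ)) * N ^ (δ / 2 - 3 / 4)
      ≤ N ^ (-(3 / 4 - δ)) :=
    ((BO.rpow (δ / 2 - 3 / 4)).const_mul _).lt_rpow (by linarith)
  have t3 : ∀ᶠ N : ℝ in atTop, (C * (8 : ℝ) ^ (5 / 4 : ℝ)) * N ^ (δ / 2 - 5 / 4)
      ≤ N ^ (-(5 / 4 - δ)) :=
    ((BO.rpow (δ / 2 - 5 / 4)).const_mul _).lt_rpow (by linarith)
  have t4 : ∀ᶠ N : ℝ in atTop, C * (Real.exp (-(1 / 2 * N ^ δ)) +
      Real.exp (-(1 / (8 * C) * N ^ (1 : ℝ)))) ≤ N ^ (-B) :=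
    (((BO.exp_neg (by norm_num) hδ (-B - 1)).add
      (BO.exp_neg (by positivity) one_pos (-B - 1))).const_mul C).lt_rpow (by linarith)
  filter_upwards [t1, t2, t3, t4, eventually_ge_atTop (16 : ℝ)] with N a1 a2 a3 a4 hN
  have hN0 : 0 < N := by linarith
  set h : ℕ := ⌊(N - 1) / 4⌋₊ with hh
  have h1 : (h : ℝ) ≤ (N - 1) / 4 := Nat.floor_le (by linarith)
  have h2 : (N - 1) / 4 < h + 1 := Nat.lt_floor_add_one _
  have h3 : N / 8 ≤ h := by linarith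
  have h4 : (0 : ℝ) < h := by linarith
  have h5 : 1 ≤ h := by
    rw [Nat.one_le_iff_ne_zero]
    rintro h0
    rw [h0] at h4
    norm_num at h4
  have h80 : 0 < N / 8 := by positivity
  have hneg : ∀ s : ℝ, 0 ≤ s → C * N ^ (δ / 2) * (h : ℝ) ^ (-s) ≤
      (C * (8 : ℝ) ^ s) * N ^ (δ / 2 - s) := by
    intro s hs
    have e1 : (h : ℝ) ^ (-s) ≤ (N / 8) ^ (-s) := by
      rw [Real.rpow_neg h4.le, Real.rpow_neg h80.le]
      exact inv_anti₀ (Real.rpow_pos_of_pos h80 _) (Real.rpow_le_rpow h80.le h3 hs)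
    have e2 : (N / 8) ^ (-s) = N ^ (-s) * (8 : ℝ) ^ s := by
      rw [Real.div_rpow hN0.le (by norm_num), Real.rpow_neg (by norm_num : (0 : ℝ) ≤ 8)]
      have : (0 : ℝ) < 8 ^ s := Real.rpow_pos_of_pos (by norm_num) _
      field_simp
    rw [e2] at e1
    calc C * N ^ (δ / 2) * (h : ℝ) ^ (-s) ≤ C * N ^ (δ / 2) * (N ^ (-s) * (8 : ℝ) ^ s) :=
          mul_le_mul_of_nonneg_left e1 (by positivity)
      _ = (C * (8 : ℝ) ^ s) * (N ^ (δ / 2) * N ^ (-s)) := by ring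
      _ = _ := by rw [← Real.rpow_add hN0]; rfl
  refine ⟨h, N ^ (δ / 2), h5, Real.one_le_rpow (by linarith) (by linarith), ?_, by linarith,
    (hneg (3 / 4) (by norm_num)).trans a2, (hneg (5 / 4) (by norm_num)).trans a3, ?_⟩
  · have e1 : (N / 8) ^ (1 / 4 : ℝ) ≤ (h : ℝ) ^ (1 / 4 : ℝ) :=
      Real.rpow_le_rpow h80.le h3 (by norm_num)
    refine le_trans ?_ e1
    rw [Real.div_rpow hN0.le (by norm_num), le_div_iff₀ (Real.rpow_pos_of_pos (by norm_num) _)]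
    linarith
  · refine le_trans (mul_le_mul_of_nonneg_left (add_le_add ?_ ?_) hC0.le) a4
    · apply Real.exp_le_exp.2
      have : (N ^ (δ / 2)) ^ 2 = N ^ δ := by
        rw [← Real.rpow_natCast, ← Real.rpow_mul hN0.le]
        congr 1; push_cast; ring
      rw [this]; linarith
    · apply Real.exp_le_exp.2
      rw [Real.rpow_one]
      have : 1 / (8 * C) * N = N / 8 / C := by field_simp
      rw [this]
      have := div_le_div_of_nonneg_right h3 hC0.le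
      linarith

theorem Good.base {q : ℝ} (hq : 0 < q) (hq1 : q < 1) : Good q (51 / 50) := by
  refine SP.step hq hq1 (a := 3 / 4 - 1 / 1000) (e := 5 / 4 - 1 / 1000) (ξ := 5 / 4 - 1 / 1000)
    (b := 1 / 50) (by norm_num) le_rfl (by norm_num) (by norm_num) (by norm_num) (by norm_num)
    (by norm_num) (by norm_num) ?_
  intro B
  obtain ⟨C, hC, hclose⟩ := base_close hq hq1
  obtain ⟨C0, c, hc, hhid⟩ := base_hid hq hq1
  refine ⟨max C0 1, c, le_max_right _ _, hc, ?_⟩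
  filter_upwards [base_scale (B := B) hC (show (0 : ℝ) < 1 / 1000 by norm_num) (by norm_num),
    eventually_ge_atTop (1 : ℝ)] with N ⟨h, l, h1, hl, hl2, h4, hb1, hb2, hb3⟩ hN
  obtain ⟨m, hm, hh⟩ := hhid h h1
  obtain ⟨s1, s2⟩ := hclose h l h1 hl hl2
  have hP := (dl_prob hq.le hq1.le (win h h)).1
  refine ⟨win h h, win (h + 1) (h - 1), win (h - 1) (h + 1), ?_, ?_, ?_, win_ne (by omega),
    ⟨m, ?_, hh⟩, s1.mono hP hb1 hb3, s2.mono hP hb2 hb3⟩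
  · rw [win_length, win_length]; omega
  · rw [win_length, win_length]; omega
  · rw [win_length]; push_cast; linarith
  · have e1 : (m : ℝ) ≤ C0 * h := by exact_mod_cast hm
    have e2 : (C0 : ℝ) * h ≤ max (C0 : ℝ) 1 * N := by
      apply mul_le_mul (le_max_left _ _) _ (Nat.cast_nonneg _) (by positivity)
      have : (0 : ℝ) ≤ h := Nat.cast_nonneg h
      linarith
    exact e1.trans e2

end Vale.Agent.P321.SP
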