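import Vale.Agent.Lib.P321.SP.RL
import Vale.Agent.Lib.P321.Binom

/-!
P321, superpolynomial lower bound: coefficients of differences of binomial laws.
-/

namespace Vale.Agent.P321.SP

open Finset

/-- Coefficients of `(1 - z)^r ((1 + z) / 2)^a`. -/
noncomputable def cf : ℕ → ℕ → ℕ → ℝ
  | 0, a, i => (a.choose i : ℝ) / 2 ^ a
  | r + 1, a, 0 => cf r a 0
  | r + 1, a, i + 1 => cf r a (i + 1) - cf r a i

theorem cf_big (r a i : ℕ) (h : a + r < i) : cf r a i = 0 := by
  induction r generalizing i with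
  | zero => simp only [cf]; rw [Nat.choose_eq_zero_of_lt (by omega)]; simp
  | succ r ih =>
    cases i with
    | zero => omega
    | succ i => simp only [cf]; rw [ih _ (by omega), ih _ (by omega)]; simp

theorem cf_succ_zero (r a : ℕ) : cf r (a + 1) 0 = cf r a 0 / 2 := by
  induction r with
  | zero => simp only [cf]; rw [Nat.choose_zero_right, Nat.choose_zero_right, pow_succ]; field_simp
  | succ r ih => simpa only [cf] using ih

theorem cf_succ_succ (r a i : ℕ) : cf r (a + 1) (i + 1) = (cf r a (i + 1) + cf r a i) / 2 := by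
  induction r generalizing i with
  | zero =>
    simp only [cf]; rw [Nat.choose_succ_succ, pow_succ]; push_cast; field_simp; ring
  | succ r ih =>
    cases i with
    | zero => simp only [cf]; rw [ih, cf_succ_zero]; ring
    | succ i => simp only [cf]; rw [ih, ih]; ring

/-- Sum of squares of the coefficients. -/
noncomputable def qq (r a : ℕ) : ℝ := ∑ i ∈ range (a + r + 1), cf r a i ^ 2

theorem qq_nonneg (r a : ℕ) : 0 ≤ qq r a := Finset.sum_nonneg fun _ _ => sq_nonneg _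

theorem qq_eq (r a N : ℕ) (h : a + r + 1 ≤ N) : ∑ i ∈ range N, cf r a i ^ 2 = qq r a := by
  unfold qq
  symm
  apply Finset.sum_subset (Finset.range_subset_range.mpr h)
  intro i _ hi
  rw [cf_big r a i (by simp at hi; omega)]; simp

theorem qq_rel (r a : ℕ) : 4 * qq r (a + 1) + qq (r + 1) a = 4 * qq r a := by
  rw [← qq_eq r (a + 1) (a + r + 2 + 1) (by omega), ← qq_eq (r + 1) a (a + r + 2 + 1) (by omega),
    Finset.sum_range_succ' (fun i => cf r (a + 1) i ^ 2),
    Finset.sum_range_succ' (fun i => cf (r + 1) a i ^ 2)]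
  have h1 : qq r a = ∑ i ∈ range (a + r + 2), cf r a (i + 1) ^ 2 + cf r a 0 ^ 2 := by
    rw [← qq_eq r a (a + r + 2 + 1) (by omega), Finset.sum_range_succ']
  have h2 : qq r a = ∑ i ∈ range (a + r + 2), cf r a i ^ 2 := by
    rw [← qq_eq r a (a + r + 2) (by omega)]
  have h3 : ∑ i ∈ range (a + r + 2), cf r (a + 1) (i + 1) ^ 2 * 4
      + ∑ i ∈ range (a + r + 2), cf (r + 1) a (i + 1) ^ 2
      = ∑ i ∈ range (a + r + 2), cf r a (i + 1) ^ 2 * 2 + ∑ i ∈ range (a + r + 2), cf r a i ^ 2 * 2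
      := by
    rw [← Finset.sum_add_distrib, ← Finset.sum_add_distrib]
    refine Finset.sum_congr rfl fun i _ => ?_
    rw [cf_succ_succ]; simp only [cf]; ring
  rw [← Finset.sum_mul, ← Finset.sum_mul, ← Finset.sum_mul] at h3
  have h4 : cf (r + 1) a 0 = cf r a 0 := rfl
  rw [h4, cf_succ_zero]
  linarith

theorem qq_zero (a : ℕ) : qq 0 a = ((2 * a).choose a : ℝ) / 4 ^ a := by
  unfold qq
  simp only [cf, add_zero, div_pow]
  rw [← Finset.sum_div, sum_choose_sq, ← pow_mul, mul_comm a 2, pow_mul]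
  norm_num

theorem qq_zero_le (a : ℕ) : qq 0 a ≤ 1 / √((a : ℝ) + 1) := by
  rw [qq_zero]
  refine (cb_le a).trans ?_
  apply one_div_le_one_div_of_le (by positivity)
  apply Real.sqrt_le_sqrt
  have : (0 : ℝ) ≤ a := Nat.cast_nonneg a
  linarith

theorem qq_zero_succ (a : ℕ) : qq 0 (a + 1) * (2 * (a + 1)) = qq 0 a * (2 * a + 1) := by
  rw [qq_zero, qq_zero]
  have h := Nat.succ_mul_centralBinom_succ a
  unfold Nat.centralBinom at h
  have h' : ((a : ℝ) + 1) * ((2 * (a + 1)).choose (a + 1) : ℝ)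
      = 2 * (2 * a + 1) * ((2 * a).choose a : ℝ) := by exact_mod_cast h
  rw [pow_succ]
  field_simp
  linarith

theorem qq_one (a : ℕ) : qq 1 a * (a + 1) = 2 * qq 0 a := by
  have h1 := qq_rel 0 a
  have h2 := qq_zero_succ a
  have h3 : qq (0 + 1) a = 4 * qq 0 a - 4 * qq 0 (a + 1) := by linarith
  rw [zero_add] at h3
  rw [h3]; linarith

theorem qq_two (a : ℕ) : qq 2 a * ((a + 1) * (a + 2)) = 12 * qq 0 a := by
  have h1 := qq_rel 1 a
  have h2 := qq_one a
  have h3 := qq_one (a + 1)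
  have h4 := qq_zero_succ a
  push_cast at h3
  have h5 : qq (1 + 1) a = 4 * qq 1 a - 4 * qq 1 (a + 1) := by linarith
  norm_num at h5
  rw [h5]
  have e : (4 * qq 1 a - 4 * qq 1 (a + 1)) * (((a : ℝ) + 1) * (a + 2))
      = 4 * (qq 1 a * (a + 1)) * (a + 2) - 4 * (qq 1 (a + 1) * (a + 1 + 1)) * (a + 1) := by ring
  rw [e, h2, h3]
  linarith

theorem qq_le {r : ℕ} (hr : r ≤ 2) (a : ℕ) : qq r a ≤ 12 / (((a : ℝ) + 1) ^ r * √((a : ℝ) + 1)) := by
  have h0 := qq_zero_le a
  have ha : (0 : ℝ) < (a : ℝ) + 1 := by positivity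
  have hs : 0 < √((a : ℝ) + 1) := Real.sqrt_pos.mpr ha
  rw [le_div_iff₀ hs] at h0
  rw [le_div_iff₀ (by positivity)]
  interval_cases r
  · nlinarith [qq_nonneg 0 a]
  · have := qq_one a
    have e : qq 1 a * (((a : ℝ) + 1) ^ 1 * √((a : ℝ) + 1))
        = (qq 1 a * ((a : ℝ) + 1)) * √((a : ℝ) + 1) := by ring
    rw [e, this]; linarith
  · have := qq_two a
    have h2 : qq 2 a * (((a : ℝ) + 1) * (a + 1)) ≤ qq 2 a * (((a : ℝ) + 1) * (a + 2)) := by
      apply mul_le_mul_of_nonneg_left _ (qq_nonneg 2 a)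
      nlinarith
    have e : qq 2 a * (((a : ℝ) + 1) ^ 2 * √((a : ℝ) + 1))
        = (qq 2 a * (((a : ℝ) + 1) * (a + 1))) * √((a : ℝ) + 1) := by ring
    rw [e]
    calc _ ≤ (qq 2 a * (((a : ℝ) + 1) * (a + 2))) * √((a : ℝ) + 1) :=
          mul_le_mul_of_nonneg_right h2 hs.le
      _ = 12 * (qq 0 a * √((a : ℝ) + 1)) := by rw [this]; ring
      _ ≤ 12 := by linarith

theorem qq_anti (r : ℕ) {a b : ℕ} (h : a ≤ b) : qq r b ≤ qq r a := by
  induction b, h using Nat.le_induction with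
  | base => exact le_rfl
  | succ b _ ih =>
    have := qq_rel r b
    have := qq_nonneg (r + 1) b
    linarith

theorem cf_abs_sum (r a N : ℕ) : ∑ i ∈ range N, |cf r a i| ≤ 2 ^ r := by
  induction r generalizing N with
  | zero =>
    have h1 : ∑ i ∈ range N, |cf 0 a i| ≤ ∑ i ∈ range (max N (a + 1)), |cf 0 a i| :=
      Finset.sum_le_sum_of_subset_of_nonneg (Finset.range_subset_range.mpr (le_max_left _ _))
        fun i _ _ => abs_nonneg _
    refine h1.trans (le_of_eq ?_)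
    have h2 : ∑ i ∈ range (max N (a + 1)), |cf 0 a i| = ∑ i ∈ range (a + 1), |cf 0 a i| := by
      symm
      apply Finset.sum_subset (Finset.range_subset_range.mpr (le_max_right _ _))
      intro i _ hi
      rw [cf_big 0 a i (by simp at hi; omega)]; simp
    rw [h2]
    have h3 : ∀ i ∈ range (a + 1), |cf 0 a i| = (a.choose i : ℝ) / 2 ^ a := fun i _ => by
      simp only [cf]; rw [abs_of_nonneg (by positivity)]
    rw [Finset.sum_congr rfl h3, ← Finset.sum_div]
    have := Nat.sum_range_choose a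
    have h4 : (∑ i ∈ range (a + 1), (a.choose i : ℝ)) = 2 ^ a := by exact_mod_cast this
    rw [h4]; simp
  | succ r ih =>
    cases N with
    | zero => simp
    | succ N =>
      rw [Finset.sum_range_succ']
      have h1 : ∑ i ∈ range N, |cf (r + 1) a (i + 1)| ≤
          ∑ i ∈ range N, |cf r a (i + 1)| + ∑ i ∈ range N, |cf r a i| := by
        rw [← Finset.sum_add_distrib]
        refine Finset.sum_le_sum fun i _ => ?_
        simp only [cf]
        exact abs_sub _ _
      have h2 := ih (N + 1)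
      rw [Finset.sum_range_succ'] at h2
      have h3 := ih N
      have h4 : cf (r + 1) a 0 = cf r a 0 := rfl
      rw [h4, pow_succ]
      linarith

theorem sum_choose_var (n : ℕ) :
    ∑ i ∈ range (n + 1), (n.choose i : ℝ) * ((n : ℝ) - 2 * i) ^ 2 = (n : ℝ) * 2 ^ n := by
  have gen : ∀ (n : ℕ) (f : ℕ → ℝ), ∑ i ∈ range (n + 1 + 1), ((n + 1).choose i : ℝ) * f i
      = ∑ i ∈ range (n + 1), (n.choose i : ℝ) * (f i + f (i + 1)) := by
    intro n f
    rw [Finset.sum_range_succ']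
    simp only [Nat.choose_succ_succ, Nat.cast_add, Nat.choose_zero_right, Nat.cast_one, one_mul]
    have h1 : ∑ i ∈ range (n + 1), ((n.choose i : ℝ) + (n.choose (i + 1) : ℝ)) * f (i + 1)
        = ∑ i ∈ range (n + 1), (n.choose i : ℝ) * f (i + 1)
          + ∑ i ∈ range (n + 1), (n.choose (i + 1) : ℝ) * f (i + 1) := by
      rw [← Finset.sum_add_distrib]; exact Finset.sum_congr rfl fun i _ => by ring
    have h2 : ∑ i ∈ range (n + 1), (n.choose (i + 1) : ℝ) * f (i + 1) + f 0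
        = ∑ i ∈ range (n + 1), (n.choose i : ℝ) * f i := by
      have := Finset.sum_range_succ' (fun i => (n.choose i : ℝ) * f i) (n + 1)
      simp only [Nat.choose_zero_right, Nat.cast_one, one_mul] at this
      rw [← this, Finset.sum_range_succ, Nat.choose_succ_self]; simp
    rw [h1, add_assoc, h2, ← Finset.sum_add_distrib]
    exact Finset.sum_congr rfl fun i _ => by ring
  induction n with
  | zero => simp
  | succ n ih =>
    rw [gen n (fun i => (((n + 1 : ℕ) : ℝ) - 2 * i) ^ 2)]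
    have h1 : ∀ i ∈ range (n + 1), (n.choose i : ℝ) *
        ((((n + 1 : ℕ) : ℝ) - 2 * (i : ℝ)) ^ 2 + (((n + 1 : ℕ) : ℝ) - 2 * ((i + 1 : ℕ) : ℝ)) ^ 2)
        = 2 * ((n.choose i : ℝ) * ((n : ℝ) - 2 * i) ^ 2) + 2 * (n.choose i : ℝ) := by
      intro i _; push_cast; ring
    rw [Finset.sum_congr rfl h1, Finset.sum_add_distrib, ← Finset.mul_sum, ← Finset.mul_sum, ih]
    have h4 : (∑ i ∈ range (n + 1), (n.choose i : ℝ)) = 2 ^ n := by
      exact_mod_cast Nat.sum_range_choose n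
    rw [h4]; push_cast; ring

theorem cf_one_eq (a i : ℕ) :
    cf 1 a i = ((a + 1).choose i : ℝ) * ((a : ℝ) + 1 - 2 * i) / ((a + 1) * 2 ^ a) := by
  cases i with
  | zero => simp only [cf]; simp; field_simp
  | succ i =>
    simp only [cf]
    have h1 : (((a + 1).choose (i + 1) : ℕ) : ℝ) = (a.choose i : ℝ) + (a.choose (i + 1) : ℝ) := by
      rw [Nat.choose_succ_succ]; push_cast; ring
    have h2 : ((a : ℝ) + 1) * (a.choose i : ℝ) = ((a + 1).choose (i + 1) : ℝ) * (i + 1) := by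
      exact_mod_cast Nat.add_one_mul_choose_eq a i
    have ha : (0 : ℝ) < (a : ℝ) + 1 := by positivity
    rw [div_sub_div_same, div_eq_div_iff (by positivity) (by positivity)]
    have e : ((a.choose (i + 1) : ℝ) - (a.choose i : ℝ)) * ((a : ℝ) + 1)
        = ((a + 1).choose (i + 1) : ℝ) * ((a : ℝ) + 1 - 2 * ((i + 1 : ℕ) : ℝ)) := by
      push_cast
      have : (a.choose (i + 1) : ℝ) = ((a + 1).choose (i + 1) : ℝ) - (a.choose i : ℝ) := by
        linarith
      rw [this]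
      linarith
    calc ((a.choose (i + 1) : ℝ) - (a.choose i : ℝ)) * (((a : ℝ) + 1) * 2 ^ a)
        = (((a.choose (i + 1) : ℝ) - (a.choose i : ℝ)) * ((a : ℝ) + 1)) * 2 ^ a := by ring
      _ = _ := by rw [e]

/-- The total variation between a fair binomial law and its translate by one. -/
theorem cf_one_abs_sum (a N : ℕ) : ∑ i ∈ range N, |cf 1 a i| ≤ 2 / √((a : ℝ) + 1) := by
  have h1 : ∑ i ∈ range N, |cf 1 a i| ≤ ∑ i ∈ range (max N (a + 1 + 1)), |cf 1 a i| :=
    Finset.sum_le_sum_of_subset_of_nonneg (Finset.range_subset_range.mpr (le_max_left _ _))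
      fun i _ _ => abs_nonneg _
  have h2 : ∑ i ∈ range (max N (a + 1 + 1)), |cf 1 a i| = ∑ i ∈ range (a + 1 + 1), |cf 1 a i| := by
    symm
    apply Finset.sum_subset (Finset.range_subset_range.mpr (le_max_right _ _))
    intro i _ hi
    rw [cf_big 1 a i (by simp at hi; omega)]; simp
  rw [h2] at h1
  refine h1.trans ?_
  have ha : (0 : ℝ) < (a : ℝ) + 1 := by positivity
  have hs : 0 < √((a : ℝ) + 1) := Real.sqrt_pos.mpr ha
  have hss : √((a : ℝ) + 1) * √((a : ℝ) + 1) = (a : ℝ) + 1 := Real.mul_self_sqrt ha.le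
  have h3 : ∀ i ∈ range (a + 1 + 1), |cf 1 a i| =
      ((a + 1).choose i : ℝ) * |(a : ℝ) + 1 - 2 * i| / ((a + 1) * 2 ^ a) := by
    intro i _
    rw [cf_one_eq, abs_div, abs_mul, abs_of_nonneg (Nat.cast_nonneg _),
      abs_of_pos (show (0 : ℝ) < (a + 1) * 2 ^ a by positivity)]
  rw [Finset.sum_congr rfl h3, ← Finset.sum_div]
  have h4 : (∑ i ∈ range (a + 1 + 1), ((a + 1).choose i : ℝ) * |(a : ℝ) + 1 - 2 * i|) ^ 2
      ≤ (∑ i ∈ range (a + 1 + 1), ((a + 1).choose i : ℝ)) *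
        ∑ i ∈ range (a + 1 + 1), ((a + 1).choose i : ℝ) * (((a + 1 : ℕ) : ℝ) - 2 * i) ^ 2 := by
    refine Finset.sum_sq_le_sum_mul_sum_of_sq_le_mul _ (fun i _ => by positivity)
      (fun i _ => by positivity) (fun i _ => le_of_eq ?_)
    rw [mul_pow, sq_abs]; push_cast; ring
  have h5 : (∑ i ∈ range (a + 1 + 1), ((a + 1).choose i : ℝ)) = 2 ^ (a + 1) := by
    exact_mod_cast Nat.sum_range_choose (a + 1)
  rw [h5, sum_choose_var (a + 1)] at h4
  set S := ∑ i ∈ range (a + 1 + 1), ((a + 1).choose i : ℝ) * |(a : ℝ) + 1 - 2 * i| with hS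
  have h6 : S ≤ 2 ^ (a + 1) * √((a : ℝ) + 1) := by
    apply le_of_sq_le_sq _ (by positivity)
    refine h4.trans (le_of_eq ?_)
    rw [mul_pow, sq (√((a : ℝ) + 1)), hss]; push_cast; ring
  rw [div_le_div_iff₀ (by positivity) hs]
  calc S * √((a : ℝ) + 1) ≤ (2 ^ (a + 1) * √((a : ℝ) + 1)) * √((a : ℝ) + 1) :=
        mul_le_mul_of_nonneg_right h6 hs.le
    _ = 2 ^ (a + 1) * (√((a : ℝ) + 1) * √((a : ℝ) + 1)) := by ring
    _ = 2 * (((a : ℝ) + 1) * 2 ^ a) := by rw [hss, pow_succ]; ring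

/-! ### Binomial expectations -/

theorem binE_inv {c : ℝ} (h0 : 0 ≤ c) (h1 : c ≤ 1) (K : ℕ) (M : ℕ) :
    binE c K (fun a => 1 / ((M : ℝ) + a + 1)) ≤ 1 / ((M : ℝ) + 1 + c / 2 * K) := by
  induction K generalizing M with
  | zero => simp [binE]
  | succ K ih =>
    simp only [binE]
    have i1 := ih M
    have i2 := ih (M + 1)
    have e0 : (fun a : ℕ => 1 / ((M : ℝ) + ((a + 1 : ℕ) : ℝ) + 1))
        = fun a : ℕ => 1 / (((M + 1 : ℕ) : ℝ) + a + 1) := by
      funext a; push_cast; congr 1; ring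
    rw [e0]
    set y : ℝ := (M : ℝ) + 1 + c / 2 * K with hy
    have hy1 : 1 ≤ y := by
      have : (0 : ℝ) ≤ M := Nat.cast_nonneg M
      have : 0 ≤ c / 2 * K := by positivity
      linarith
    have e2 : ((M + 1 : ℕ) : ℝ) + 1 + c / 2 * K = y + 1 := by push_cast; rw [hy]; ring
    have e3 : (M : ℝ) + 1 + c / 2 * ((K + 1 : ℕ) : ℝ) = y + c / 2 := by push_cast; rw [hy]; ring
    rw [e2] at i2
    rw [e3]
    have s1 := mul_le_mul_of_nonneg_left i1 (show 0 ≤ 1 - c by linarith)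
    have s2 := mul_le_mul_of_nonneg_left i2 h0
    have key : c * (1 / (y + 1)) + (1 - c) * (1 / y) ≤ 1 / (y + c / 2) := by
      have hyp : 0 < y := by linarith
      rw [mul_one_div, mul_one_div, div_add_div _ _ (by positivity) hyp.ne',
        div_le_div_iff₀ (by positivity) (by positivity)]
      nlinarith [mul_nonneg h0 (sub_nonneg.mpr hy1), mul_nonneg h0 h0]
    linarith

theorem binE_sqrt {c : ℝ} (h0 : 0 < c) (h1 : c ≤ 1) (K : ℕ) :
    binE c K (fun a => 2 / √((a : ℝ) + 1)) ≤ 3 / √(c * (K + 1)) := by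
  have hc : 0 < c * ((K : ℝ) + 1) := by positivity
  set s := √(c * ((K : ℝ) + 1)) with hs
  have hs0 : 0 < s := Real.sqrt_pos.mpr hc
  have hss : s * s = c * (K + 1) := Real.mul_self_sqrt hc.le
  have h2 : ∀ a ≤ K, (2 / √((a : ℝ) + 1)) ≤ s * (1 / (((0 : ℕ) : ℝ) + a + 1)) + 1 / s * 1 := by
    intro a _
    have ha : (0 : ℝ) < (a : ℝ) + 1 := by positivity
    set v := √((a : ℝ) + 1) with hv
    have hv0 : 0 < v := Real.sqrt_pos.mpr ha
    have hvv : v * v = a + 1 := Real.mul_self_sqrt ha.le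
    have e : ((0 : ℕ) : ℝ) + a + 1 = v * v := by rw [hvv]; simp
    rw [e]
    have : s * (1 / (v * v)) + 1 / s * 1 - 2 / v = (s - v) ^ 2 / (v * v * s) := by
      field_simp; ring
    have : 0 ≤ (s - v) ^ 2 / (v * v * s) := by positivity
    linarith
  refine (binE_mono h0.le h1 K h2).trans ?_
  rw [binE_lin c K s (1 / s) (fun a => 1 / (((0 : ℕ) : ℝ) + a + 1)) (fun _ => 1), binE_const]
  have h3 := binE_inv h0.le h1 K 0
  have h4 : (1 : ℝ) / (((0 : ℕ) : ℝ) + 1 + c / 2 * K) ≤ 2 / (s * s) := by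
    rw [hss, div_le_div_iff₀ (by positivity) (by positivity)]
    push_cast
    nlinarith
  calc s * binE c K (fun a => 1 / (((0 : ℕ) : ℝ) + a + 1)) + 1 / s * 1
      ≤ s * (2 / (s * s)) + 1 / s * 1 := by
        have := mul_le_mul_of_nonneg_left (h3.trans h4) hs0.le
        linarith
    _ = 3 / s := by field_simp; ring

theorem binE_tail {c : ℝ} (h0 : 0 ≤ c) (h1 : c ≤ 1) (K a0 : ℕ) (h : 2 * (a0 : ℝ) ≤ c * K) :
    binE c K (fun a => if a < a0 then (1 : ℝ) else 0) ≤ Real.exp (-(c * K / 8)) := by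
  have h2 : ∀ a ≤ K, (if a < a0 then (1 : ℝ) else 0) ≤ 2 ^ a0 * (1 / 2) ^ a + 0 * (1 / 2 : ℝ) ^ a := by
    intro a _
    split_ifs with ha
    · have : (1 : ℝ) ≤ 2 ^ a0 * (1 / 2) ^ a := by
        rw [one_div, inv_pow, ← div_eq_mul_inv, le_div_iff₀ (by positivity), one_mul]
        exact pow_le_pow_right₀ (by norm_num) ha.le
      linarith
    · positivity
  refine (binE_mono h0 h1 K h2).trans ?_
  rw [binE_lin, binE_pow, zero_mul, add_zero]
  have e1 : 1 - c + c * (1 / 2) = 1 - c / 2 := by ring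
  rw [e1]
  have h3 : (1 - c / 2) ^ K ≤ Real.exp (-(c * K / 2)) := by
    have : 1 - c / 2 ≤ Real.exp (-(c / 2)) := by
      have := Real.add_one_le_exp (-(c / 2))
      linarith
    calc (1 - c / 2) ^ K ≤ (Real.exp (-(c / 2))) ^ K :=
          pow_le_pow_left₀ (by linarith) this K
      _ = Real.exp (-(c * K / 2)) := by rw [← Real.exp_nat_mul]; congr 1; ring
  have h4 : (2 : ℝ) ^ a0 ≤ Real.exp (3 / 8 * (c * K)) := by
    have : (2 : ℝ) ≤ Real.exp (3 / 4) := by
      have h5 := Real.log_two_lt_d9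
      rw [← Real.log_le_iff_le_exp (by norm_num)]
      linarith
    calc (2 : ℝ) ^ a0 ≤ (Real.exp (3 / 4)) ^ a0 := pow_le_pow_left₀ (by norm_num) this a0
      _ = Real.exp (a0 * (3 / 4)) := by rw [← Real.exp_nat_mul]
      _ ≤ _ := by apply Real.exp_le_exp.mpr; linarith
  calc (2 : ℝ) ^ a0 * (1 - c / 2) ^ K
      ≤ Real.exp (3 / 8 * (c * K)) * Real.exp (-(c * K / 2)) :=
        mul_le_mul h4 h3 (pow_nonneg (by linarith) K) (Real.exp_pos _).le
    _ = Real.exp (-(c * K / 8)) := by rw [← Real.exp_add]; congr 1; ring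

end Vale.Agent.P321.SP
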