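import Vale.Agent.Lib.P321.SP.Smooth

/-!
P321, superpolynomial lower bound: comparison of powers, truncation, transfer of hiding.
-/

namespace Vale.Agent.P321.SP

open Finset

section

variable {G : Type} [Monoid G]

theorem coeff_mul_subset [DecidableEq G] (x y : Al G) (S S' : Finset G) (hS : x.coeff.support ⊆ S)
    (hS' : y.coeff.support ⊆ S') (m : G) :
    (x * y).coeff m = ∑ p ∈ S ×ˢ S', if p.1 * p.2 = m then x.coeff p.1 * y.coeff p.2 else 0 := by
  rw [MonoidAlgebra.coeff_mul, Finset.sum_product]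
  rw [Finsupp.sum_of_support_subset _ hS _ (by intro i _; simp [Finsupp.sum])]
  refine Finset.sum_congr rfl fun a _ => ?_
  rw [Finsupp.sum_of_support_subset _ hS' _ (by intro i _; simp)]

/-- `X² ≤ ρ Y` pointwise. -/
def Dom (X ρ Y : Al G) : Prop := ∀ g, X.coeff g ^ 2 ≤ ρ.coeff g * Y.coeff g

theorem Dom.mul {X ρ Y X' ρ' Y' : Al G} (hρ : Nn ρ) (hY : Nn Y) (hρ' : Nn ρ') (hY' : Nn Y')
    (h : Dom X ρ Y) (h' : Dom X' ρ' Y') : Dom (X * X') (ρ * ρ') (Y * Y') := by
  classical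
  intro m
  set S := X.coeff.support ∪ ρ.coeff.support ∪ Y.coeff.support with hS
  set S' := X'.coeff.support ∪ ρ'.coeff.support ∪ Y'.coeff.support with hS'
  rw [coeff_mul_subset X X' S S' (by rw [hS]; intro a ha; simp [ha])
      (by rw [hS']; intro a ha; simp [ha]),
    coeff_mul_subset ρ ρ' S S' (by rw [hS]; intro a ha; simp [ha])
      (by rw [hS']; intro a ha; simp [ha]),
    coeff_mul_subset Y Y' S S' (by rw [hS]; intro a ha; simp [ha])
      (by rw [hS']; intro a ha; simp [ha])]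
  refine Finset.sum_sq_le_sum_mul_sum_of_sq_le_mul _ (fun p _ => ?_) (fun p _ => ?_)
    (fun p _ => ?_)
  · split_ifs
    · exact mul_nonneg (hρ _) (hρ' _)
    · exact le_rfl
  · split_ifs
    · exact mul_nonneg (hY _) (hY' _)
    · exact le_rfl
  · split_ifs
    · rw [mul_pow]
      calc X.coeff p.1 ^ 2 * X'.coeff p.2 ^ 2
          ≤ (ρ.coeff p.1 * Y.coeff p.1) * (ρ'.coeff p.2 * Y'.coeff p.2) :=
            mul_le_mul (h p.1) (h' p.2) (sq_nonneg _) (mul_nonneg (hρ _) (hY _))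
        _ = _ := by ring
    · simp

theorem Dom.pow {X ρ Y : Al G} (hρ : Nn ρ) (hY : Nn Y) (h : Dom X ρ Y) (m : ℕ) :
    Dom (X ^ m) (ρ ^ m) (Y ^ m) := by
  induction m with
  | zero =>
    intro g
    simp only [pow_zero]
    rw [sq]
  | succ m ih =>
    rw [pow_succ, pow_succ, pow_succ]
    exact Dom.mul (hρ.pow m) (hY.pow m) hρ hY ih h

theorem mass_eq_of_subset (x : Al G) (S : Finset G) (hS : x.coeff.support ⊆ S) :
    mass x = ∑ g ∈ S, x.coeff g := by
  rw [mass_eq]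
  apply Finset.sum_subset hS
  intro g _ hg
  rwa [Finsupp.notMem_support_iff] at hg

theorem Dom.nrm {X ρ Y : Al G} (hρ : Nn ρ) (hX : Prob X) (hY : Prob Y) (h : Dom X ρ Y) :
    Nrm (X - Y) (√(mass ρ - 1)) := by
  classical
  refine ⟨ab (X - Y), Ab.self _, ?_⟩
  set S := X.coeff.support ∪ ρ.coeff.support ∪ Y.coeff.support with hS
  have sX : X.coeff.support ⊆ S := by rw [hS]; intro a ha; simp [ha]
  have sρ : ρ.coeff.support ⊆ S := by rw [hS]; intro a ha; simp [ha]
  have sY : Y.coeff.support ⊆ S := by rw [hS]; intro a ha; simp [ha]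
  have sab : (ab (X - Y)).coeff.support ⊆ S := by
    intro g hg
    rw [Finsupp.mem_support_iff, coeff_ab] at hg
    by_contra hgS
    apply hg
    have h1 : X.coeff g = 0 := by
      rw [← Finsupp.notMem_support_iff]; exact fun hh => hgS (sX hh)
    have h2 : Y.coeff g = 0 := by
      rw [← Finsupp.notMem_support_iff]; exact fun hh => hgS (sY hh)
    simp [h1, h2]
  rw [mass_eq_of_subset _ S sab]
  apply Real.le_sqrt_of_sq_le
  have h1 : mass ρ - 1 = (∑ g ∈ S, (ρ.coeff g - 2 * X.coeff g + Y.coeff g)) *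
      ∑ g ∈ S, Y.coeff g := by
    rw [← mass_eq_of_subset Y S sY, hY.2, mul_one, Finset.sum_add_distrib,
      Finset.sum_sub_distrib, ← Finset.mul_sum, ← mass_eq_of_subset Y S sY,
      ← mass_eq_of_subset X S sX, ← mass_eq_of_subset ρ S sρ, hX.2, hY.2]
    ring
  rw [h1]
  refine Finset.sum_sq_le_sum_mul_sum_of_sq_le_mul _ (fun g _ => ?_) (fun g _ => hY.1 g)
    (fun g _ => ?_)
  · have := h g
    have h3 := hρ g
    have h4 := hY.1 g
    nlinarith [sq_nonneg (ρ.coeff g - Y.coeff g), hX.1 g]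
  · rw [coeff_ab, sq_abs]
    simp only [MonoidAlgebra.coeff_sub, Finsupp.coe_sub, Pi.sub_apply]
    have := h g
    nlinarith

/-- Comparison of powers. -/
theorem pc {Z W : Al G} (hZ : Prob Z) (hW : Prob W) {η : ℝ} (hη : 0 ≤ η)
    (h : Ab (W - Z) (η • Z)) (m : ℕ) (hm : m * η ^ 2 ≤ 1) :
    Nrm (W ^ m - Z ^ m) (√(2 * (m * η ^ 2))) := by
  classical
  rw [Ab.iff] at h
  simp only [MonoidAlgebra.coeff_sub, Finsupp.coe_sub, Pi.sub_apply, MonoidAlgebra.coeff_smul,
    Finsupp.smul_apply, smul_eq_mul] at h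
  have hz : ∀ g, Z.coeff g = 0 → W.coeff g = 0 := by
    intro g hg
    have := h g
    rw [hg, mul_zero, sub_zero] at this
    exact abs_eq_zero.mp (le_antisymm this (abs_nonneg _))
  set ρ : Al G := MonoidAlgebra.ofCoeff (Finsupp.zipWith (fun w z => w ^ 2 / z) (by simp)
    W.coeff Z.coeff) with hρdef
  have hρc : ∀ g, ρ.coeff g = W.coeff g ^ 2 / Z.coeff g := fun g => by
    rw [hρdef]; simp [Finsupp.zipWith_apply]
  have hρ : Nn ρ := fun g => by rw [hρc]; exact div_nonneg (sq_nonneg _) (hZ.1 g)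
  have hd : Dom W ρ Z := by
    intro g
    rw [hρc]
    rcases eq_or_ne (Z.coeff g) 0 with h0 | h0
    · rw [hz g h0, h0]; simp
    · rw [div_mul_cancel₀ _ h0]
  have hmass : mass ρ ≤ 1 + η ^ 2 := by
    have s1 : ρ.coeff.support ⊆ Z.coeff.support := by
      intro g hg
      rw [Finsupp.mem_support_iff] at hg ⊢
      intro h0
      apply hg
      rw [hρc, h0, div_zero]
    have s2 : W.coeff.support ⊆ Z.coeff.support := by
      intro g hg
      rw [Finsupp.mem_support_iff] at hg ⊢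
      exact fun h0 => hg (hz g h0)
    rw [mass_eq_of_subset ρ _ s1]
    have h3 : ∀ g ∈ Z.coeff.support, ρ.coeff g ≤ 2 * W.coeff g - Z.coeff g + η ^ 2 * Z.coeff g := by
      intro g hg
      rw [Finsupp.mem_support_iff] at hg
      have hp : 0 < Z.coeff g := lt_of_le_of_ne (hZ.1 g) (Ne.symm hg)
      rw [hρc, div_le_iff₀ hp]
      have h4 : (W.coeff g - Z.coeff g) ^ 2 ≤ (η * Z.coeff g) ^ 2 := by
        rw [← sq_abs (W.coeff g - Z.coeff g)]
        exact pow_le_pow_left₀ (abs_nonneg _) (h g) 2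
      nlinarith
    refine (Finset.sum_le_sum h3).trans (le_of_eq ?_)
    rw [Finset.sum_add_distrib, Finset.sum_sub_distrib, ← Finset.mul_sum, ← Finset.mul_sum,
      ← mass_eq, ← mass_eq_of_subset W _ s2, hW.2, hZ.2]
    ring
  have h5 := Dom.nrm (hρ.pow m) (hW.pow m) (hZ.pow m) (Dom.pow hρ hZ.1 hd m)
  refine h5.mono (Real.sqrt_le_sqrt ?_)
  rw [map_pow]
  have h6 : (mass ρ) ^ m ≤ Real.exp (m * η ^ 2) := by
    calc (mass ρ) ^ m ≤ (Real.exp (η ^ 2)) ^ m := by
          apply pow_le_pow_left₀ hρ.mass_nonneg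
          have := Real.add_one_le_exp (η ^ 2)
          linarith
      _ = _ := by rw [← Real.exp_nat_mul]
  have h7 : Real.exp (m * η ^ 2) ≤ 1 + 2 * (m * η ^ 2) := by
    have h8 : 0 ≤ (m : ℝ) * η ^ 2 := by positivity
    have := Real.exp_bound' h8 hm (n := 2) (by norm_num)
    simp only [Finset.sum_range_succ, Finset.sum_range_zero, Nat.factorial] at this
    norm_num at this
    nlinarith
  linarith

/-- Differences of products of probability measures. -/
theorem nrm_pow_sub {X Y : Al G} (hX : Prob X) (hY : Prob Y) {b : ℝ} (h : Nrm (X - Y) b) (m : ℕ) :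
    Nrm (X ^ m - Y ^ m) (m * b) := by
  induction m with
  | zero => simpa using Nrm.zero
  | succ m ih =>
    have e : X ^ (m + 1) - Y ^ (m + 1) = X ^ m * (X - Y) + (X ^ m - Y ^ m) * Y := by
      rw [pow_succ, pow_succ]; noncomm_ring
    rw [e]
    have := ((hX.pow m).nrm.mul h).add (ih.mul hY.nrm)
    refine this.mono (le_of_eq ?_)
    push_cast; ring

theorem nrm_mul_sub {X Y X' Y' : Al G} (hX : Prob X) (hY' : Prob Y') {b b' : ℝ}
    (h : Nrm (X - Y) b) (h' : Nrm (X' - Y') b') : Nrm (X * X' - Y * Y') (b + b') := by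
  have e : X * X' - Y * Y' = X * (X' - Y') + (X - Y) * Y' := by noncomm_ring
  rw [e]
  have := (hX.nrm.mul h').add (h.mul hY'.nrm)
  refine this.mono (le_of_eq ?_)
  ring

/-- Truncation. -/
theorem hat {P σ : Al G} (hP : Prob P) {η β : ℝ} (hη : 0 ≤ η) (h0 : mass σ = 0)
    (h : Small σ P η β) :
    ∃ τ : Al G, mass τ = 0 ∧ Ab τ ((η + β) • P) ∧ Nrm (σ - τ) (2 * β) := by
  obtain ⟨ω, h1, h2, h3⟩ := h
  rw [Ab.iff] at h3
  set τ0 : Al G := MonoidAlgebra.ofCoeff (Finsupp.zipWith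
    (fun s p => max (-(η * p)) (min (η * p) s)) (by simp) σ.coeff P.coeff) with hτ0
  have hc : ∀ g, τ0.coeff g = max (-(η * P.coeff g)) (min (η * P.coeff g) (σ.coeff g)) := fun g => by
    rw [hτ0]; simp [Finsupp.zipWith_apply]
  have ha : Ab τ0 (η • P) := by
    rw [Ab.iff]
    intro g
    rw [hc]
    have hp : 0 ≤ η * P.coeff g := mul_nonneg hη (hP.1 g)
    simp only [MonoidAlgebra.coeff_smul, Finsupp.smul_apply, smul_eq_mul]
    rw [abs_le]
    exact ⟨le_max_left _ _, max_le (by linarith) (min_le_left _ _)⟩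
  have hb : Ab (σ - τ0) ω := by
    rw [Ab.iff]
    intro g
    have h4 := h3 g
    simp only [MonoidAlgebra.coeff_add, MonoidAlgebra.coeff_smul, Finsupp.coe_add, Pi.add_apply,
      Finsupp.smul_apply, smul_eq_mul] at h4
    simp only [MonoidAlgebra.coeff_sub, Finsupp.coe_sub, Pi.sub_apply, hc]
    have hω := h1 g
    have hp : 0 ≤ η * P.coeff g := mul_nonneg hη (hP.1 g)
    rw [abs_le] at h4 ⊢
    rcases le_total (σ.coeff g) (η * P.coeff g) with h5 | h5
    · rw [min_eq_right h5]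
      rcases le_total (-(η * P.coeff g)) (σ.coeff g) with h6 | h6
      · rw [max_eq_right h6]; constructor <;> linarith
      · rw [max_eq_left h6]; constructor <;> linarith
    · rw [min_eq_left h5, max_eq_right (by linarith)]; constructor <;> linarith
  have hδ : |mass τ0| ≤ β := by
    have := hb.abs_mass
    rw [map_sub, h0, zero_sub, abs_neg] at this
    exact this.trans h2
  refine ⟨τ0 - (mass τ0) • P, ?_, ?_, ?_⟩
  · rw [map_sub, map_smul, hP.2]; simp
  · have h5 := ha.sub ((Ab.of_nn hP.1).smul (mass τ0))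
    rw [← add_smul] at h5
    refine h5.mono ?_
    rw [← sub_smul]
    exact hP.1.smul (by linarith)
  · have h6 : Nrm (σ - τ0) β := ⟨ω, hb, h2⟩
    have h7 := h6.add (hP.nrm.smul (mass τ0))
    have e : σ - (τ0 - (mass τ0) • P) = σ - τ0 + (mass τ0) • P := by abel
    rw [e]
    refine h7.mono ?_
    linarith

/-- Overlap of two probability measures at distance at most one. -/
theorem overlap {X Y : Al G} (hX : Prob X) (hY : Prob Y) (h : Nrm (X - Y) 1) :
    ∃ ν : Al G, Nn ν ∧ Nn (X - ν) ∧ Nn (Y - ν) ∧ 1 / 2 ≤ mass ν := by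
  have hm := h.mass_ab
  refine ⟨(1 / 2 : ℝ) • (X + Y - ab (X - Y)), fun g => ?_, fun g => ?_, fun g => ?_, ?_⟩
  · simp only [MonoidAlgebra.coeff_smul, MonoidAlgebra.coeff_sub, MonoidAlgebra.coeff_add,
      Finsupp.smul_apply, Finsupp.coe_sub, Finsupp.coe_add, Pi.sub_apply, Pi.add_apply,
      smul_eq_mul, coeff_ab]
    have h1 := hX.1 g
    have h2 := hY.1 g
    have : |X.coeff g - Y.coeff g| ≤ X.coeff g + Y.coeff g := by
      rw [abs_le]; constructor <;> linarith
    linarith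
  · simp only [MonoidAlgebra.coeff_smul, MonoidAlgebra.coeff_sub, MonoidAlgebra.coeff_add,
      Finsupp.smul_apply, Finsupp.coe_sub, Finsupp.coe_add, Pi.sub_apply, Pi.add_apply,
      smul_eq_mul, coeff_ab]
    have := neg_abs_le (X.coeff g - Y.coeff g)
    linarith
  · simp only [MonoidAlgebra.coeff_smul, MonoidAlgebra.coeff_sub, MonoidAlgebra.coeff_add,
      Finsupp.smul_apply, Finsupp.coe_sub, Finsupp.coe_add, Pi.sub_apply, Pi.add_apply,
      smul_eq_mul, coeff_ab]
    have := le_abs_self (X.coeff g - Y.coeff g)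
    linarith
  · rw [map_smul, map_sub, map_add, hX.2, hY.2, smul_eq_mul]; linarith

/-- Transfer of hiding. -/
theorem hide {Z W : Al G} (hZ : Prob Z) (hW : Prob W) {m : ℕ} {c : ℝ} (hc : 0 < c)
    (hH : Hid Z m c) {N : ℕ} {η β : ℝ} (hη : 0 ≤ η) (h : Small (W - Z ^ N) (Z ^ N) η β)
    (m' K : ℕ) (hK : K * (m + 1) ≤ N * m')
    (h1 : ((m' : ℝ) + 1) * (η + β) ^ 2 ≤ 1 / 32) (h2 : ((m' : ℝ) + 1) * (2 * β) ≤ 1 / 12)
    (h3 : N * (3 / √(c * ((K : ℝ) + 1))) ≤ 1 / 3) : Hid W m' (1 / 2) := by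
  have hβ := h.beta_nonneg
  have hZN := hZ.pow N
  obtain ⟨τ, t1, t2, t3⟩ := hat hZN hη (by rw [map_sub, hW.2, hZN.2, sub_self]) h
  have hηβ : 0 ≤ η + β := add_nonneg hη hβ
  have hm0 : (0 : ℝ) ≤ m' := Nat.cast_nonneg m'
  have hle1 : η + β ≤ 1 := by nlinarith
  set V := Z ^ N + τ with hV
  have hVp : Prob V := by
    refine ⟨?_, by rw [hV, map_add, hZN.2, t1, add_zero]⟩
    have := t2.2.add (hZN.1.smul (show 0 ≤ 1 - (η + β) by linarith))
    convert this using 1
    rw [hV]; module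
  have hWV : Nrm (W - V) (2 * β) := by
    convert t3 using 1
    rw [hV]; abel
  have hVZ : Ab (V - Z ^ N) ((η + β) • Z ^ N) := by
    convert t2 using 1
    rw [hV]; abel
  have key : ∀ k : ℕ, (k : ℝ) ≤ (m' : ℝ) + 1 → Nrm (W ^ k - Z ^ (N * k)) (1 / 3) := by
    intro k hk
    have a1 := nrm_pow_sub hW hVp hWV k
    have hkη : (k : ℝ) * (η + β) ^ 2 ≤ 1 / 32 :=
      (mul_le_mul_of_nonneg_right hk (sq_nonneg _)).trans h1
    have a2 := pc hZN hVp hηβ hVZ k (hkη.trans (by norm_num))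
    have a3 := a1.add a2
    rw [← pow_mul] at a3
    have e : W ^ k - V ^ k + (V ^ k - Z ^ (N * k)) = W ^ k - Z ^ (N * k) := by abel
    rw [e] at a3
    refine a3.mono ?_
    have b1 : (k : ℝ) * (2 * β) ≤ 1 / 12 := (mul_le_mul_of_nonneg_right hk (by linarith)).trans h2
    have b2 : √(2 * (k * (η + β) ^ 2)) ≤ 1 / 4 := by
      rw [Real.sqrt_le_left (by norm_num)]
      linarith
    linarith
  have k1 := key m' (by linarith)
  have k2 := key (m' + 1) (by push_cast; linarith)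
  have k3 := smooth1' hZ hc hH K (N * m') N hK
  rw [show N * m' + N = N * (m' + 1) by ring] at k3
  have k4 := (k1.add (k3.sub_comm)).add k2.sub_comm
  have e : W ^ m' - Z ^ (N * m') + (Z ^ (N * m') - Z ^ (N * (m' + 1))) +
      (Z ^ (N * (m' + 1)) - W ^ (m' + 1)) = W ^ m' - W ^ (m' + 1) := by abel
  rw [e] at k4
  obtain ⟨ν, v1, v2, v3, v4⟩ := overlap (hW.pow m') (hW.pow (m' + 1)) (k4.mono (by linarith))
  exact Hid.of_ge (by norm_num) v1 v2 v3 v4

end

end Vale.Agent.P321.SP
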