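import Vale.Agent.Lib.P321.SP.Mono
import Vale.Agent.Lib.P321.SP.PC

/-!
P321, superpolynomial lower bound: the Thue-Morse doubling recursion.
-/

namespace Vale.Agent.P321.SP

open Finset

/-- Thue-Morse products: `tm t a b` is the product of `2^t` factors `a`, `b` in the Thue-Morse
order. -/
def tm {M : Type} [Mul M] : ℕ → M → M → M
  | 0, a, _ => a
  | t + 1, a, b => tm t a b * tm t b a

/-- Constants of the doubling recursion. -/
noncomputable def CC : ℕ → ℝ
  | 0 => 1
  | t + 1 => 4 * CC t + 11 * CC t ^ 2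

theorem CC_ge_one (t : ℕ) : 1 ≤ CC t := by
  induction t with
  | zero => exact le_rfl
  | succ t ih => simp only [CC]; nlinarith

section

variable {G : Type} [Monoid G]

theorem tm_prob {A B : Al G} (hA : Prob A) (hB : Prob B) (t : ℕ) :
    Prob (tm t A B) ∧ Prob (tm t B A) := by
  induction t with
  | zero => exact ⟨hA, hB⟩
  | succ t ih => exact ⟨ih.1.mul ih.2, ih.2.mul ih.1⟩

theorem tm_nrm {A B A' B' : Al G} (hA : Prob A) (hB : Prob B) (hA' : Prob A') (hB' : Prob B')
    {b : ℝ} (h1 : Nrm (A - A') b) (h2 : Nrm (B - B') b) (t : ℕ) :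
    Nrm (tm t A B - tm t A' B') (2 ^ t * b) ∧ Nrm (tm t B A - tm t B' A') (2 ^ t * b) := by
  induction t with
  | zero => simpa [tm] using ⟨h1, h2⟩
  | succ t ih =>
    have p := tm_prob hA hB t
    have p' := tm_prob hA' hB' t
    constructor
    · refine (nrm_mul_sub p.1 p'.2 ih.1 ih.2).mono (le_of_eq ?_)
      rw [pow_succ]; ring
    · refine (nrm_mul_sub p.2 p'.1 ih.2 ih.1).mono (le_of_eq ?_)
      rw [pow_succ]; ring

theorem mass_LO (P x : Al G) (hx : mass x = 0) (t : ℕ) : mass (LO P x t) = 0 := by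
  induction t with
  | zero => exact hx
  | succ t ih => simp only [LO, map_sub, map_mul, ih, zero_mul, mul_zero, sub_self]

theorem dbl {P : Al G} (hP : Prob P) {L : ℕ} {Z O E : Al G} {x0 o e : ℝ} (hZ : Near P L x0 Z)
    (hO : Mono P L o O) (hE : Mono P L e E) (ho1 : o ≤ 1) (he1 : e ≤ 1) (T : ℕ)
    (hx : (1 + x0) ^ (2 ^ T) ≤ 2) (t : ℕ) (ht : t ≤ T) :
    ∃ ev od : Al G,
      tm t (Z + E + O) (Z + E - O) = Z ^ (2 ^ t) + ev + (LO Z O t + od) ∧
      tm t (Z + E - O) (Z + E + O) = Z ^ (2 ^ t) + ev - (LO Z O t + od) ∧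
      Mono P (L * 2 ^ t) (CC t * (e + o ^ 2)) ev ∧
      Mono P (L * 2 ^ t) (CC t * (o * (e + o ^ 2))) od ∧
      Mono P (L * 2 ^ t) (CC t * o) (LO Z O t) := by
  have hx0 : 0 ≤ x0 := hZ.1
  have ho : 0 ≤ o := hO.1
  have he : 0 ≤ e := hE.1
  induction t with
  | zero =>
    refine ⟨E, 0, by simp [tm, LO], by simp [tm, LO], ?_, ?_, ?_⟩
    · simp only [pow_zero, mul_one, CC, one_mul]
      exact hE.mono (by nlinarith)
    · simp only [pow_zero, mul_one, CC, one_mul]
      exact (Mono.zero hP L).mono (by positivity)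
    · simpa [LO, CC] using hO
  | succ t ih =>
    obtain ⟨ev, od, h1, h2, h3, h4, h5⟩ := ih (by omega)
    have hC := CC_ge_one t
    set u := e + o ^ 2 with hu
    have hu0 : 0 ≤ u := by positivity
    have hu2 : u ≤ 2 := by nlinarith
    have hz1 : (1 + x0) ^ (2 ^ t) ≤ 2 :=
      (pow_le_pow_right₀ (by linarith) (Nat.pow_le_pow_right (by norm_num) (by omega))).trans hx
    have hZp : Near P (L * 2 ^ t) ((1 + x0) ^ (2 ^ t) - 1) (Z ^ (2 ^ t)) := hZ.pow hP _
    have hZp' : Near P (L * 2 ^ t) 1 (Z ^ (2 ^ t)) := Mono.mono hZp (by linarith)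
    have eL : L * 2 ^ t + L * 2 ^ t = L * 2 ^ (t + 1) := by rw [pow_succ]; ring
    -- left and right multiplications by `Z ^ (2 ^ t)`
    have left : ∀ {F : Al G} {θ : ℝ}, Mono P (L * 2 ^ t) θ F →
        Mono P (L * 2 ^ (t + 1)) (2 * θ) (Z ^ (2 ^ t) * F) := fun hF => by
      have := (hZp'.mul_mono hP hF).cast eL
      convert this using 1; ring
    have right : ∀ {F : Al G} {θ : ℝ}, Mono P (L * 2 ^ t) θ F →
        Mono P (L * 2 ^ (t + 1)) (2 * θ) (F * Z ^ (2 ^ t)) := fun hF => by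
      have := (hF.mul_bdd hZp'.bdd).cast eL
      convert this using 1; ring
    have hlo : Mono P (L * 2 ^ t) (3 * CC t * o) (LO Z O t + od) := by
      refine (h5.add hP h4).mono ?_
      have : CC t * (o * u) ≤ CC t * (o * 2) :=
        mul_le_mul_of_nonneg_left (mul_le_mul_of_nonneg_left hu2 ho) (by linarith)
      linarith
    refine ⟨Z ^ (2 ^ t) * ev + ev * Z ^ (2 ^ t) + (ev * ev - (LO Z O t + od) * (LO Z O t + od)),
      od * Z ^ (2 ^ t) - Z ^ (2 ^ t) * od + ((LO Z O t + od) * ev - ev * (LO Z O t + od)),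
      ?_, ?_, ?_, ?_, ?_⟩
    · simp only [tm, h1, h2, LO]
      rw [show Z ^ 2 ^ (t + 1) = Z ^ (2 ^ t) * Z ^ (2 ^ t) by rw [← pow_add]; congr 1; ring]
      noncomm_ring
    · simp only [tm, h1, h2, LO]
      rw [show Z ^ 2 ^ (t + 1) = Z ^ (2 ^ t) * Z ^ (2 ^ t) by rw [← pow_add]; congr 1; ring]
      noncomm_ring
    · have m1 := (left h3).add hP (right h3)
      have m2 := ((h3.mul_bdd h3.bdd).cast eL).sub hP ((hlo.mul_bdd hlo.bdd).cast eL)
      refine (m1.add hP m2).mono ?_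
      simp only [CC]
      have a1 : u * u ≤ 2 * u := mul_le_mul_of_nonneg_right hu2 hu0
      have a2 : o ^ 2 ≤ u := by rw [hu]; linarith
      have a3 : CC t ^ 2 * (u * u) ≤ CC t ^ 2 * (2 * u) :=
        mul_le_mul_of_nonneg_left a1 (sq_nonneg _)
      have a4 : 9 * CC t ^ 2 * o ^ 2 ≤ 9 * CC t ^ 2 * u :=
        mul_le_mul_of_nonneg_left a2 (by positivity)
      nlinarith
    · have m1 := (right h4).sub hP (left h4)
      have m2 := ((hlo.mul_bdd h3.bdd).cast eL).sub hP ((h3.mul_bdd hlo.bdd).cast eL)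
      refine (m1.add hP m2).mono ?_
      simp only [CC]
      have a1 : 0 ≤ CC t ^ 2 * (o * u) := by positivity
      nlinarith
    · have m1 := (right h5).sub hP (left h5)
      refine m1.mono ?_
      simp only [CC]
      have a1 : 0 ≤ CC t ^ 2 * o := by positivity
      nlinarith

end

end Vale.Agent.P321.SP
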