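import Vale.Agent.Lib.P321.SP.Smooth

/-!
P321, superpolynomial lower bound: independent samples, bounded and subgaussian densities.
-/

namespace Vale.Agent.P321.SP

open Finset

section

variable {G : Type} [Monoid G]

/-- Expectation of a function of `N` independent samples of `P`. -/
noncomputable def ex (P : Al G) : ℕ → (List G → ℝ) → ℝ
  | 0, f => f []
  | N + 1, f => ∑ g ∈ P.coeff.support, P.coeff g * ex P N (fun y => f (g :: y))

/-- The measure with density `f` with respect to the product of `N` samples of `P`. -/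
noncomputable def ev (P : Al G) : ℕ → (List G → ℝ) → Al G
  | 0, f => f [] • (1 : Al G)
  | N + 1, f => ∑ g ∈ P.coeff.support,
      P.coeff g • (MonoidAlgebra.single g (1 : ℝ) * ev P N (fun y => f (g :: y)))

theorem ex_lin (P : Al G) (N : ℕ) : ∀ (a b : ℝ) (f f' : List G → ℝ),
    ex P N (fun y => a * f y + b * f' y) = a * ex P N f + b * ex P N f' := by
  induction N with
  | zero => intro a b f f'; rfl
  | succ N ih =>
    intro a b f f'
    simp only [ex]
    rw [Finset.mul_sum, Finset.mul_sum, ← Finset.sum_add_distrib]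
    refine Finset.sum_congr rfl fun g _ => ?_
    rw [ih a b (fun y => f (g :: y)) (fun y => f' (g :: y))]; ring

theorem ex_mul_const (P : Al G) (N : ℕ) (f : List G → ℝ) (b : ℝ) :
    ex P N (fun y => f y * b) = ex P N f * b := by
  have := ex_lin P N b 0 f f
  simp only [zero_mul, add_zero] at this
  rw [mul_comm (ex P N f), ← this]
  congr 1; funext y; ring

theorem ex_sum (P : Al G) (N : ℕ) {ι : Type*} (s : Finset ι) (f : ι → List G → ℝ) :
    ex P N (fun y => ∑ i ∈ s, f i y) = ∑ i ∈ s, ex P N (f i) := by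
  classical
  induction s using Finset.induction_on with
  | empty =>
    have := ex_lin P N 0 0 (fun _ => 0) (fun _ => 0)
    simpa using this
  | insert a s ha ih =>
    rw [Finset.sum_insert ha, ← ih]
    have := ex_lin P N 1 1 (f a) (fun y => ∑ i ∈ s, f i y)
    simp only [one_mul] at this
    rw [← this]
    congr 1; funext y; rw [Finset.sum_insert ha]

theorem ex_mono {P : Al G} (hP : Nn P) (N : ℕ) : ∀ {f f' : List G → ℝ}, (∀ y, f y ≤ f' y) →
    ex P N f ≤ ex P N f' := by
  induction N with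
  | zero => intro f f' h; exact h []
  | succ N ih =>
    intro f f' h
    simp only [ex]
    exact Finset.sum_le_sum fun g _ => mul_le_mul_of_nonneg_left (ih fun y => h _) (hP g)

theorem ex_const {P : Al G} (hP : Prob P) (N : ℕ) (a : ℝ) : ex P N (fun _ => a) = a := by
  induction N with
  | zero => rfl
  | succ N ih =>
    simp only [ex]
    rw [ih, ← Finset.sum_mul, ← mass_eq, hP.2, one_mul]

theorem ev_lin (P : Al G) (N : ℕ) : ∀ (a b : ℝ) (f f' : List G → ℝ),
    ev P N (fun y => a * f y + b * f' y) = a • ev P N f + b • ev P N f' := by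
  induction N with
  | zero => intro a b f f'; simp only [ev]; module
  | succ N ih =>
    intro a b f f'
    simp only [ev]
    rw [Finset.smul_sum, Finset.smul_sum, ← Finset.sum_add_distrib]
    refine Finset.sum_congr rfl fun g _ => ?_
    rw [ih a b (fun y => f (g :: y)) (fun y => f' (g :: y)), mul_add, mul_smul_comm,
      mul_smul_comm]
    module

theorem ev_add (P : Al G) (N : ℕ) (f f' : List G → ℝ) :
    ev P N (fun y => f y + f' y) = ev P N f + ev P N f' := by
  have := ev_lin P N 1 1 f f'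
  simpa using this

theorem ev_sub (P : Al G) (N : ℕ) (f f' : List G → ℝ) :
    ev P N (fun y => f y - f' y) = ev P N f - ev P N f' := by
  have := ev_lin P N 1 (-1) f f'
  simp only [one_mul, one_smul, neg_smul, neg_mul, ← sub_eq_add_neg] at this
  exact this

theorem ev_smul (P : Al G) (N : ℕ) (a : ℝ) (f : List G → ℝ) :
    ev P N (fun y => a * f y) = a • ev P N f := by
  have := ev_lin P N a 0 f f
  simpa using this

theorem mass_ev (P : Al G) (N : ℕ) : ∀ f : List G → ℝ, mass (ev P N f) = ex P N f := by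
  induction N with
  | zero => intro f; simp [ev, ex]
  | succ N ih =>
    intro f
    simp only [ev, ex, map_sum, map_smul, map_mul, mass_single, one_mul, ih, smul_eq_mul]

theorem ev_nn {P : Al G} (hP : Nn P) (N : ℕ) : ∀ {f : List G → ℝ}, (∀ y, 0 ≤ f y) →
    Nn (ev P N f) := by
  induction N with
  | zero => intro f h; exact Nn.one.smul (h [])
  | succ N ih =>
    intro f h
    simp only [ev]
    exact Nn.sum _ fun g _ => Nn.smul (hP g) ((Nn.single g zero_le_one).mul (ih fun y => h _))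

theorem ev_ab {P : Al G} (hP : Nn P) (N : ℕ) {f f' : List G → ℝ} (h : ∀ y, |f y| ≤ f' y) :
    Ab (ev P N f) (ev P N f') := by
  constructor
  · rw [← ev_sub]; exact ev_nn hP N fun y => by
      have := (abs_le.mp (h y)).2; linarith
  · rw [← ev_add]; exact ev_nn hP N fun y => by
      have := (abs_le.mp (h y)).1; linarith

theorem sum_single (P : Al G) :
    ∑ g ∈ P.coeff.support, P.coeff g • MonoidAlgebra.single g (1 : ℝ) = P := by
  classical
  ext a
  simp only [MonoidAlgebra.coeff_sum, MonoidAlgebra.coeff_smul, MonoidAlgebra.coeff_single,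
    Finsupp.coe_finsetSum, Finset.sum_apply, Finsupp.smul_apply, Finsupp.single_apply,
    smul_eq_mul, mul_ite, mul_one, mul_zero]
  rw [Finset.sum_ite_eq' P.coeff.support a]
  split_ifs with h
  · rfl
  · exact (Finsupp.notMem_support_iff.mp h).symm

theorem ev_cons (P : Al G) (N : ℕ) (f : List G → ℝ) (s : G → ℝ) (τ : Al G)
    (hτ : ∀ g, τ.coeff g = P.coeff g * s g) (F : List G → ℝ)
    (hF : ∀ g y, F (g :: y) = s g * f y) : ev P (N + 1) F = τ * ev P N f := by
  simp only [ev]
  have h1 : ∀ g ∈ P.coeff.support, P.coeff g • (MonoidAlgebra.single g (1 : ℝ) *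
      ev P N (fun y => F (g :: y))) = τ.coeff g • (MonoidAlgebra.single g (1 : ℝ)) * ev P N f := by
    intro g _
    have : (fun y => F (g :: y)) = fun y => s g * f y := by funext y; exact hF g y
    rw [this, ev_smul, hτ, mul_smul_comm, smul_smul, smul_mul_assoc]
  rw [Finset.sum_congr rfl h1, ← Finset.sum_mul]
  congr 1
  rw [← sum_single τ]
  symm
  rw [sum_single τ]
  conv_lhs => rw [← sum_single τ]
  apply Finset.sum_subset
  · intro g hg
    rw [Finsupp.mem_support_iff] at hg ⊢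
    intro h0
    apply hg
    rw [hτ, h0, zero_mul]
  · intro g _ hg
    rw [Finsupp.notMem_support_iff] at hg
    rw [hg, zero_smul]

theorem ev_left (P : Al G) (N : ℕ) (f : List G → ℝ) (F : List G → ℝ)
    (hF : ∀ g y, F (g :: y) = f y) : ev P (N + 1) F = P * ev P N f :=
  ev_cons P N f (fun _ => 1) P (fun g => by ring) F (fun g y => by rw [hF]; ring)

theorem ev_const (P : Al G) (N : ℕ) (a : ℝ) : ev P N (fun _ => a) = a • P ^ N := by
  induction N with
  | zero => simp [ev]
  | succ N ih => rw [ev_left P N (fun _ => a) (fun _ => a) (fun _ _ => rfl), ih, pow_succ']; simp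

theorem ev_mul (P : Al G) (N M : ℕ) : ∀ f f' : List G → ℝ,
    ev P (N + M) (fun y => f (y.take N) * f' (y.drop N)) = ev P N f * ev P M f' := by
  induction N with
  | zero =>
    intro f f'
    simp only [List.take_zero, List.drop_zero, ev, Nat.zero_add]
    rw [ev_smul]; simp
  | succ N ih =>
    intro f f'
    rw [show N + 1 + M = (N + M) + 1 by ring]
    simp only [ev, List.take_succ_cons, List.drop_succ_cons]
    rw [Finset.sum_mul]
    refine Finset.sum_congr rfl fun g _ => ?_
    rw [ih (fun y => f (g :: y)) f', smul_mul_assoc, mul_assoc]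

/-! ### Bounded densities -/

/-- `X` has a density bounded by `b` with respect to `L` samples of `P`. -/
def Bdd (P : Al G) (L : ℕ) (b : ℝ) (X : Al G) : Prop :=
  ∃ f : List G → ℝ, ev P L f = X ∧ ∀ y, |f y| ≤ b

theorem Bdd.nonneg {P : Al G} {L : ℕ} {b : ℝ} {X : Al G} (h : Bdd P L b X) : 0 ≤ b := by
  obtain ⟨f, _, h2⟩ := h
  exact (abs_nonneg _).trans (h2 [])

theorem Bdd.mono {P : Al G} {L : ℕ} {b b' : ℝ} {X : Al G} (h : Bdd P L b X) (hb : b ≤ b') :
    Bdd P L b' X := by
  obtain ⟨f, h1, h2⟩ := h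
  exact ⟨f, h1, fun y => (h2 y).trans hb⟩

theorem Bdd.pow (P : Al G) (L : ℕ) : Bdd P L 1 (P ^ L) :=
  ⟨fun _ => 1, by rw [ev_const, one_smul], fun _ => by simp⟩

theorem Bdd.zero (P : Al G) (L : ℕ) : Bdd P L 0 (0 : Al G) :=
  ⟨fun _ => 0, by rw [ev_const, zero_smul], fun _ => by simp⟩

theorem Bdd.add {P : Al G} {L : ℕ} {b b' : ℝ} {X X' : Al G} (h : Bdd P L b X)
    (h' : Bdd P L b' X') : Bdd P L (b + b') (X + X') := by
  obtain ⟨f, h1, h2⟩ := h
  obtain ⟨f', h1', h2'⟩ := h'
  exact ⟨fun y => f y + f' y, by rw [ev_add, h1, h1'],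
    fun y => (abs_add_le _ _).trans (add_le_add (h2 y) (h2' y))⟩

theorem Bdd.smul {P : Al G} {L : ℕ} {b : ℝ} {X : Al G} (h : Bdd P L b X) (c : ℝ) :
    Bdd P L (|c| * b) (c • X) := by
  obtain ⟨f, h1, h2⟩ := h
  exact ⟨fun y => c * f y, by rw [ev_smul, h1],
    fun y => by rw [abs_mul]; exact mul_le_mul_of_nonneg_left (h2 y) (abs_nonneg c)⟩

theorem Bdd.neg {P : Al G} {L : ℕ} {b : ℝ} {X : Al G} (h : Bdd P L b X) : Bdd P L b (-X) := by
  have := h.smul (-1)
  simpa using this

theorem Bdd.sub {P : Al G} {L : ℕ} {b b' : ℝ} {X X' : Al G} (h : Bdd P L b X)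
    (h' : Bdd P L b' X') : Bdd P L (b + b') (X - X') := by
  rw [sub_eq_add_neg]; exact h.add h'.neg

theorem Bdd.mul {P : Al G} {L L' : ℕ} {b b' : ℝ} {X X' : Al G} (h : Bdd P L b X)
    (h' : Bdd P L' b' X') : Bdd P (L + L') (b * b') (X * X') := by
  have hb := h.nonneg
  obtain ⟨f, h1, h2⟩ := h
  obtain ⟨f', h1', h2'⟩ := h'
  refine ⟨fun y => f (y.take L) * f' (y.drop L), by rw [ev_mul, h1, h1'], fun y => ?_⟩
  rw [abs_mul]
  exact mul_le_mul (h2 _) (h2' _) (abs_nonneg _) hb

theorem Bdd.ab {P : Al G} (hP : Nn P) {L : ℕ} {b : ℝ} {X : Al G} (h : Bdd P L b X) :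
    Ab X (b • P ^ L) := by
  obtain ⟨f, h1, h2⟩ := h
  rw [← h1, ← ev_const]
  exact ev_ab hP L h2

theorem Bdd.cast {P : Al G} {L L' : ℕ} {b : ℝ} {X : Al G} (h : Bdd P L b X) (hL : L = L') :
    Bdd P L' b X := hL ▸ h

/-- The density of `τ` when `|τ| ≤ ζ P`. -/
theorem exists_density {P τ : Al G} {ζ : ℝ} (hζ : 0 ≤ ζ) (hP : Nn P) (h : Ab τ (ζ • P)) :
    ∃ s : G → ℝ, (∀ g, τ.coeff g = P.coeff g * s g) ∧ ∀ g, |s g| ≤ ζ := by
  rw [Ab.iff] at h
  refine ⟨fun g => τ.coeff g / P.coeff g, fun g => ?_, fun g => ?_⟩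
  · have := h g
    rcases eq_or_ne (P.coeff g) 0 with h0 | h0
    · simp only [MonoidAlgebra.coeff_smul, Finsupp.smul_apply, smul_eq_mul, h0, mul_zero] at this
      have h1 : τ.coeff g = 0 := abs_eq_zero.mp (le_antisymm this (abs_nonneg _))
      rw [h0, h1]; simp
    · field_simp
  · have := h g
    rcases eq_or_ne (P.coeff g) 0 with h0 | h0
    · simp only [h0, div_zero, abs_zero]; exact hζ
    · have hp : 0 < P.coeff g := lt_of_le_of_ne (hP g) (Ne.symm h0)
      simp only [MonoidAlgebra.coeff_smul, Finsupp.smul_apply, smul_eq_mul] at this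
      rw [abs_div, abs_of_pos hp, div_le_iff₀ hp]; exact this

theorem Bdd.one_of_ab {P τ : Al G} {ζ : ℝ} (hζ : 0 ≤ ζ) (hP : Nn P) (h : Ab τ (ζ • P)) :
    Bdd P 1 ζ τ := by
  obtain ⟨s, h1, h2⟩ := exists_density hζ hP h
  refine ⟨fun y => match y with | [] => 0 | g :: _ => s g, ?_, fun y => ?_⟩
  · rw [ev_cons P 0 (fun _ => 1) s τ h1 _ (fun g y => by simp)]
    simp [ev]
  · cases y with
    | nil => simpa using hζ
    | cons g y => exact h2 g

/-! ### Subgaussian densities -/

/-- `f` is subgaussian with variance proxy `V`. -/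
def SG (P : Al G) (N : ℕ) (f : List G → ℝ) (V : ℝ) : Prop :=
  ∀ θ : ℝ, ex P N (fun y => Real.exp (θ * f y)) ≤ Real.exp (θ ^ 2 * V / 2)

theorem SG.mono {P : Al G} {N : ℕ} {f : List G → ℝ} {V V' : ℝ} (h : SG P N f V) (hV : V ≤ V') :
    SG P N f V' := fun θ => (h θ).trans (Real.exp_le_exp.mpr (by nlinarith [sq_nonneg θ]))

theorem hoeffding {ι : Type*} (S : Finset ι) (p s : ι → ℝ) {ζ : ℝ} (hp : ∀ i, 0 ≤ p i)
    (h1 : ∑ i ∈ S, p i = 1) (h0 : ∑ i ∈ S, p i * s i = 0) (hs : ∀ i, |s i| ≤ ζ) (t : ℝ) :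
    ∑ i ∈ S, p i * Real.exp (t * s i) ≤ Real.exp (t ^ 2 * ζ ^ 2 / 2) := by
  rcases eq_or_ne ζ 0 with hz | hz
  · have : ∀ i, s i = 0 := fun i => abs_eq_zero.mp (le_antisymm (by rw [← hz]; exact hs i)
      (abs_nonneg _))
    simp only [this, mul_zero, Real.exp_zero, mul_one, h1, hz]
    simp
  · have hS : S.Nonempty := by
      rcases S.eq_empty_or_nonempty with h | h
      · rw [h] at h1; simp at h1
      · exact h
    obtain ⟨i0, _⟩ := hS
    have hζ : 0 < ζ := lt_of_le_of_ne ((abs_nonneg _).trans (hs i0)) (Ne.symm hz)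
    have h2 : ∀ i ∈ S, p i * Real.exp (t * s i) ≤
        p i * Real.cosh (ζ * t) + (p i * s i) * (Real.sinh (ζ * t) / ζ) := by
      intro i _
      have h3 : |s i / ζ| ≤ 1 := by rw [abs_div, abs_of_pos hζ, div_le_one hζ]; exact hs i
      have h4 := Real.exp_mul_le_cosh_add_mul_sinh h3 (ζ * t)
      have e : s i / ζ * (ζ * t) = t * s i := by field_simp
      rw [e] at h4
      have := mul_le_mul_of_nonneg_left h4 (hp i)
      refine this.trans (le_of_eq ?_)
      ring
    refine (Finset.sum_le_sum h2).trans ?_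
    rw [Finset.sum_add_distrib, ← Finset.sum_mul, ← Finset.sum_mul, h1, h0, zero_mul, add_zero,
      one_mul]
    refine (Real.cosh_le_exp_half_sq _).trans (le_of_eq ?_)
    congr 1; ring

theorem SG.cons {P : Al G} (hP : Prob P) {N : ℕ} {f : List G → ℝ} {V b ζ : ℝ} (h : SG P N f V)
    (s : G → ℝ) (g : List G → ℝ) (hs : ∀ a, |s a| ≤ ζ)
    (hs0 : ∑ a ∈ P.coeff.support, P.coeff a * s a = 0) (hg : ∀ y, |g y| ≤ b)
    (F : List G → ℝ) (hF : ∀ a y, F (a :: y) = f y + s a * g y) :
    SG P (N + 1) F (V + ζ ^ 2 * b ^ 2) := by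
  intro θ
  simp only [ex]
  have e1 : ∑ a ∈ P.coeff.support, P.coeff a * ex P N (fun y => Real.exp (θ * F (a :: y)))
      = ex P N (fun y => Real.exp (θ * f y) *
        ∑ a ∈ P.coeff.support, P.coeff a * Real.exp (θ * g y * s a)) := by
    have : (fun y => Real.exp (θ * f y) *
        ∑ a ∈ P.coeff.support, P.coeff a * Real.exp (θ * g y * s a))
        = fun y => ∑ a ∈ P.coeff.support, P.coeff a * Real.exp (θ * F (a :: y)) := by
      funext y
      rw [Finset.mul_sum]
      refine Finset.sum_congr rfl fun a _ => ?_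
      rw [hF, mul_add, Real.exp_add]
      have : θ * g y * s a = θ * (s a * g y) := by ring
      rw [this]; ring
    rw [this, ex_sum]
    refine Finset.sum_congr rfl fun a _ => ?_
    have := ex_lin P N (P.coeff a) 0 (fun y => Real.exp (θ * F (a :: y))) (fun _ => 0)
    simp only [mul_zero, add_zero, zero_mul] at this
    rw [← this]
  rw [e1]
  have e2 : ∀ y, Real.exp (θ * f y) *
      ∑ a ∈ P.coeff.support, P.coeff a * Real.exp (θ * g y * s a)
      ≤ Real.exp (θ * f y) * Real.exp (θ ^ 2 * (ζ ^ 2 * b ^ 2) / 2) := by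
    intro y
    apply mul_le_mul_of_nonneg_left _ (Real.exp_pos _).le
    refine (hoeffding P.coeff.support P.coeff s hP.1 ?_ hs0 hs (θ * g y)).trans ?_
    · rw [← mass_eq, hP.2]
    · apply Real.exp_le_exp.mpr
      have hb : (g y) ^ 2 ≤ b ^ 2 := sq_le_sq.mpr (by
        rw [abs_of_nonneg ((abs_nonneg _).trans (hg y))]; exact hg y)
      have : (θ * g y) ^ 2 * ζ ^ 2 ≤ θ ^ 2 * (ζ ^ 2 * b ^ 2) := by
        have h5 : 0 ≤ θ ^ 2 * ζ ^ 2 := by positivity
        have := mul_le_mul_of_nonneg_left hb h5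
        calc (θ * g y) ^ 2 * ζ ^ 2 = θ ^ 2 * ζ ^ 2 * g y ^ 2 := by ring
          _ ≤ θ ^ 2 * ζ ^ 2 * b ^ 2 := this
          _ = _ := by ring
      linarith
  refine (ex_mono hP.1 N e2).trans ?_
  rw [ex_mul_const]
  calc ex P N (fun y => Real.exp (θ * f y)) * Real.exp (θ ^ 2 * (ζ ^ 2 * b ^ 2) / 2)
      ≤ Real.exp (θ ^ 2 * V / 2) * Real.exp (θ ^ 2 * (ζ ^ 2 * b ^ 2) / 2) :=
        mul_le_mul_of_nonneg_right (h θ) (Real.exp_pos _).le
    _ = _ := by rw [← Real.exp_add]; congr 1; ring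

theorem SG.tail_cons {P : Al G} (hP : Prob P) {N : ℕ} {f : List G → ℝ} {V : ℝ} (h : SG P N f V)
    (F : List G → ℝ) (hF : ∀ a y, F (a :: y) = f y) : SG P (N + 1) F V := by
  have := h.cons hP (ζ := 0) (b := 0) (fun _ => 0) (fun _ => 0) (by simp) (by simp) (by simp) F
    (by intro a y; rw [hF]; simp)
  simpa using this

theorem SG.zero {P : Al G} (hP : Prob P) (N : ℕ) {V : ℝ} (hV : 0 ≤ V) : SG P N (fun _ => 0) V := by
  intro θ
  simp only [mul_zero, Real.exp_zero]
  rw [ex_const hP]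
  exact Real.one_le_exp (by positivity)

theorem SG.add {P : Al G} (hP : Prob P) {N : ℕ} {f f' : List G → ℝ} {a a' s : ℝ} (ha : 0 < a)
    (ha' : 0 < a') (h : SG P N f (a ^ 2 * s)) (h' : SG P N f' (a' ^ 2 * s)) :
    SG P N (fun y => f y + f' y) ((a + a') ^ 2 * s) := by
  intro θ
  have hl : 0 < a / (a + a') := by positivity
  have hl' : 0 < a' / (a + a') := by positivity
  have hll : a / (a + a') + a' / (a + a') = 1 := by field_simp
  set l := a / (a + a') with hldef
  set l' := a' / (a + a') with hldef'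
  have h1 : ∀ y, Real.exp (θ * (f y + f' y)) ≤
      l * Real.exp (θ / l * f y) + l' * Real.exp (θ / l' * f' y) := by
    intro y
    have := convexOn_exp.2 (Set.mem_univ (θ / l * f y)) (Set.mem_univ (θ / l' * f' y)) hl.le
      hl'.le hll
    simp only [smul_eq_mul] at this
    refine le_trans (le_of_eq ?_) this
    congr 1
    field_simp
  refine (ex_mono hP.1 N h1).trans ?_
  rw [ex_lin P N l l' (fun y => Real.exp (θ / l * f y)) (fun y => Real.exp (θ / l' * f' y))]
  have h2 := h (θ / l)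
  have h3 := h' (θ / l')
  have e2 : (θ / l) ^ 2 * (a ^ 2 * s) / 2 = θ ^ 2 * ((a + a') ^ 2 * s) / 2 := by
    rw [hldef]; field_simp
  have e3 : (θ / l') ^ 2 * (a' ^ 2 * s) / 2 = θ ^ 2 * ((a + a') ^ 2 * s) / 2 := by
    rw [hldef']; field_simp
  rw [e2] at h2
  rw [e3] at h3
  calc _ ≤ l * Real.exp (θ ^ 2 * ((a + a') ^ 2 * s) / 2)
        + l' * Real.exp (θ ^ 2 * ((a + a') ^ 2 * s) / 2) :=
        add_le_add (mul_le_mul_of_nonneg_left h2 hl.le) (mul_le_mul_of_nonneg_left h3 hl'.le)
    _ = _ := by rw [← add_mul, hll, one_mul]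

theorem SG.smul {P : Al G} {N : ℕ} {f : List G → ℝ} {V : ℝ} (h : SG P N f V) (c : ℝ) :
    SG P N (fun y => c * f y) (c ^ 2 * V) := by
  intro θ
  have := h (θ * c)
  have e : (fun y => Real.exp (θ * c * f y)) = fun y => Real.exp (θ * (c * f y)) := by
    funext y; congr 1; ring
  rw [e] at this
  refine this.trans (le_of_eq ?_)
  congr 1; ring

/-- The tail bound. -/
theorem SG.small {P : Al G} (hP : Prob P) {N : ℕ} {f : List G → ℝ} {V b l : ℝ}
    (h : SG P N f V) (hV0 : 0 < V) (hl : 0 ≤ l) (hb : ∀ y, |f y| ≤ b) :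
    Small (ev P N f) (P ^ N) (l * √V) (b * (2 * Real.exp (-(l ^ 2 / 2)))) := by
  have hb0 : 0 ≤ b := (abs_nonneg _).trans (hb [])
  have hs : 0 < √V := Real.sqrt_pos.mpr hV0
  have hss : √V * √V = V := Real.mul_self_sqrt hV0.le
  set w : List G → ℝ := fun y => b * (Real.exp (-(l ^ 2)) * (Real.exp (l / √V * f y) +
    Real.exp (-(l / √V) * f y))) with hw
  refine ⟨ev P N w, ev_nn hP.1 N (fun y => by positivity), ?_, ?_⟩
  · rw [mass_ev]
    have e : w = fun y => (b * Real.exp (-(l ^ 2))) * Real.exp (l / √V * f y)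
        + (b * Real.exp (-(l ^ 2))) * Real.exp (-(l / √V) * f y) := by
      funext y; simp only [hw]; ring
    rw [e, ex_lin P N _ _ (fun y => Real.exp (l / √V * f y))
      (fun y => Real.exp (-(l / √V) * f y))]
    have h1 := h (l / √V)
    have h2 := h (-(l / √V))
    have e1 : (l / √V) ^ 2 * V / 2 = l ^ 2 / 2 := by
      rw [div_pow, sq (√V), hss]; field_simp
    have e2 : (-(l / √V)) ^ 2 * V / 2 = l ^ 2 / 2 := by rw [neg_sq, e1]
    rw [e1] at h1
    rw [e2] at h2
    have h3 : 0 ≤ b * Real.exp (-(l ^ 2)) := by positivity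
    calc _ ≤ b * Real.exp (-(l ^ 2)) * Real.exp (l ^ 2 / 2)
          + b * Real.exp (-(l ^ 2)) * Real.exp (l ^ 2 / 2) :=
          add_le_add (mul_le_mul_of_nonneg_left h1 h3) (mul_le_mul_of_nonneg_left h2 h3)
      _ = b * (2 * (Real.exp (-(l ^ 2)) * Real.exp (l ^ 2 / 2))) := by ring
      _ = _ := by rw [← Real.exp_add]; congr 3; ring
  · rw [← ev_const, ← ev_add]
    refine ev_ab hP.1 N fun y => ?_
    by_cases hy : |f y| ≤ l * √V
    · have : 0 ≤ w y := by positivity
      linarith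
    · rw [not_le] at hy
      have h4 : 1 ≤ Real.exp (-(l ^ 2)) * (Real.exp (l / √V * f y) +
          Real.exp (-(l / √V) * f y)) := by
        rw [mul_add, ← Real.exp_add, ← Real.exp_add]
        rcases le_total 0 (f y) with h0 | h0
        · rw [abs_of_nonneg h0] at hy
          have : l ^ 2 ≤ l / √V * f y := by
            rw [div_mul_eq_mul_div, le_div_iff₀ hs]
            nlinarith
          have h6 : 1 ≤ Real.exp (-l ^ 2 + l / √V * f y) := Real.one_le_exp (by linarith)
          have := Real.exp_pos (-l ^ 2 + -(l / √V) * f y)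
          linarith
        · rw [abs_of_nonpos h0] at hy
          have : l ^ 2 ≤ -(l / √V) * f y := by
            rw [neg_mul, ← mul_neg, div_mul_eq_mul_div, le_div_iff₀ hs]
            nlinarith
          have h6 : 1 ≤ Real.exp (-l ^ 2 + -(l / √V) * f y) := Real.one_le_exp (by linarith)
          have := Real.exp_pos (-l ^ 2 + l / √V * f y)
          linarith
      have h5 : b ≤ w y := by
        have := mul_le_mul_of_nonneg_left h4 hb0
        linarith
      have := hb y
      have h7 : 0 ≤ l * √V := by positivity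
      linarith

end

end Vale.Agent.P321.SP
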