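import Vale.Agent.Lib.P321.SP.Law
import Vale.Agent.Lib.P321.TwoPoint
import Vale.Agent.Lib.P321.ListEx

/-!
P321, superpolynomial lower bound: from closeness of the trace laws to the sample complexity.
-/

namespace Vale.Agent.P321.SP

open Finset

/-- Integral of `φ` against a measure on words. -/
noncomputable def evw (φ : List Bool → ℝ) (X : Al Bw) : ℝ :=
  X.coeff.sum fun g a => a * φ (FreeMonoid.toList g)

theorem evw_add (φ : List Bool → ℝ) (X Y : Al Bw) : evw φ (X + Y) = evw φ X + evw φ Y := by
  unfold evw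
  rw [MonoidAlgebra.coeff_add]
  exact Finsupp.sum_add_index' (fun _ => by simp) (fun _ _ _ => by ring)

theorem evw_smul (φ : List Bool → ℝ) (c : ℝ) (X : Al Bw) : evw φ (c • X) = c * evw φ X := by
  unfold evw
  rw [MonoidAlgebra.coeff_smul, Finsupp.sum_smul_index (fun _ => by simp), Finsupp.mul_sum]
  congr 1
  funext g a
  ring

theorem evw_single (φ : List Bool → ℝ) (g : Bw) (a : ℝ) :
    evw φ (MonoidAlgebra.single g a) = a * φ (FreeMonoid.toList g) := by
  unfold evw
  rw [MonoidAlgebra.coeff_single]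
  exact Finsupp.sum_single_index (by simp)

theorem evw_shift (φ : List Bool → ℝ) (b : Bool) (X : Al Bw) :
    evw φ (MonoidAlgebra.single (FreeMonoid.of b) 1 * X) = evw (fun w => φ (b :: w)) X := by
  induction X using MonoidAlgebra.induction_linear with
  | zero => rw [mul_zero]; simp [evw]
  | add X Y h1 h2 => rw [mul_add, evw_add, evw_add, h1, h2]
  | single g a =>
    rw [MonoidAlgebra.single_mul_single, evw_single, evw_single, FreeMonoid.toList_of_mul, one_mul]

/-- The measure `dl q x` represents the expectation functional. -/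
theorem evw_dl (q : ℝ) (x : Bw) (φ : List Bool → ℝ) :
    evw φ (dl q x) = Ex q (FreeMonoid.toList x) φ := by
  induction x using FreeMonoid.recOn generalizing φ with
  | one =>
    rw [map_one, MonoidAlgebra.one_def, evw_single, one_mul]
    rfl
  | of_mul b x ih =>
    rw [map_mul, FreeMonoid.toList_of_mul]
    have e : dl q (FreeMonoid.of b) = bit q b := by
      rw [dl, FreeMonoid.lift_eval_of]
    rw [e, bit, add_mul, evw_add, smul_mul_assoc, evw_smul, one_mul, smul_mul_assoc, evw_smul,
      evw_shift, ih, ih]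
    rfl

theorem evw_eq_sum (φ : List Bool → ℝ) (X : Al Bw) (s : Finset Bw) (hs : X.coeff.support ⊆ s) :
    evw φ X = ∑ i : {g // g ∈ s}, X.coeff i.1 * φ (FreeMonoid.toList i.1) := by
  unfold evw
  rw [Finsupp.sum, sum_subset hs (fun g _ hg => by
    rw [Finsupp.notMem_support_iff] at hg
    rw [hg, zero_mul])]
  exact (sum_coe_sort s (fun g => X.coeff g * φ (FreeMonoid.toList g))).symm

/-- pointwise Hellinger estimate -/
theorem hell_pt {a b η w : ℝ} (ha : 0 ≤ a) (hb : 0 ≤ b) (hη : 0 ≤ η) (hw : 0 ≤ w)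
    (h : |a - b| ≤ η * b + w) : (√b - √a) ^ 2 ≤ 4 * η ^ 2 * b + 4 * w := by
  have h2 := Real.sq_sqrt ha
  have h3 := Real.sq_sqrt hb
  have s1 := Real.sqrt_nonneg a
  have s2 := Real.sqrt_nonneg b
  set A := √a
  set B := √b
  have hf : a - b = (A - B) * (A + B) := by rw [← h2, ← h3]; ring
  have habs : |a - b| = |A - B| * (A + B) := by
    rw [hf, abs_mul, abs_of_nonneg (by linarith : 0 ≤ A + B)]
  have hAB : |A - B| ≤ A + B := by rw [abs_le]; constructor <;> linarith
  have hsq : (B - A) ^ 2 = |A - B| * |A - B| := by rw [← sq, sq_abs]; ring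
  rcases le_total (η * b) w with h4 | h4
  · have h5 : (B - A) ^ 2 ≤ |a - b| := by
      rw [hsq, habs]
      exact mul_le_mul_of_nonneg_left hAB (abs_nonneg _)
    nlinarith [mul_nonneg (sq_nonneg η) hb]
  · have h5 : |A - B| * (A + B) ≤ 2 * η * B ^ 2 := by
      rw [← habs, h3]; linarith
    rcases s2.eq_or_lt with h0 | h0
    · have hb0 : b = 0 := by rw [← h3, ← h0]; norm_num
      rw [hb0, mul_zero] at h4
      have hw0 : w = 0 := le_antisymm h4 hw
      rw [hb0, hw0, mul_zero, add_zero, sub_zero] at h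
      have h6 : a = 0 := by
        have := abs_nonpos_iff.mp h
        exact this
      have hA0 : A = 0 := by
        have : A ^ 2 = 0 := by rw [h2, h6]
        exact pow_eq_zero_iff (two_ne_zero) |>.mp this
      rw [← h0, hA0, hb0, hw0]
      norm_num
    · have h6 : |A - B| ≤ 2 * η * B := by
        have h7 : |A - B| * B ≤ 2 * η * B * B := by
          calc |A - B| * B ≤ |A - B| * (A + B) :=
                mul_le_mul_of_nonneg_left (by linarith) (abs_nonneg _)
            _ ≤ 2 * η * B ^ 2 := h5
            _ = 2 * η * B * B := by ring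
        exact le_of_mul_le_mul_right h7 h0
      have h8 : (B - A) ^ 2 ≤ (2 * η * B) * (2 * η * B) := by
        rw [hsq]
        exact mul_le_mul h6 h6 (abs_nonneg _) (by positivity)
      have h9 : (2 * η * B) * (2 * η * B) = 4 * η ^ 2 * b := by rw [← h3]; ring
      rw [h9] at h8
      linarith

theorem close_of_small {q : ℝ} (hq : 0 ≤ q) (hq1 : q ≤ 1) {x y : Bw} {η β : ℝ} (hη : 0 ≤ η)
    (h : Small (dl q y - dl q x) (dl q x) η β) :
    Close (Ex q (FreeMonoid.toList x)) (Ex q (FreeMonoid.toList y)) (2 * η ^ 2 + 2 * β) := by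
  classical
  obtain ⟨ω, hω, hβ, hab⟩ := h
  rw [Ab.iff] at hab
  have hX := dl_prob hq hq1 x
  have hY := dl_prob hq hq1 y
  set X := dl q x with hXdef
  set Y := dl q y with hYdef
  set s : Finset Bw := X.coeff.support ∪ Y.coeff.support with hs
  refine ⟨{g // g ∈ s}, inferInstance, fun i => FreeMonoid.toList i.1, fun i => X.coeff i.1,
    fun i => Y.coeff i.1, fun i => hX.1 _, fun i => hY.1 _, fun φ => ?_, fun φ => ?_, ?_⟩
  · rw [← evw_dl, evw_eq_sum φ _ s subset_union_left]
  · rw [← evw_dl, evw_eq_sum φ _ s subset_union_right]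
  · have hpt : ∀ i : {g // g ∈ s}, (√(X.coeff i.1) - √(Y.coeff i.1)) ^ 2 ≤
        4 * η ^ 2 * X.coeff i.1 + 4 * ω.coeff i.1 := by
      intro i
      have h1 := hab i.1
      simp only [MonoidAlgebra.coeff_sub, MonoidAlgebra.coeff_add, MonoidAlgebra.coeff_smul,
        Finsupp.coe_sub, Finsupp.coe_add, Finsupp.coe_smul, Pi.sub_apply, Pi.add_apply,
        Pi.smul_apply, smul_eq_mul] at h1
      exact hell_pt (hY.1 _) (hX.1 _) hη (hω _) h1
    have hsum := sum_le_sum (s := univ) (fun i _ => hpt i)
    rw [sum_add_distrib, ← mul_sum, ← mul_sum] at hsum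
    have e1 : ∑ i : {g // g ∈ s}, X.coeff i.1 = 1 := by
      rw [sum_coe_sort s (fun g => X.coeff g), ← hX.2, mass_eq]
      refine (sum_subset subset_union_left fun g _ hg => ?_).symm
      rwa [Finsupp.notMem_support_iff] at hg
    have e2 : ∑ i : {g // g ∈ s}, ω.coeff i.1 ≤ β := by
      rw [sum_coe_sort s (fun g => ω.coeff g)]
      refine le_trans ?_ hβ
      rw [mass_eq]
      calc ∑ g ∈ s, ω.coeff g ≤ ∑ g ∈ s ∪ ω.coeff.support, ω.coeff g :=
            sum_le_sum_of_subset_of_nonneg subset_union_left (fun g _ _ => hω g)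
        _ = ∑ g ∈ ω.coeff.support, ω.coeff g := by
            refine (sum_subset subset_union_right fun g _ hg => ?_).symm
            rwa [Finsupp.notMem_support_iff] at hg
    rw [e1] at hsum
    linarith

/-- Closeness of two trace laws gives a lower bound on the number of traces. -/
theorem recon_lower {q : ℝ} (hq : 0 < q) (hq1 : q < 1) {n m : ℕ} {x y : Bw} (hxy : x ≠ y)
    (hl : x.length = y.length) (hn : x.length ≤ n) {η β : ℝ} (hη : 0 ≤ η)
    (h : Small (dl q y - dl q x) (dl q x) η β) (hr : Reconstructs q n m) :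
    1 / 18 ≤ m * (2 * η ^ 2 + 2 * β) := by
  set z : Bw := FreeMonoid.ofList (List.replicate (n - x.length) true) with hz
  have hzl : z.length = n - x.length := by
    rw [hz]
    exact List.length_replicate
  have h2 : Small (dl q (y * z) - dl q (x * z)) (dl q (x * z)) η β := by
    rw [map_mul, map_mul, ← sub_mul]
    exact h.mul_right (dl_prob hq.le hq1.le z)
  have hc := close_of_small hq.le hq1.le hη h2
  have hlx : (FreeMonoid.toList (x * z)).length = n := by
    change (x * z).length = n
    rw [FreeMonoid.length_mul, hzl]; omega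
  have hly : (FreeMonoid.toList (y * z)).length = n := by
    change (y * z).length = n
    rw [FreeMonoid.length_mul, hzl]; omega
  obtain ⟨fx, hfx⟩ : ∃ f : Fin n → Bool, List.ofFn f = FreeMonoid.toList (x * z) := by
    rw [← hlx]; exact ⟨_, List.ofFn_get _⟩
  obtain ⟨fy, hfy⟩ : ∃ f : Fin n → Bool, List.ofFn f = FreeMonoid.toList (y * z) := by
    rw [← hly]; exact ⟨_, List.ofFn_get _⟩
  have hne : fx ≠ fy := by
    intro h
    rw [h] at hfx
    rw [hfx] at hfy
    exact hxy (mul_right_cancel (FreeMonoid.toList.injective hfy))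
  have hc2 : Close (ExF q fx) (ExF q fy) (2 * η ^ 2 + 2 * β) := by
    refine hc.congr (fun φ => ?_) (fun φ => ?_)
    · rw [ExF_eq, hfx]
    · rw [ExF_eq, hfy]
  exact two_point fx fy hne hc2 hr

end Vale.Agent.P321.SP
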