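import Vale.Agent.Lib.P321.SP.Base
import Vale.Agent.Lib.P321.SP.Recon
import Vale.Agent.Lib.P321.Finite

/-!
P321, superpolynomial lower bound: conclusion.
-/

namespace Vale.Agent.P321.SP

open Finset Filter

/-- For every exponent `K`, reconstruction of strings of length `n` needs at least `n ^ K` traces,
for all large `n`. -/
theorem superpoly {q : ℝ} (hq : 0 < q) (hq1 : q < 1) (K : ℝ) :
    ∀ᶠ n : ℕ in atTop, (n : ℝ) ^ K ≤ (sampleComplexity q n : ℝ) := by
  obtain ⟨C0, c, -, -, hG⟩ := Good.all hq hq1 (Good.base hq hq1) (|K| + 1) (2 * (|K| + 1))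
  have h1 := (tendsto_natCast_atTop_atTop (R := ℝ)).eventually hG
  have h2 : ∀ᶠ n : ℕ in atTop, (72 : ℝ) * (n : ℝ) ^ (2 * |K|) ≤ (n : ℝ) ^ (2 * |K| + 1) := by
    have := ((BO.rpow (2 * |K|)).const_mul 72).lt_rpow (show 2 * |K| < 2 * |K| + 1 by linarith)
    exact (tendsto_natCast_atTop_atTop (R := ℝ)).eventually this
  filter_upwards [h1, h2, eventually_ge_atTop 2] with n ⟨x, y, a1, a2, a3, _, a5⟩ hn hn2
  have hmem : Reconstructs q n (sampleComplexity q n) :=
    Nat.sInf_mem (s := {m | Reconstructs q n m}) (reconstructs_exists hq.le hq1 n)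
  have hn1 : (1 : ℝ) ≤ n := by exact_mod_cast (by omega : 1 ≤ n)
  have hn0 : (0 : ℝ) < n := by linarith
  have h3 := recon_lower hq hq1 a1 a2.symm (by exact_mod_cast a3)
    (Real.rpow_nonneg hn0.le _) a5 hmem
  generalize (sampleComplexity q n : ℝ) = T at h3 ⊢
  have e1 : ((n : ℝ) ^ (-(|K| + 1))) ^ 2 = (n : ℝ) ^ (-(2 * (|K| + 1))) := by
    rw [← Real.rpow_natCast, ← Real.rpow_mul hn0.le]
    congr 1; push_cast; ring
  rw [e1] at h3
  have hX : 0 < (n : ℝ) ^ (-(2 * (|K| + 1))) := Real.rpow_pos_of_pos hn0 _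
  have e2 : (n : ℝ) ^ (-(2 * (|K| + 1))) * (n : ℝ) ^ (2 * |K| + 1) ≤ 1 := by
    rw [← Real.rpow_add hn0]
    exact Real.rpow_le_one_of_one_le_of_nonpos hn1 (by linarith)
  have e3 : 72 * (n : ℝ) ^ (2 * |K|) * (n : ℝ) ^ (-(2 * (|K| + 1))) ≤ 1 :=
    (mul_le_mul_of_nonneg_right hn hX.le).trans (by linarith)
  have e4 : (n : ℝ) ^ K ≤ (n : ℝ) ^ (2 * |K|) := by
    apply Real.rpow_le_rpow_of_exponent_le hn1
    have := le_abs_self K
    have := abs_nonneg K
    linarith
  refine e4.trans ?_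
  by_contra hc
  rw [not_le] at hc
  have e5 := mul_lt_mul_of_pos_right hc hX
  nlinarith only [h3, e5, e3, hX]

/-- The sample complexity of trace reconstruction grows faster than every polynomial. -/
theorem superpoly_tendsto {q : ℝ} (hq : 0 < q) (hq1 : q < 1) (K : ℝ) :
    Tendsto (fun n : ℕ => (sampleComplexity q n : ℝ) / (n : ℝ) ^ K) atTop atTop := by
  have h1 : Tendsto (fun n : ℕ => (n : ℝ)) atTop atTop := tendsto_natCast_atTop_atTop
  refine tendsto_atTop_mono' atTop ?_ h1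
  filter_upwards [superpoly hq hq1 (K + 1), eventually_ge_atTop 1] with n hn hn1
  have hn0 : (0 : ℝ) < n := by exact_mod_cast hn1
  rw [le_div_iff₀ (Real.rpow_pos_of_pos hn0 _)]
  rw [Real.rpow_add hn0, Real.rpow_one] at hn
  linarith

end Vale.Agent.P321.SP
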