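import Vale.Agent.Lib.P321.SP.Param

/-!
P321, superpolynomial lower bound: iteration of the rounds.
-/

namespace Vale.Agent.P321.SP

open Finset Filter

/-- At every large scale `N` there are two words of length at most `N` with hiding at scale `N`,
whose trace laws are `N ^ (-k)` close. -/
def Good (q k : ℝ) : Prop :=
  ∀ B : ℝ, ∃ C0 c : ℝ, 1 ≤ C0 ∧ 0 < c ∧ ∀ᶠ N : ℝ in atTop, ∃ x y : Bw, x ≠ y ∧
    y.length = x.length ∧ (x.length : ℝ) ≤ N ∧ (∃ m : ℕ, (m : ℝ) ≤ C0 * N ∧ Hid (dl q x) m c) ∧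
    Small (dl q y - dl q x) (dl q x) (N ^ (-k)) (N ^ (-B))

theorem Good.mono {q k k' : ℝ} (hq : 0 < q) (hq1 : q < 1) (h : Good q k) (hk : k' ≤ k) :
    Good q k' := by
  intro B
  obtain ⟨C0, c, h1, h2, h3⟩ := h B
  refine ⟨C0, c, h1, h2, ?_⟩
  filter_upwards [h3, eventually_ge_atTop (1 : ℝ)] with N ⟨x, y, a1, a2, a3, a4, a5⟩ hN
  exact ⟨x, y, a1, a2, a3, a4, a5.mono (dl_prob hq.le hq1.le x).1
    (Real.rpow_le_rpow_of_exponent_le hN (by linarith)) le_rfl⟩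

/-- One round, from the data at all scales to `Good`. -/
theorem step {q : ℝ} (hq : 0 < q) (hq1 : q < 1) {a e ξ b k : ℝ} (ha : 0 < a)
    (he : ξ ≤ e) (ha2 : ξ ≤ 2 * a) (hξ : 1 + b / 2 < ξ) (hξ2 : 1.95 ≤ a + ξ) (hb : 0 < b)
    (hb1 : b ≤ 1 / 50) (hk : k * (4 + 3 * b) < 2 * (a + ξ) + 19 / 100)
    (h : ∀ B : ℝ, ∃ C0 c : ℝ, 1 ≤ C0 ∧ 0 < c ∧ ∀ᶠ N : ℝ in atTop, ∃ p yp ym : Bw,
      Dat q N C0 c a e B p yp ym) : Good q k := by
  intro B''
  set s : ℝ := 4 + 3 * b with hs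
  have hs0 : 0 < s := by positivity
  obtain ⟨k0, hk1, hk2⟩ := exists_between hk
  obtain ⟨B, hB⟩ := round_param hq hq1 ha he ha2 hξ hξ2 hb hb1 hk2 (B'' := s * B'' + 1)
  obtain ⟨C0, c, hC0, hc, hdat⟩ := h B
  obtain ⟨C1', hC1', hr⟩ := hB C0 c hC0 hc
  set C1 : ℝ := max C1' 1 with hC1
  have hC10 : 0 < C1 := lt_max_of_lt_right one_pos
  refine ⟨1, 1 / 2, le_rfl, by norm_num, ?_⟩
  -- comparison of scales
  have q1 : ∀ᶠ N : ℝ in atTop, C1 ^ k * N ^ (s * k) ≤ N ^ k0 := by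
    have := (BO.const_mul (C1 ^ k) (BO.rpow (s * k))).lt_rpow (show s * k < k0 by linarith)
    exact this
  have q2 : ∀ᶠ N : ℝ in atTop, C1 ^ B'' * N ^ (s * B'') ≤ N ^ (s * B'' + 1) := by
    have := (BO.const_mul (C1 ^ B'') (BO.rpow (s * B''))).lt_rpow
      (show s * B'' < s * B'' + 1 by linarith)
    exact this
  have main : ∀ᶠ N : ℝ in atTop, ∃ x y : Bw, x ≠ y ∧ y.length = x.length ∧
      (x.length : ℝ) ≤ C1 * N ^ s ∧ (∃ m : ℕ, (m : ℝ) ≤ 1 * (C1 * N ^ s) ∧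
        Hid (dl q x) m (1 / 2)) ∧
      Small (dl q y - dl q x) (dl q x) ((C1 * N ^ s) ^ (-k)) ((C1 * N ^ s) ^ (-B'')) := by
    filter_upwards [hdat, hr, q1, q2, eventually_ge_atTop (1 : ℝ)] with N ⟨p, yp, ym, hd⟩ hrN
      hq1' hq2' hN
    have hN0 : 0 < N := by linarith
    obtain ⟨x, y, a1, a2, a3, ⟨m, a4, a5⟩, a6⟩ := hrN p yp ym hd
    have hNs : 0 ≤ N ^ s := Real.rpow_nonneg hN0.le s
    have hle : C1' * N ^ s ≤ C1 * N ^ s := mul_le_mul_of_nonneg_right (le_max_left _ _) hNs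
    have conv : ∀ u v : ℝ, C1 ^ u * N ^ (s * u) ≤ N ^ v → N ^ (-v) ≤ (C1 * N ^ s) ^ (-u) := by
      intro u v huv
      rw [Real.rpow_neg hN0.le, Real.rpow_neg (by positivity), Real.mul_rpow hC10.le hNs,
        ← Real.rpow_mul hN0.le]
      exact inv_anti₀ (by positivity) huv
    exact ⟨x, y, a1, a2, a3.trans hle, ⟨m, by rw [one_mul]; exact a4.trans hle, a5⟩,
      a6.mono (dl_prob hq.le hq1.le x).1 (conv k k0 hq1') (conv B'' _ hq2')⟩
  have ht : Tendsto (fun N : ℝ => (N / C1) ^ (1 / s)) atTop atTop :=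
    (tendsto_rpow_atTop (by positivity)).comp (tendsto_id.atTop_div_const hC10)
  filter_upwards [ht.eventually main, eventually_gt_atTop (0 : ℝ)] with N hN hN0
  have e : C1 * ((N / C1) ^ (1 / s)) ^ s = N := by
    rw [← Real.rpow_mul (by positivity), one_div, inv_mul_cancel₀ hs0.ne', Real.rpow_one]
    field_simp
  rw [e] at hN
  exact hN

theorem Good.step {q k : ℝ} (hq : 0 < q) (hq1 : q < 1) (hk : 51 / 50 ≤ k) (h : Good q k) :
    Good q (k + 1 / 50) := by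
  set b : ℝ := min (1 / 50) (3 / 100 / (k + 1)) with hb
  have hk1 : 0 < k + 1 := by linarith
  have hb0 : 0 < b := lt_min (by norm_num) (by positivity)
  have hb1 : b ≤ 1 / 50 := min_le_left _ _
  have hb2 : b * (k + 1) ≤ 3 / 100 := by
    have := mul_le_mul_of_nonneg_right (min_le_right (1 / 50) (3 / 100 / (k + 1))) hk1.le
    rw [div_mul_cancel₀ _ hk1.ne'] at this
    exact this
  refine SP.step hq hq1 (a := k) (e := k) (ξ := k) (b := b) (by linarith) le_rfl (by linarith)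
    (by linarith) (by norm_num; linarith) hb0 hb1 (by nlinarith) ?_
  intro B
  obtain ⟨C0, c, h1, h2, h3⟩ := h B
  refine ⟨C0, c, h1, h2, ?_⟩
  filter_upwards [h3, eventually_ge_atTop (1 : ℝ)] with N ⟨x, y, a1, a2, a3, a4, a5⟩ hN
  have hN0 : 0 ≤ N := by linarith
  have s1 : Small ((1 / 2 : ℝ) • (dl q y - dl q x)) (dl q x) (N ^ (-k)) (N ^ (-B)) := by
    refine (a5.smul (1 / 2)).mono (dl_prob hq.le hq1.le x).1 ?_ ?_
    · rw [abs_of_pos (by norm_num : (0 : ℝ) < 1 / 2)]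
      have := Real.rpow_nonneg hN0 (-k)
      linarith
    · rw [abs_of_pos (by norm_num : (0 : ℝ) < 1 / 2)]
      have := Real.rpow_nonneg hN0 (-B)
      linarith
  refine ⟨x, y, x, a2, rfl, a3, a1.symm, a4, s1, ?_⟩
  have e : (1 / 2 : ℝ) • (dl q y + dl q x) - dl q x = (1 / 2 : ℝ) • (dl q y - dl q x) := by
    module
  rw [e]; exact s1

theorem Good.all {q : ℝ} (hq : 0 < q) (hq1 : q < 1) (h : Good q (51 / 50)) (k : ℝ) :
    Good q k := by
  have h1 : ∀ j : ℕ, Good q (51 / 50 + j * (1 / 50)) := by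
    intro j
    induction j with
    | zero => simpa using h
    | succ j ih =>
      have := Good.step hq hq1 (by
        have : (0 : ℝ) ≤ j := Nat.cast_nonneg j
        linarith) ih
      have e : (51 / 50 : ℝ) + ((j + 1 : ℕ) : ℝ) * (1 / 50) = 51 / 50 + j * (1 / 50) + 1 / 50 := by
        push_cast; ring
      rw [e]; exact this
  obtain ⟨j, hj⟩ := exists_nat_gt (50 * k)
  exact (h1 j).mono hq hq1 (by linarith)

end Vale.Agent.P321.SP
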