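import Vale.Agent.Lib.P321.SP.Alg

/-!
P321, superpolynomial lower bound: the trace law as an element of the measure algebra.
-/

namespace Vale.Agent.P321.SP

open Finset

/-- Binary words. -/
abbrev Bw := FreeMonoid Bool

/-- The law of the trace of one bit. -/
noncomputable def bit (q : ℝ) (b : Bool) : Al Bw :=
  q • (1 : Al Bw) + (1 - q) • MonoidAlgebra.single (FreeMonoid.of b) 1

/-- The law of the trace of a word. -/
noncomputable def dl (q : ℝ) : Bw →* Al Bw := FreeMonoid.lift (bit q)

theorem bit_prob {q : ℝ} (h0 : 0 ≤ q) (h1 : q ≤ 1) (b : Bool) : Prob (bit q b) := by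
  refine ⟨(Nn.one.smul h0).add ((Nn.single _ zero_le_one).smul (by linarith)), ?_⟩
  unfold bit
  rw [map_add, map_smul, map_smul, map_one, mass_single]; simp

theorem dl_prob {q : ℝ} (h0 : 0 ≤ q) (h1 : q ≤ 1) (x : Bw) : Prob (dl q x) := by
  induction x using FreeMonoid.recOn with
  | one => rw [map_one]; exact Prob.one
  | of_mul b x ih =>
    rw [map_mul]
    refine Prob.mul ?_ ih
    rw [dl, FreeMonoid.lift_eval_of]; exact bit_prob h0 h1 b

/-- The block `01`. -/
def blk : Bw := FreeMonoid.of false * FreeMonoid.of true

/-- The inserted bit `1`. -/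
def mrk : Bw := FreeMonoid.of true

/-- The window `(01)^a 1 (01)^b`. -/
def win (a b : ℕ) : Bw := blk ^ a * mrk * blk ^ b

theorem blk_length : blk.length = 2 := rfl
theorem mrk_length : mrk.length = 1 := rfl

theorem length_pow (x : Bw) (a : ℕ) : (x ^ a).length = a * x.length := by
  induction a with
  | zero => simp
  | succ a ih => rw [pow_succ, FreeMonoid.length_mul, ih]; ring

theorem win_length (a b : ℕ) : (win a b).length = 2 * a + 1 + 2 * b := by
  unfold win
  rw [FreeMonoid.length_mul, FreeMonoid.length_mul, length_pow, length_pow, blk_length, mrk_length]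
  ring

end Vale.Agent.P321.SP
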