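import Vale.Agent.Lib.P321.SP.Words
import Vale.Agent.Lib.P321.SP.BO

/-!
P321, superpolynomial lower bound: the parameters of one round and their orders of magnitude.
-/

namespace Vale.Agent.P321.SP

open Finset Filter

/-- The exponents and constants of one round. -/
structure Pr where
  a : ℝ
  e : ℝ
  ξ : ℝ
  C0 : ℝ
  c : ℝ
  b : ℝ
  B : ℝ
  Q : ℝ
  t : ℕ
  D : ℕ
  ha : 0 < a
  he : ξ ≤ e
  ha2 : ξ ≤ 2 * a
  hξ : 1 + b / 2 < ξ
  hξ2 : 1.95 ≤ a + ξ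
  hb : 0 < b
  hb1 : b ≤ 1 / 50
  hC0 : 1 ≤ C0
  hc : 0 < c
  hQ : 20 ≤ Q
  htb : Q + 4 ≤ t * (b / 2)
  hB : B = Q + 4 + a + ξ
  hcD : 81 ≤ c * D

namespace Pr

variable (r : Pr)

theorem ht1 : 1 ≤ r.t := by
  rcases Nat.eq_zero_or_pos r.t with h0 | h0
  · have h1 := r.htb
    have h2 := r.hQ
    rw [h0] at h1; simp at h1; linarith
  · exact h0

theorem hD1 : 1 ≤ r.D := by
  rcases Nat.eq_zero_or_pos r.D with h0 | h0
  · have h1 := r.hcD
    rw [h0] at h1; simp at h1; linarith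
  · exact h0

theorem hξ1 : 1 < r.ξ := by
  have h1 := r.hξ
  have h2 := r.hb
  linarith

noncomputable def m (N : ℝ) : ℕ := ⌈r.C0 * N⌉₊
noncomputable def K0 (N : ℝ) : ℕ := ⌈N ^ r.b⌉₊
noncomputable def g (N : ℝ) : ℕ := r.t * (r.K0 N * (r.m N + 1))
noncomputable def S (N : ℝ) : ℕ := 2 * r.g N + 2 ^ r.t
noncomputable def mU (N : ℝ) : ℕ := r.D * r.S N * (r.m N + 1)
noncomputable def G' (N : ℝ) : ℕ := r.t * (r.K0 N * (r.mU N + 1))
noncomputable def R (N : ℝ) : ℕ := 2 * r.G' N + 2 ^ r.t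
noncomputable def Ku (_ : Pr) (N : ℝ) : ℕ := ⌊N ^ (4 / 5 : ℝ)⌋₊
noncomputable def a0 (N : ℝ) : ℕ := ⌊r.c ^ 2 * r.Ku N / 2⌋₊
noncomputable def m2 (N : ℝ) : ℕ := 162 * r.R N * (r.mU N + 1)
noncomputable def x (N : ℝ) : ℝ := CC r.t * ((N ^ (-r.e) + N ^ (-r.B)) +
    (N ^ (-r.a) + N ^ (-r.B)) ^ 2)
noncomputable def y (N : ℝ) : ℝ := CC r.t * ((N ^ (-r.a) + N ^ (-r.B)) *
    ((N ^ (-r.e) + N ^ (-r.B)) + (N ^ (-r.a) + N ^ (-r.B)) ^ 2))
noncomputable def β1 (N : ℝ) : ℝ := 2 ^ r.t * (4 * N ^ (-r.B)) +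
    (N ^ (-r.a) + N ^ (-r.B)) * (2 ^ r.t * (3 / (r.c * √((r.K0 N : ℝ) + 1)))) ^ r.t
noncomputable def l (_ : Pr) (N : ℝ) : ℝ := N ^ (1 / 100 : ℝ)
noncomputable def ε0 (N : ℝ) : ℝ := 2 * (r.l N * √(12 / √((r.a0 N : ℝ) + 1)) +
    6 * (r.Ku N * (r.x N + r.y N)))
noncomputable def ε1 (N : ℝ) : ℝ := (2 * CC r.t * r.y N + 2 * CC r.t * r.y N ^ 2) * r.ε0 N
noncomputable def tl (N : ℝ) : ℝ := 4 * (2 * Real.exp (-(r.l N ^ 2 / 2)) +
    Real.exp (-(r.c ^ 2 * r.Ku N / 8)))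
noncomputable def B2 (N : ℝ) : ℝ := r.R N * r.β1 N +
    (r.y N * (2 ^ r.t * (3 / (1 / 2 * √((r.K0 N : ℝ) + 1)))) ^ r.t
      + (2 * CC r.t * r.y N + 2 * CC r.t * r.y N ^ 2) * r.tl N)

theorem pos0 (s : ℝ) : ∀ᶠ N : ℝ in atTop, 0 ≤ N ^ s := by
  filter_upwards [eventually_ge_atTop (0 : ℝ)] with N hN
  exact Real.rpow_nonneg hN s

theorem om : BO (fun N => (r.m N : ℝ)) 1 := by
  have hC0 := r.hC0
  simp only [m]
  refine BO.ceil (by norm_num) ?_ ?_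
  · have := BO.const_mul r.C0 (BO.rpow 1)
    simpa using this
  · filter_upwards [eventually_ge_atTop (0 : ℝ)] with N hN
    positivity

theorem om1 : BO (fun N => (r.m N : ℝ) + 1) 1 := r.om.add ((BO.const 1).mono (by norm_num))

theorem oK0 : BO (fun N => (r.K0 N : ℝ)) r.b := by
  simp only [K0]
  exact BO.ceil r.hb.le (BO.rpow r.b) (pos0 r.b)

theorem og : BO (fun N => (r.g N : ℝ)) (1 + r.b) := by
  have := BO.const_mul (r.t : ℝ) (r.oK0.mul r.om1)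
  refine (this.mono (by linarith)).of_le ?_
  filter_upwards with N
  rw [abs_of_nonneg (Nat.cast_nonneg _), g]; push_cast; exact le_rfl

theorem oS : BO (fun N => (r.S N : ℝ)) (1 + r.b) := by
  have hb := r.hb
  have := (BO.const_mul 2 r.og).add ((BO.const (2 ^ r.t)).mono
    (show (0 : ℝ) ≤ 1 + r.b by linarith))
  refine this.of_le ?_
  filter_upwards with N
  rw [abs_of_nonneg (Nat.cast_nonneg _), S]; push_cast; exact le_rfl

theorem omU : BO (fun N => (r.mU N : ℝ)) (2 + r.b) := by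
  have := (BO.const_mul (r.D : ℝ) r.oS).mul r.om1
  refine (this.mono (by linarith)).of_le ?_
  filter_upwards with N
  rw [abs_of_nonneg (Nat.cast_nonneg _), mU]; push_cast; exact le_rfl

theorem omU1 : BO (fun N => (r.mU N : ℝ) + 1) (2 + r.b) := by
  have hb := r.hb
  exact r.omU.add ((BO.const 1).mono (by linarith))

theorem oG : BO (fun N => (r.G' N : ℝ)) (2 + 2 * r.b) := by
  have := BO.const_mul (r.t : ℝ) (r.oK0.mul r.omU1)
  refine (this.mono (by linarith)).of_le ?_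
  filter_upwards with N
  rw [abs_of_nonneg (Nat.cast_nonneg _), G']; push_cast; exact le_rfl

theorem oR : BO (fun N => (r.R N : ℝ)) (2 + 2 * r.b) := by
  have hb := r.hb
  have := (BO.const_mul 2 r.oG).add ((BO.const (2 ^ r.t)).mono
    (show (0 : ℝ) ≤ 2 + 2 * r.b by linarith))
  refine this.of_le ?_
  filter_upwards with N
  rw [abs_of_nonneg (Nat.cast_nonneg _), R]; push_cast; exact le_rfl

theorem om2 : BO (fun N => (r.m2 N : ℝ)) (4 + 3 * r.b) := by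
  have := (BO.const_mul 162 r.oR).mul r.omU1
  refine (this.mono (by linarith)).of_le ?_
  filter_upwards with N
  rw [abs_of_nonneg (Nat.cast_nonneg _), m2]; push_cast; exact le_rfl

theorem om21 : BO (fun N => (r.m2 N : ℝ) + 1) (4 + 3 * r.b) := by
  have hb := r.hb
  exact r.om2.add ((BO.const 1).mono (by linarith))

theorem oKu : BO (fun N => (r.Ku N : ℝ)) (4 / 5) := by
  simp only [Ku]
  exact BO.floor (BO.rpow _) (pos0 _)

theorem lKu : ∀ᶠ N : ℝ in atTop, 1 / 2 * N ^ (4 / 5 : ℝ) ≤ r.Ku N := by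
  have h2 : Tendsto (fun N : ℝ => N ^ (4 / 5 : ℝ)) atTop atTop :=
    tendsto_rpow_atTop (by norm_num)
  filter_upwards [h2.eventually_ge_atTop 2] with N h3
  rw [Ku]
  have := Nat.lt_floor_add_one (N ^ (4 / 5 : ℝ))
  linarith

theorem ooB : BO (fun N => N ^ (-r.a) + N ^ (-r.B)) (-r.a) := by
  have h1 := r.hB
  have h2 := r.hQ
  have h3 := r.hξ1
  exact (BO.rpow (-r.a)).add ((BO.rpow (-r.B)).mono (by linarith))

theorem oeB : BO (fun N => N ^ (-r.e) + N ^ (-r.B)) (-r.ξ) := by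
  have h1 := r.hB
  have h2 := r.hQ
  have h3 := r.ha
  have h4 := r.he
  exact ((BO.rpow (-r.e)).mono (by linarith)).add ((BO.rpow (-r.B)).mono (by linarith))

theorem ou : BO (fun N => (N ^ (-r.e) + N ^ (-r.B)) + (N ^ (-r.a) + N ^ (-r.B)) ^ 2) (-r.ξ) := by
  have h1 := r.ha2
  have := r.ooB.pow 2
  exact r.oeB.add (this.mono (by push_cast; linarith))

theorem ox : BO r.x (-r.ξ) := by
  have := BO.const_mul (CC r.t) r.ou
  exact this

theorem oy : BO r.y (-(r.a + r.ξ)) := by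
  have := BO.const_mul (CC r.t) (r.ooB.mul r.ou)
  exact BO.mono (p := -r.a + -r.ξ) this (by linarith)

theorem oxy : BO (fun N => r.x N + r.y N) (-r.ξ) := by
  have h1 := r.ha
  exact r.ox.add (r.oy.mono (by linarith))

theorem lK0 : ∀ᶠ N : ℝ in atTop, 1 * N ^ r.b ≤ (r.K0 N : ℝ) + 1 := by
  filter_upwards with N
  rw [K0, one_mul]
  have := Nat.le_ceil (N ^ r.b)
  linarith

theorem oc (c' : ℝ) : BO (fun N => (2 ^ r.t * (3 / (c' * √((r.K0 N : ℝ) + 1)))) ^ r.t)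
    (-(r.Q + 4)) := by
  have h1 := r.htb
  have h2 : BO (fun N => 2 ^ r.t * (3 / (c' * √((r.K0 N : ℝ) + 1)))) (-(r.b / 2)) := by
    have := BO.const_mul (2 ^ r.t) (BO.inv_sqrt one_pos r.lK0 (3 / c'))
    convert this using 1
    funext N
    rw [div_div]
  exact (h2.pow r.t).mono (by linarith)

theorem oβ1 : BO r.β1 (-(r.Q + 4)) := by
  have h1 := BO.const_mul (2 ^ r.t) (BO.const_mul 4 (BO.rpow (-r.B)))
  have ha := r.ha
  have hB := r.hB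
  have hξ := r.hξ1
  have h2 := (r.ooB.mul (r.oc r.c)).mono (show -r.a + -(r.Q + 4) ≤ -(r.Q + 4) by linarith)
  exact (h1.mono (show -r.B ≤ -(r.Q + 4) by linarith)).add h2

theorem la0 : ∀ᶠ N : ℝ in atTop, r.c ^ 2 / 4 * N ^ (4 / 5 : ℝ) ≤ (r.a0 N : ℝ) + 1 := by
  filter_upwards [r.lKu] with N h3
  rw [a0]
  have h4 := (Nat.lt_floor_add_one (r.c ^ 2 * r.Ku N / 2)).le
  have h5 := mul_le_mul_of_nonneg_left h3 (show 0 ≤ r.c ^ 2 / 2 by positivity)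
  linarith

theorem osq : BO (fun N => √(12 / √((r.a0 N : ℝ) + 1))) (-(1 / 5)) := by
  have hc := r.hc
  have := (BO.inv_sqrt (by positivity : 0 < r.c ^ 2 / 4) r.la0 12).sqrt
  exact this.mono (by norm_num)

theorem ol : BO r.l (1 / 100) := BO.rpow (1 / 100)

theorem oε0 : BO r.ε0 (-(19 / 100)) := by
  have hξ := r.hξ1
  have h1 := (r.ol.mul r.osq).mono (show 1 / 100 + -(1 / 5) ≤ (-(19 / 100) : ℝ) by norm_num)
  have h2 := (BO.const_mul 6 (r.oKu.mul r.oxy)).mono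
    (show 4 / 5 + -r.ξ ≤ (-(19 / 100) : ℝ) by linarith)
  exact BO.const_mul 2 (h1.add h2)

theorem oyy : BO (fun N => 2 * CC r.t * r.y N + 2 * CC r.t * r.y N ^ 2) (-(r.a + r.ξ)) := by
  have hξ := r.hξ1
  have ha := r.ha
  have h1 := BO.const_mul (2 * CC r.t) r.oy
  have h2 := BO.const_mul (2 * CC r.t) ((r.oy.pow 2).mono
    (show ((2 : ℕ) : ℝ) * -(r.a + r.ξ) ≤ -(r.a + r.ξ) by push_cast; linarith))
  exact h1.add h2

theorem oε1 : BO r.ε1 (-(r.a + r.ξ) + -(19 / 100)) := r.oyy.mul r.oε0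

theorem otl : BO r.tl (-(r.Q + 4)) := by
  have hc := r.hc
  have h1 := BO.exp_neg (C := 1 / 2) (δ := 1 / 50) (by norm_num) (by norm_num) (-(r.Q + 4))
  have h2 := BO.exp_neg (C := r.c ^ 2 / 16) (δ := 4 / 5) (by positivity) (by norm_num)
    (-(r.Q + 4))
  have h3 := BO.const_mul 4 ((BO.const_mul 2 h1).add h2)
  refine h3.of_le ?_
  filter_upwards [r.lKu, eventually_gt_atTop (0 : ℝ)] with N h4 hN
  have h5 : 0 ≤ r.tl N := by rw [tl]; positivity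
  rw [abs_of_nonneg h5, tl, l]
  have e1 : (N ^ (1 / 100 : ℝ)) ^ 2 / 2 = 1 / 2 * N ^ (1 / 50 : ℝ) := by
    rw [← Real.rpow_natCast, ← Real.rpow_mul hN.le]
    norm_num
    ring
  rw [e1]
  have h6 : Real.exp (-(r.c ^ 2 * r.Ku N / 8)) ≤
      Real.exp (-(r.c ^ 2 / 16 * N ^ (4 / 5 : ℝ))) := by
    apply Real.exp_le_exp.mpr
    have h7 := mul_le_mul_of_nonneg_left h4 (show 0 ≤ r.c ^ 2 / 8 by positivity)
    linarith
  linarith

theorem oB2 : BO r.B2 (-(r.Q + 1)) := by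
  have hb := r.hb
  have hb1 := r.hb1
  have ha := r.ha
  have hξ := r.hξ1
  have h1 := (r.oR.mul r.oβ1).mono (show 2 + 2 * r.b + -(r.Q + 4) ≤ -(r.Q + 1) by linarith)
  have h2 := (r.oy.mul (r.oc (1 / 2))).mono
    (show -(r.a + r.ξ) + -(r.Q + 4) ≤ -(r.Q + 1) by linarith)
  have h3 := (r.oyy.mul r.otl).mono
    (show -(r.a + r.ξ) + -(r.Q + 4) ≤ -(r.Q + 1) by linarith)
  exact h1.add (h2.add h3)

/-! ### The conditions of the round theorem -/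

theorem e1 : ∀ᶠ N : ℝ in atTop, (N ^ (-r.a) + N ^ (-r.B)) + (N ^ (-r.e) + N ^ (-r.B)) ≤ 1 := by
  have hξ := r.hξ1
  have h1 : BO (fun N => (N ^ (-r.a) + N ^ (-r.B)) + (N ^ (-r.e) + N ^ (-r.B)))
      (-(min r.a r.ξ)) :=
    (r.ooB.mono (by have := min_le_left r.a r.ξ; linarith)).add
      (r.oeB.mono (by have := min_le_right r.a r.ξ; linarith))
  refine h1.small ?_ one_pos
  have : 0 < min r.a r.ξ := lt_min r.ha (by linarith)
  linarith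

theorem e2 : ∀ᶠ N : ℝ in atTop, ((r.mU N : ℝ) + 1) * (r.x N + r.y N) ^ 2 ≤ 1 / 32 := by
  have hξ := r.hξ
  refine (r.omU1.mul (r.oxy.pow 2)).small ?_ (by norm_num)
  push_cast; linarith

theorem e3 : ∀ᶠ N : ℝ in atTop,
    ((2 * r.Ku N + 2 ^ r.t : ℕ) : ℝ) * (r.x N + r.y N) ≤ 1 / 2 := by
  have hξ := r.hξ1
  have h1 := ((BO.const_mul 2 r.oKu).add ((BO.const (2 ^ r.t)).mono
    (show (0 : ℝ) ≤ 4 / 5 by norm_num))).mul r.oxy
  have h2 := h1.small (show 4 / 5 + -r.ξ < 0 by linarith) (show (0 : ℝ) < 1 / 2 by norm_num)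
  filter_upwards [h2] with N h3
  push_cast; exact h3

theorem e4 : ∀ᶠ N : ℝ in atTop, r.ε1 N ≤ 1 / 2 := by
  have hξ := r.hξ1
  have ha := r.ha
  exact r.oε1.small (by linarith) (by norm_num)

theorem e5 : ∀ᶠ N : ℝ in atTop, ((r.m2 N : ℝ) + 1) * (r.ε1 N + r.B2 N) ^ 2 ≤ 1 / 32 := by
  have hξ2 := r.hξ2
  have hQ := r.hQ
  have hb1 := r.hb1
  have h2 : BO (fun N => r.ε1 N + r.B2 N) (-(107 / 50)) :=
    (r.oε1.mono (by norm_num at hξ2 ⊢; linarith)).add (r.oB2.mono (by linarith))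
  refine (r.om21.mul (h2.pow 2)).small ?_ (by norm_num)
  push_cast; linarith

theorem e6 : ∀ᶠ N : ℝ in atTop, ((r.m2 N : ℝ) + 1) * (2 * r.B2 N) ≤ 1 / 12 := by
  have hQ := r.hQ
  have hb1 := r.hb1
  refine (r.om21.mul (BO.const_mul 2 r.oB2)).small ?_ (by norm_num)
  linarith

theorem e7 : ∀ᶠ N : ℝ in atTop, (r.Ku N : ℝ) ≤ r.m N := by
  have h2 : Tendsto (fun N : ℝ => N ^ (1 / 5 : ℝ)) atTop atTop :=
    tendsto_rpow_atTop (by norm_num)
  have hC0 := r.hC0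
  filter_upwards [h2.eventually_ge_atTop 1, eventually_gt_atTop (0 : ℝ)] with N h3 hN
  rw [Ku, m]
  have h4 := Nat.floor_le (Real.rpow_nonneg hN.le (4 / 5 : ℝ))
  have h5 := Nat.le_ceil (r.C0 * N)
  have h6 : N ^ (4 / 5 : ℝ) ≤ N := by
    have e : N = N ^ (4 / 5 : ℝ) * N ^ (1 / 5 : ℝ) := by
      rw [← Real.rpow_add hN]; norm_num
    have h7 := mul_le_mul_of_nonneg_left h3 (Real.rpow_nonneg hN.le (4 / 5 : ℝ))
    linarith
  have h8 : N ≤ r.C0 * N := by nlinarith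
  linarith

theorem e8 {k : ℝ} (hk : k < 2 * (r.a + r.ξ) + 19 / 100) :
    ∀ᶠ N : ℝ in atTop, 4 * (2 * CC r.t * r.y N ^ 2 * r.ε0 N) ≤ N ^ (-k) := by
  have h1 := BO.const_mul 4 ((BO.const_mul (2 * CC r.t) (r.oy.pow 2)).mul r.oε0)
  refine h1.lt_rpow ?_
  push_cast; linarith

theorem e9 {B'' : ℝ} (hk : B'' < r.Q + 1) : ∀ᶠ N : ℝ in atTop, 4 * r.B2 N ≤ N ^ (-B'') :=
  (BO.const_mul 4 r.oB2).lt_rpow (by linarith)

theorem oX : BO (fun N => (r.R N : ℝ) * (r.S N * N)) (4 + 3 * r.b) := by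
  have h0 := BO.rpow 1
  simp only [Real.rpow_one] at h0
  exact (r.oR.mul (r.oS.mul h0)).mono (by linarith)

theorem hgm {N : ℝ} (hN : 1 ≤ N) : r.m N + 1 ≤ r.g N := by
  have hK01 : 1 ≤ r.K0 N := by
    rw [K0]; exact Nat.one_le_ceil_iff.mpr (Real.rpow_pos_of_pos (by linarith) r.b)
  rw [g]
  calc r.m N + 1 = 1 * (1 * (r.m N + 1)) := by ring
    _ ≤ r.t * (r.K0 N * (r.m N + 1)) :=
      Nat.mul_le_mul r.ht1 (Nat.mul_le_mul hK01 le_rfl)

theorem hSm {N : ℝ} (hN : 1 ≤ N) : r.m N + 1 ≤ r.S N := by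
  have := r.hgm hN
  rw [S]
  have := Nat.one_le_two_pow (n := r.t)
  omega

theorem hmUm {N : ℝ} (hN : 1 ≤ N) : r.m N ≤ r.mU N := by
  have hS1 : 1 ≤ r.S N := by have := r.hSm hN; omega
  rw [mU]
  calc r.m N ≤ 1 * 1 * (r.m N + 1) := by omega
    _ ≤ r.D * r.S N * (r.m N + 1) := Nat.mul_le_mul (Nat.mul_le_mul r.hD1 hS1) le_rfl

theorem hGm {N : ℝ} (hN : 1 ≤ N) : r.mU N + 1 ≤ r.G' N := by
  have hK01 : 1 ≤ r.K0 N := by
    rw [K0]; exact Nat.one_le_ceil_iff.mpr (Real.rpow_pos_of_pos (by linarith) r.b)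
  rw [G']
  calc r.mU N + 1 = 1 * (1 * (r.mU N + 1)) := by ring
    _ ≤ r.t * (r.K0 N * (r.mU N + 1)) :=
      Nat.mul_le_mul r.ht1 (Nat.mul_le_mul hK01 le_rfl)

theorem hR1 (N : ℝ) : 1 ≤ r.R N := by
  rw [R]
  have := Nat.one_le_two_pow (n := r.t)
  omega

end Pr

theorem three (T : ℕ) (u : ℝ) (hT : 1 ≤ T) (hu : 81 * (T : ℝ) ^ 2 ≤ u) :
    T * (3 / √u) ≤ 1 / 3 := by
  have hT' : (1 : ℝ) ≤ T := by exact_mod_cast hT
  have h1 : 9 * (T : ℝ) ≤ √u := by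
    apply Real.le_sqrt_of_sq_le
    nlinarith
  have h2 : 0 < √u := by linarith
  rw [mul_div_assoc', div_le_iff₀ h2]
  linarith

end Vale.Agent.P321.SP
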