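import Vale.Agent.Lib.P321.SP.Par

/-!
P321, superpolynomial lower bound: one round with explicit orders of magnitude.
-/

namespace Vale.Agent.P321.SP

open Finset Filter

theorem Hid.mono_m {G : Type} [Monoid G] {P : Al G} (hP : Prob P) {m m' : ℕ} {c : ℝ}
    (h : Hid P m c) (hm : m ≤ m') : Hid P m' c := by
  obtain ⟨ν, h1, h2, h3, h4⟩ := h
  have hp := hP.pow (m' - m)
  refine ⟨P ^ (m' - m) * ν, hp.1.mul h1, ?_, ?_, by rw [map_mul, hp.2, one_mul, h4]⟩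
  · have := hp.1.mul h2
    rwa [mul_sub, ← pow_add, Nat.sub_add_cancel hm] at this
  · have := hp.1.mul h3
    rwa [mul_sub, ← pow_add, show m' - m + (m + 1) = m' + 1 by omega] at this

/-- The data needed at scale `N`. -/
structure Dat (q N C0 c a e B : ℝ) (p yp ym : Bw) : Prop where
  len1 : yp.length = p.length
  len2 : ym.length = p.length
  len : (p.length : ℝ) ≤ N
  ne : yp ≠ ym
  hid : ∃ m : ℕ, (m : ℝ) ≤ C0 * N ∧ Hid (dl q p) m c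
  hO : Small ((1 / 2 : ℝ) • (dl q yp - dl q ym)) (dl q p) (N ^ (-a)) (N ^ (-B))
  hE : Small ((1 / 2 : ℝ) • (dl q yp + dl q ym) - dl q p) (dl q p) (N ^ (-e)) (N ^ (-B))

/-- One round at scale `N`. -/
theorem round_at {q : ℝ} (hq : 0 < q) (hq1 : q < 1) (r : Pr) {N : ℝ} (hN : 1 ≤ N)
    (f1 : (N ^ (-r.a) + N ^ (-r.B)) + (N ^ (-r.e) + N ^ (-r.B)) ≤ 1)
    (f2 : ((r.mU N : ℝ) + 1) * (r.x N + r.y N) ^ 2 ≤ 1 / 32)
    (f3 : ((2 * r.Ku N + 2 ^ r.t : ℕ) : ℝ) * (r.x N + r.y N) ≤ 1 / 2)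
    (f4 : r.ε1 N ≤ 1 / 2)
    (f5 : ((r.m2 N : ℝ) + 1) * (r.ε1 N + r.B2 N) ^ 2 ≤ 1 / 32)
    (f6 : ((r.m2 N : ℝ) + 1) * (2 * r.B2 N) ≤ 1 / 12)
    (f7 : (r.Ku N : ℝ) ≤ r.m N)
    {p yp ym : Bw} (hdat : Dat q N r.C0 r.c r.a r.e r.B p yp ym) :
    ∃ x y : Bw, x ≠ y ∧ y.length = x.length ∧ x.length = r.R N * (r.S N * p.length) ∧
      Hid (dl q x) (r.m2 N) (1 / 2) ∧
      Small (dl q y - dl q x) (dl q x) (4 * (2 * CC r.t * r.y N ^ 2 * r.ε0 N)) (4 * r.B2 N) := by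
  have hN0 : 0 < N := by linarith
  obtain ⟨m', hm', hid'⟩ := hdat.hid
  have pP := dl_prob hq.le hq1.le p
  have pYp := dl_prob hq.le hq1.le yp
  have pYm := dl_prob hq.le hq1.le ym
  have hmm : m' ≤ r.m N := by
    rw [Pr.m]
    have := Nat.le_ceil (r.C0 * N)
    exact_mod_cast hm'.trans this
  have hH := hid'.mono_m pP hmm
  have hSm := r.hSm hN
  have hS1 : 1 ≤ r.S N := by omega
  have hmUm := r.hmUm hN
  have hGm := r.hGm hN
  have hKuG : r.Ku N ≤ r.G' N := by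
    have : r.Ku N ≤ r.m N := by exact_mod_cast f7
    omega
  have hr := round pP pYp pYm r.hc hH (o := N ^ (-r.a)) (e := N ^ (-r.e)) (β := N ^ (-r.B))
    (Real.rpow_pos_of_pos hN0 _) (Real.rpow_nonneg hN0.le _) hdat.hO hdat.hE f1 r.t (r.K0 N)
    (g := r.g N) (S := r.S N) rfl rfl (x := r.x N) (y := r.y N) rfl rfl (β1 := r.β1 N) rfl
    (r.mU N) (r.D * r.S N * r.S N)
    (le_of_eq (by rw [Pr.mU]; ring)) f2
    (three (r.S N) _ hS1 (by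
      push_cast
      have h3 : 0 ≤ (r.S N : ℝ) ^ 2 := by positivity
      have h4 := mul_le_mul_of_nonneg_right r.hcD h3
      have h5 := r.hc
      nlinarith only [h4, h5]))
    (r.K0 N) (G' := r.G' N) (R := r.R N) rfl rfl (r.Ku N) (r.Ku N) (r.a0 N) hKuG
    (by rw [mul_comm]; exact Nat.mul_le_mul hSm le_rfl)
    (by
      rw [Pr.a0]
      have h5 := r.hc
      have := Nat.floor_le (show 0 ≤ r.c ^ 2 * r.Ku N / 2 by positivity)
      linarith only [this])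
    (l := r.l N) (by rw [Pr.l]; exact Real.rpow_nonneg hN0.le _) f3 (ε0 := r.ε0 N)
    (ε1 := r.ε1 N) (tl := r.tl N) (B2 := r.B2 N) rfl rfl rfl rfl f4
    (r.m2 N) (162 * r.R N * r.R N) (le_of_eq (by rw [Pr.m2]; ring)) f5 f6
    (three (r.R N) _ (r.hR1 N) (by
      push_cast
      nlinarith only [sq_nonneg (r.R N : ℝ)]))
  rw [← win2_map, ← win2_map, ← win2_map, ← win2_map] at hr
  have lp : yp.length = p.length := hdat.len1
  have lm : ym.length = p.length := hdat.len2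
  have lU1 := win2_length r.t (r.g N) rfl lm lp
  have lU2 := win2_length r.t (r.g N) rfl lp lm
  have lX1 := win2_length r.t (r.G' N) lU1 lU1 lU2
  have lX2 := win2_length r.t (r.G' N) lU1 lU2 lU1
  refine ⟨win2 r.t (r.G' N) (win2 r.t (r.g N) p ym yp) (win2 r.t (r.g N) p ym yp)
      (win2 r.t (r.g N) p yp ym),
    win2 r.t (r.G' N) (win2 r.t (r.g N) p ym yp) (win2 r.t (r.g N) p yp ym)
      (win2 r.t (r.g N) p ym yp),
    ?_, ?_, ?_, hr.1, hr.2⟩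
  · apply win2_ne r.t (r.G' N) (by rw [lU1, lU2])
    apply win2_ne r.t (r.g N) (by rw [lm, lp]) hdat.ne.symm
  · rw [lX1, lX2]
  · rw [lX1]; rfl

theorem round_param {q : ℝ} (hq : 0 < q) (hq1 : q < 1) {a e ξ b : ℝ} (ha : 0 < a)
    (he : ξ ≤ e) (ha2 : ξ ≤ 2 * a) (hξ : 1 + b / 2 < ξ) (hξ2 : 1.95 ≤ a + ξ) (hb : 0 < b)
    (hb1 : b ≤ 1 / 50) {k B'' : ℝ} (hk : k < 2 * (a + ξ) + 19 / 100) :
    ∃ B : ℝ, ∀ C0 c : ℝ, 1 ≤ C0 → 0 < c → ∃ C1 : ℝ, 0 < C1 ∧ ∀ᶠ N : ℝ in atTop,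
      ∀ p yp ym : Bw, Dat q N C0 c a e B p yp ym →
      ∃ x y : Bw, x ≠ y ∧ y.length = x.length ∧ (x.length : ℝ) ≤ C1 * N ^ (4 + 3 * b) ∧
        (∃ m : ℕ, (m : ℝ) ≤ C1 * N ^ (4 + 3 * b) ∧ Hid (dl q x) m (1 / 2)) ∧
        Small (dl q y - dl q x) (dl q x) (N ^ (-k)) (N ^ (-B'')) := by
  have hB''0 : B'' ≤ |B''| := le_abs_self _
  have hB''1 : 0 ≤ |B''| := abs_nonneg _
  refine ⟨|B''| + 20 + 4 + a + ξ, ?_⟩
  intro C0 c hC0 hc
  obtain ⟨t, ht⟩ := exists_nat_gt (2 * (|B''| + 20 + 4) / b)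
  have htb : |B''| + 20 + 4 ≤ t * (b / 2) := by
    rw [div_lt_iff₀ hb] at ht; linarith
  obtain ⟨D, hD⟩ := exists_nat_gt (81 / c)
  have hcD : 81 ≤ c * D := by
    rw [div_lt_iff₀ hc] at hD; linarith
  let r : Pr := ⟨a, e, ξ, C0, c, b, |B''| + 20 + 4 + a + ξ, |B''| + 20, t, D, ha, he, ha2, hξ,
    hξ2, hb, hb1, hC0, hc, by linarith, htb, rfl, hcD⟩
  obtain ⟨A1, hA1, e10⟩ := r.oX
  obtain ⟨A2, hA2, e11⟩ := r.om2
  refine ⟨A1 + A2, by positivity, ?_⟩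
  filter_upwards [r.e1, r.e2, r.e3, r.e4, r.e5, r.e6, r.e7, r.e8 (k := k) hk,
    r.e9 (B'' := B'') (show B'' < |B''| + 20 + 1 by linarith), e10, e11,
    eventually_ge_atTop (1 : ℝ)] with N f1 f2 f3 f4 f5 f6 f7 f8 f9 f10 f11 hN p yp ym hdat
  have hN0 : 0 < N := by linarith
  obtain ⟨x, y, h1, h2, h3, h4, h5⟩ := round_at hq hq1 r hN f1 f2 f3 f4 f5 f6 f7 hdat
  refine ⟨x, y, h1, h2, ?_, ⟨r.m2 N, ?_, h4⟩, h5.mono (dl_prob hq.le hq1.le _).1 f8 f9⟩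
  · rw [h3]
    have h6 : ((r.R N * (r.S N * p.length) : ℕ) : ℝ) ≤ (r.R N : ℝ) * (r.S N * N) := by
      push_cast
      apply mul_le_mul_of_nonneg_left _ (Nat.cast_nonneg _)
      exact mul_le_mul_of_nonneg_left hdat.len (Nat.cast_nonneg _)
    refine h6.trans ((le_abs_self _).trans (f10.trans ?_))
    apply mul_le_mul_of_nonneg_right _ (Real.rpow_nonneg hN0.le _)
    linarith
  · refine (le_abs_self _).trans (f11.trans ?_)
    apply mul_le_mul_of_nonneg_right _ (Real.rpow_nonneg hN0.le _)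
    linarith

end Vale.Agent.P321.SP
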