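import Vale.Agent.Lib.P321.SP.Alg

/-!
P321, superpolynomial lower bound: the mixture representation.
-/

namespace Vale.Agent.P321.SP

open Finset

/-- Binomial expectation, defined by recursion. -/
noncomputable def binE (c : ℝ) : ℕ → (ℕ → ℝ) → ℝ
  | 0, β => β 0
  | K + 1, β => c * binE c K (fun a => β (a + 1)) + (1 - c) * binE c K β

theorem binE_mono {c : ℝ} (h0 : 0 ≤ c) (h1 : c ≤ 1) (K : ℕ) :
    ∀ {β β' : ℕ → ℝ}, (∀ a ≤ K, β a ≤ β' a) → binE c K β ≤ binE c K β' := by
  induction K with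
  | zero => intro β β' h; exact h 0 le_rfl
  | succ K ih =>
    intro β β' h
    have a1 := ih (β := fun a => β (a + 1)) (β' := fun a => β' (a + 1))
      (fun a ha => h (a + 1) (by omega))
    have a2 := ih (β := β) (β' := β') (fun a ha => h a (by omega))
    simp only [binE]
    have b1 := mul_le_mul_of_nonneg_left a1 h0
    have b2 := mul_le_mul_of_nonneg_left a2 (sub_nonneg.mpr h1)
    linarith

theorem binE_lin (c : ℝ) (K : ℕ) : ∀ (a b : ℝ) (β β' : ℕ → ℝ),
    binE c K (fun i => a * β i + b * β' i) = a * binE c K β + b * binE c K β' := by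
  induction K with
  | zero => intro a b β β'; rfl
  | succ K ih =>
    intro a b β β'
    simp only [binE]
    rw [ih a b β β', ih a b (fun i => β (i + 1)) (fun i => β' (i + 1))]
    ring

theorem binE_const (c : ℝ) (K : ℕ) (a : ℝ) : binE c K (fun _ => a) = a := by
  induction K with
  | zero => rfl
  | succ K ih => simp only [binE]; rw [ih]; ring

theorem binE_pow (c : ℝ) (K : ℕ) (x : ℝ) : binE c K (fun a => x ^ a) = (1 - c + c * x) ^ K := by
  induction K with
  | zero => simp [binE]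
  | succ K ih =>
    simp only [binE]
    have : (fun a : ℕ => x ^ (a + 1)) = fun a => x * x ^ a + 0 * x ^ a := by
      funext a; ring
    rw [this, binE_lin, ih]; ring

section

variable {G : Type} [Monoid G]

/-- A positive linear map multiplying masses by `c`. -/
structure PosMap (N : Al G →ₗ[ℝ] Al G) (c : ℝ) : Prop where
  nn : ∀ x, Nn x → Nn (N x)
  ms : ∀ x, mass (N x) = c * mass x

theorem PosMap.ab {N : Al G →ₗ[ℝ] Al G} {c : ℝ} (h : PosMap N c) {x a : Al G} (hx : Ab x a) :
    Ab (N x) (N a) :=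
  ⟨by rw [← map_sub]; exact h.nn _ hx.1, by rw [← map_add]; exact h.nn _ hx.2⟩

theorem PosMap.small {N : Al G →ₗ[ℝ] Al G} {c : ℝ} (hc : 0 ≤ c) (h : PosMap N c) {x P : Al G}
    {ε β : ℝ} (hx : Small x P ε β) : Small (N x) (N P) ε (c * β) := by
  obtain ⟨ω, h1, h2, h3⟩ := hx
  refine ⟨N ω, h.nn _ h1, by rw [h.ms]; exact mul_le_mul_of_nonneg_left h2 hc, ?_⟩
  have := h.ab h3
  rwa [map_add, map_smul] at this

/-- Averaging of neighbours. -/
noncomputable def Av (h : ℕ → Al G) : ℕ → Al G := fun j => (1 / 2 : ℝ) • (h j + h (j + 1))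

/-- The transfer operator. -/
noncomputable def Tt (N M0 M1 : Al G →ₗ[ℝ] Al G) (h : ℕ → Al G) : ℕ → Al G :=
  fun j => (1 / 2 : ℝ) • (N (h j) + M0 (h j)) + (1 / 2 : ℝ) • (N (h (j + 1)) + M1 (h (j + 1)))

theorem Tt_Av (N M0 M1 : Al G →ₗ[ℝ] Al G) (h : ℕ → Al G) :
    Tt N M0 M1 (Av h) = Av (Tt N M0 M1 h) := by
  funext j
  simp only [Tt, Av, map_smul, map_add]
  module

theorem Tt_iter_Av (N M0 M1 : Al G →ₗ[ℝ] Al G) (K : ℕ) (h : ℕ → Al G) :
    (Tt N M0 M1)^[K] (Av h) = Av ((Tt N M0 M1)^[K] h) := by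
  induction K with
  | zero => rfl
  | succ K ih => rw [Function.iterate_succ', Function.comp_apply, Function.comp_apply, ih, Tt_Av]

/-- Three positive pieces. -/
theorem Small.add3 {x y z P Q R : Al G} {ε a b c : ℝ}
    (hx : Small x P ε a) (hy : Small y Q ε b) (hz : Small z R ε c) :
    Small (x + y + z) (P + Q + R) ε (a + b + c) := by
  obtain ⟨ω, h1, h2, h3⟩ := hx
  obtain ⟨ω', h1', h2', h3'⟩ := hy
  obtain ⟨ω'', h1'', h2'', h3''⟩ := hz
  refine ⟨ω + ω' + ω'', (h1.add h1').add h1'', by rw [map_add, map_add]; linarith, ?_⟩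
  convert (h3.add h3').add h3'' using 1
  module

theorem Small.half {x P : Al G} {ε a : ℝ} (hx : Small x P ε a) :
    Small ((1 / 2 : ℝ) • x) ((1 / 2 : ℝ) • P) ε (1 / 2 * a) := by
  obtain ⟨ω, h1, h2, h3⟩ := hx
  refine ⟨(1 / 2 : ℝ) • ω, h1.smul (by norm_num), ?_, ?_⟩
  · rw [map_smul, smul_eq_mul]; linarith
  · convert h3.smul (1 / 2 : ℝ) using 1
    rw [abs_of_pos (by norm_num : (0 : ℝ) < 1 / 2)]
    module

/-- The representation lemma. -/
theorem Rl {N M0 M1 : Al G →ₗ[ℝ] Al G} {c : ℝ} (hc0 : 0 ≤ c) (hc1 : c ≤ 1) (hN : PosMap N c)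
    (h0 : PosMap M0 (1 - c)) (h1 : PosMap M1 (1 - c)) (ε : ℝ) (K : ℕ) :
    ∀ (h H : ℕ → Al G) (β : ℕ → ℝ) (j : ℕ),
      (∀ a i, a + i ≤ K → Small (Av^[a] h (j + i)) (Av^[a] H (j + i)) ε (β a)) →
      Small ((Tt N M0 M1)^[K] h j) ((Tt N M0 M1)^[K] H j) ε (binE c K β) := by
  induction K with
  | zero => intro h H β j hh; exact hh 0 0 le_rfl
  | succ K ih =>
    intro h H β j hh
    have key : ∀ g : ℕ → Al G, (Tt N M0 M1)^[K + 1] g j
        = N ((Tt N M0 M1)^[K] (Av g) j) + (1 / 2 : ℝ) • M0 ((Tt N M0 M1)^[K] g j)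
          + (1 / 2 : ℝ) • M1 ((Tt N M0 M1)^[K] g (j + 1)) := by
      intro g
      rw [Function.iterate_succ', Function.comp_apply, Tt_iter_Av]
      simp only [Tt, Av, map_smul, map_add]
      module
    rw [key h, key H]
    have s1 := ih (Av h) (Av H) (fun a => β (a + 1)) j (fun a i hai => by
      have := hh (a + 1) i (by omega)
      rwa [Function.iterate_succ_apply, Function.iterate_succ_apply] at this)
    have s2 := ih h H β j (fun a i hai => hh a i (by omega))
    have s3 := ih h H β (j + 1) (fun a i hai => by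
      have := hh a (1 + i) (by omega)
      rwa [← add_assoc] at this)
    have hc1' : 0 ≤ 1 - c := by linarith
    have := Small.add3 (hN.small hc0 s1) (h0.small hc1' s2).half (h1.small hc1' s3).half
    convert this using 1
    simp only [binE]
    ring

theorem Av_iter (a : ℕ) : ∀ (h : ℕ → Al G) (j : ℕ),
    Av^[a] h j = ∑ i ∈ range (a + 1), ((a.choose i : ℝ) / 2 ^ a) • h (j + i) := by
  induction a with
  | zero => intro h j; simp
  | succ a ih =>
    intro h j
    rw [Function.iterate_succ', Function.comp_apply]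
    simp only [Av]
    rw [ih, ih, Finset.sum_range_succ' _ (a + 1)]
    simp only [Nat.choose_zero_right, Nat.choose_succ_succ, Nat.cast_add, Nat.cast_one]
    have e1 : ∑ i ∈ range (a + 1), (((a.choose i : ℝ) + (a.choose (i + 1) : ℝ)) / 2 ^ (a + 1)) •
          h (j + (i + 1))
        = (1 / 2 : ℝ) • ∑ i ∈ range (a + 1), ((a.choose i : ℝ) / 2 ^ a) • h (j + 1 + i)
          + ∑ i ∈ range (a + 1), (((a.choose (i + 1) : ℝ)) / 2 ^ (a + 1)) • h (j + (i + 1)) := by
      rw [Finset.smul_sum, ← Finset.sum_add_distrib]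
      refine Finset.sum_congr rfl fun i _ => ?_
      rw [show j + 1 + i = j + (i + 1) by ring, smul_smul, ← add_smul]
      congr 1
      rw [pow_succ]; ring
    have e2 : ∑ i ∈ range (a + 1), (((a.choose (i + 1) : ℝ)) / 2 ^ (a + 1)) • h (j + (i + 1))
          + ((1 : ℝ) / 2 ^ (a + 1)) • h (j + 0)
        = (1 / 2 : ℝ) • ∑ i ∈ range (a + 1), ((a.choose i : ℝ) / 2 ^ a) • h (j + i) := by
      have := Finset.sum_range_succ' (fun i => (((a.choose i : ℝ)) / 2 ^ (a + 1)) • h (j + i))
        (a + 1)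
      simp only [Nat.choose_zero_right, Nat.cast_one] at this
      rw [← this, Finset.sum_range_succ, Nat.choose_succ_self, Nat.cast_zero, zero_div, zero_smul,
        add_zero, Finset.smul_sum]
      refine Finset.sum_congr rfl fun i _ => ?_
      rw [smul_smul]; congr 1; rw [pow_succ]; ring
    rw [e1, add_assoc, e2, smul_add, add_comm]

/-- Two sided multiplication as a positive map. -/
noncomputable def two (a b : Al G) : Al G →ₗ[ℝ] Al G :=
  (LinearMap.mulLeft ℝ a).comp (LinearMap.mulRight ℝ b)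

theorem two_apply (a b x : Al G) : two a b x = a * (x * b) := rfl

theorem posMap_two {a b : Al G} (ha : Nn a) (hb : Nn b) :
    PosMap (two a b) (mass a * mass b) :=
  ⟨fun x hx => ha.mul (hx.mul hb), fun x => by rw [two_apply, map_mul, map_mul]; ring⟩

theorem posMap_two_sub {a b ν : Al G} (hν : Nn ν) (ha : Nn (a - ν)) (hb : Nn (b - ν)) :
    PosMap (two a b - two ν ν) (mass a * mass b - mass ν ^ 2) := by
  refine ⟨fun x hx => ?_, fun x => ?_⟩
  · have e : (two a b - two ν ν) x = (a - ν) * (x * b) + ν * (x * (b - ν)) := by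
      simp only [LinearMap.sub_apply, two_apply]; noncomm_ring
    rw [e]
    exact (ha.mul (hx.mul (hν.of_sub hb))).add (hν.mul (hx.mul hb))
  · simp only [LinearMap.sub_apply, two_apply, map_sub, map_mul]; ring

theorem pow_mul_pow_mul (P x : Al G) (a b : ℕ) : P ^ a * (P ^ b * x) = P ^ (a + b) * x := by
  rw [pow_add, mul_assoc]

theorem mul_pow_mul_pow (P x : Al G) (a b : ℕ) : x * P ^ a * P ^ b = x * P ^ (a + b) := by
  rw [pow_add, mul_assoc]

/-- The two sided mixing theorem. -/
theorem mix2 {P : Al G} (hP : Prob P) {m : ℕ} {c : ℝ} (hc : 0 ≤ c) (hH : Hid P m c) (K : ℕ)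
    (x R : Al G) (ε : ℝ) (β : ℕ → ℝ)
    (h : ∀ a r, a + r ≤ K → Small (Av^[a] (fun i => P ^ (K - i) * x * P ^ i) r)
      (Av^[a] (fun i => P ^ (K - i) * R * P ^ i) r) ε (β a)) :
    Small (P ^ (K * (m + 1)) * x * P ^ (K * (m + 1))) (P ^ (K * (m + 1)) * R * P ^ (K * (m + 1)))
      ε (binE (c ^ 2) K β) := by
  have hc1 := hH.le_one hP
  obtain ⟨ν, hν, h1, h2, h3⟩ := hH
  have hN : PosMap (two ν ν) (c ^ 2) := by
    have := posMap_two hν hν
    rwa [h3, ← sq] at this
  have hM0 : PosMap (two (P ^ m) (P ^ (m + 1)) - two ν ν) (1 - c ^ 2) := by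
    have := posMap_two_sub hν h1 h2
    rwa [map_pow, map_pow, hP.2, one_pow, one_pow, one_mul, h3] at this
  have hM1 : PosMap (two (P ^ (m + 1)) (P ^ m) - two ν ν) (1 - c ^ 2) := by
    have := posMap_two_sub hν h2 h1
    rwa [map_pow, map_pow, hP.2, one_pow, one_pow, one_mul, h3] at this
  have key : ∀ (y : Al G) (i : ℕ), i ≤ K → ∀ j, i + j ≤ K →
      (Tt (two ν ν) (two (P ^ m) (P ^ (m + 1)) - two ν ν) (two (P ^ (m + 1)) (P ^ m) - two ν ν))^[i]
        (fun i => P ^ (K - i) * y * P ^ i) j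
      = P ^ (K - i - j + i * (m + 1)) * y * P ^ (j + i * (m + 1)) := by
    intro y i
    induction i with
    | zero => intro _ j _; simp
    | succ i ih =>
      intro hi j hj
      rw [Function.iterate_succ', Function.comp_apply]
      simp only [Tt, LinearMap.sub_apply, add_sub_cancel]
      rw [ih (by omega) j (by omega), ih (by omega) (j + 1) (by omega), two_apply, two_apply]
      have e1 : P ^ m * (P ^ (K - i - j + i * (m + 1)) * y * P ^ (j + i * (m + 1)) * P ^ (m + 1))
          = P ^ (K - (i + 1) - j + (i + 1) * (m + 1)) * y * P ^ (j + (i + 1) * (m + 1)) := by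
        rw [mul_pow_mul_pow, mul_assoc, ← mul_assoc (P ^ m), ← pow_add, ← mul_assoc]
        congr 2
        · congr 1
          have : K - i - j = K - (i + 1) - j + 1 := by omega
          rw [this]; ring
        · ring
      have e2 : P ^ (m + 1) * (P ^ (K - i - (j + 1) + i * (m + 1)) * y *
            P ^ (j + 1 + i * (m + 1)) * P ^ m)
          = P ^ (K - (i + 1) - j + (i + 1) * (m + 1)) * y * P ^ (j + (i + 1) * (m + 1)) := by
        rw [mul_pow_mul_pow, mul_assoc, ← mul_assoc (P ^ (m + 1)), ← pow_add, ← mul_assoc]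
        congr 2
        · congr 1
          have : K - i - (j + 1) = K - (i + 1) - j := by omega
          rw [this]; ring
        · ring
      rw [e1, e2, ← add_smul]
      norm_num
  have := Rl (sq_nonneg c) (by nlinarith) hN hM0 hM1 ε K (fun i => P ^ (K - i) * x * P ^ i)
    (fun i => P ^ (K - i) * R * P ^ i) β 0 (fun a i hai => by
      simpa using h a i hai)
  rw [key x K le_rfl 0 (by omega), key R K le_rfl 0 (by omega)] at this
  simpa using this

/-- The one sided mixing theorem. -/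
theorem mix1 {P : Al G} (hP : Prob P) {m : ℕ} {c : ℝ} (hc : 0 ≤ c) (hH : Hid P m c) (K : ℕ)
    (x R : Al G) (ε : ℝ) (β : ℕ → ℝ)
    (h : ∀ a r, a + r ≤ K → Small (Av^[a] (fun i => P ^ (K - i) * x) r)
      (Av^[a] (fun i => P ^ (K - i) * R) r) ε (β a)) :
    Small (P ^ (K * (m + 1)) * x) (P ^ (K * (m + 1)) * R) ε (binE c K β) := by
  have hc1 := hH.le_one hP
  obtain ⟨ν, hν, h1, h2, h3⟩ := hH
  have hl : ∀ a : Al G, Nn a → PosMap (LinearMap.mulLeft ℝ a) (mass a) := fun a ha =>
    ⟨fun x hx => ha.mul hx, fun x => by rw [LinearMap.mulLeft_apply, map_mul]⟩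
  have hN : PosMap (LinearMap.mulLeft ℝ ν) c := by
    have := hl ν hν
    rwa [h3] at this
  have hM0 : PosMap (LinearMap.mulLeft ℝ (P ^ m - ν)) (1 - c) := by
    have := hl _ h1
    rwa [map_sub, map_pow, hP.2, one_pow, h3] at this
  have hM1 : PosMap (LinearMap.mulLeft ℝ (P ^ (m + 1) - ν)) (1 - c) := by
    have := hl _ h2
    rwa [map_sub, map_pow, hP.2, one_pow, h3] at this
  have key : ∀ (y : Al G) (i : ℕ), i ≤ K → ∀ j, i + j ≤ K →
      (Tt (LinearMap.mulLeft ℝ ν) (LinearMap.mulLeft ℝ (P ^ m - ν))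
        (LinearMap.mulLeft ℝ (P ^ (m + 1) - ν)))^[i] (fun i => P ^ (K - i) * y) j
      = P ^ (K - i - j + i * (m + 1)) * y := by
    intro y i
    induction i with
    | zero => intro _ j _; simp
    | succ i ih =>
      intro hi j hj
      rw [Function.iterate_succ', Function.comp_apply]
      simp only [Tt, LinearMap.mulLeft_apply]
      rw [ih (by omega) j (by omega), ih (by omega) (j + 1) (by omega), ← add_mul, ← add_mul,
        add_sub_cancel, add_sub_cancel, pow_mul_pow_mul, pow_mul_pow_mul]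
      have e1 : m + (K - i - j + i * (m + 1)) = K - (i + 1) - j + (i + 1) * (m + 1) := by
        have : K - i - j = K - (i + 1) - j + 1 := by omega
        rw [this]; ring
      have e2 : m + 1 + (K - i - (j + 1) + i * (m + 1)) = K - (i + 1) - j + (i + 1) * (m + 1) := by
        have : K - i - (j + 1) = K - (i + 1) - j := by omega
        rw [this]; ring
      rw [e1, e2, ← add_smul]
      norm_num
  have := Rl hc hc1 hN hM0 hM1 ε K (fun i => P ^ (K - i) * x)
    (fun i => P ^ (K - i) * R) β 0 (fun a i hai => by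
      simpa using h a i hai)
  rw [key x K le_rfl 0 (by omega), key R K le_rfl 0 (by omega)] at this
  simpa using this

end

end Vale.Agent.P321.SP
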