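import Vale.Agent.Lib.P321.SP.Dbl

/-!
P321, superpolynomial lower bound: one round of the amplification.
-/

namespace Vale.Agent.P321.SP

open Finset

/-- A Thue-Morse pattern of `a`, `b` surrounded by `g` copies of `p` on each side. -/
def win2 {M : Type} [Monoid M] (t g : ℕ) (p a b : M) : M := p ^ g * tm t a b * p ^ g

section

variable {G : Type} [Monoid G]

theorem Nn.pow_sub {x y : Al G} (hx : Nn x) (h : Nn (y - x)) (k : ℕ) : Nn (y ^ k - x ^ k) := by
  induction k with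
  | zero => simpa using Nn.zero
  | succ k ih => rw [pow_succ, pow_succ]; exact Nn.mul_sub (hx.pow k) hx ih h

theorem ref_pow {P Z : Al G} (hP : Prob P) {S : ℕ} {x0 : ℝ} (hx0 : 0 ≤ x0)
    (h : Ab (Z - P ^ S) (x0 • P ^ S)) (k : ℕ) (hk : k * x0 ≤ 1 / 2) :
    Nn ((2 : ℝ) • Z ^ k - P ^ (S * k)) := by
  rcases Nat.eq_zero_or_pos k with h0 | h0
  · subst h0
    simp only [pow_zero, mul_zero]
    have : (2 : ℝ) • (1 : Al G) - 1 = 1 := by module
    rw [this]; exact Nn.one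
  · have hk1 : (1 : ℝ) ≤ k := by exact_mod_cast h0
    have hx1 : x0 ≤ 1 / 2 := by nlinarith
    have h1 : Nn (Z - (1 - x0) • P ^ S) := by
      have := h.2
      convert this using 1; module
    have h2 := Nn.pow_sub ((hP.1.pow S).smul (show 0 ≤ 1 - x0 by linarith)) h1 k
    rw [smul_pow, ← pow_mul] at h2
    have h3 : 1 / 2 ≤ (1 - x0) ^ k := by
      have := one_add_mul_le_pow (show (-2 : ℝ) ≤ -x0 by linarith) k
      have e : 1 + -x0 = 1 - x0 := by ring
      rw [e] at this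
      linarith
    have h4 := (h2.smul (show (0 : ℝ) ≤ 2 by norm_num)).add
      ((hP.1.pow (S * k)).smul (show 0 ≤ 2 * (1 - x0) ^ k - 1 by linarith))
    convert h4 using 1
    module

theorem pow_one_add_le {x : ℝ} (hx : 0 ≤ x) (k : ℕ) (h : k * x ≤ 1) :
    (1 + x) ^ k ≤ 1 + 2 * (k * x) := by
  have h1 : (1 + x) ^ k ≤ Real.exp (k * x) := by
    calc (1 + x) ^ k ≤ (Real.exp x) ^ k := by
          apply pow_le_pow_left₀ (by linarith)
          have := Real.add_one_le_exp x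
          linarith
      _ = _ := by rw [← Real.exp_nat_mul]
  have h8 : 0 ≤ (k : ℝ) * x := by positivity
  have := Real.exp_bound' h8 h (n := 2) (by norm_num)
  simp only [Finset.sum_range_succ, Finset.sum_range_zero, Nat.factorial] at this
  norm_num at this
  nlinarith

/-- Closeness in context. -/
theorem context {P Z : Al G} (hP : Prob P) (hZp : Prob Z) {m : ℕ} {c : ℝ} (hc : 0 < c)
    (hH : Hid P m c) {S M : ℕ} {x0 f : ℝ} (hZ : Near P S x0 Z) {F : Al G} (hf : 0 < f)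
    (hF : Mono P (S * M) f F) (Ku G' K3 a0 : ℕ) (hKu : Ku ≤ G') (hK3 : K3 * (m + 1) ≤ S * Ku)
    (ha : 2 * (a0 : ℝ) ≤ c ^ 2 * K3) {l : ℝ} (hl : 0 ≤ l)
    (hx : ((2 * Ku + M : ℕ) : ℝ) * x0 ≤ 1 / 2) :
    Small (Z ^ G' * F * Z ^ G') (Z ^ (2 * G' + M))
      (2 * (l * √(f ^ 2 * (12 / √((a0 : ℝ) + 1))) + f * (6 * (Ku * x0))))
      (4 * f * (2 * Real.exp (-(l ^ 2 / 2)) + Real.exp (-(c ^ 2 * K3 / 8)))) := by
  have hx0 : 0 ≤ x0 := hZ.1
  have hKux : (Ku : ℝ) * x0 ≤ 1 / 4 := by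
    push_cast at hx
    have : 0 ≤ (M : ℝ) * x0 := by positivity
    nlinarith
  have hKux0 : 0 ≤ (Ku : ℝ) * x0 := by positivity
  set w := (1 + x0) ^ Ku - 1 with hw
  have hw1 : w ≤ 2 * (Ku * x0) := by
    have := pow_one_add_le hx0 Ku (by linarith)
    linarith
  have hw0 : 0 ≤ w := by
    have := one_le_pow₀ (show 1 ≤ 1 + x0 by linarith) (n := Ku)
    linarith
  have hZk : Near P (S * Ku) w (Z ^ Ku) := hZ.pow hP Ku
  -- decomposition
  have e1 : Z ^ Ku * F * Z ^ Ku = P ^ (S * Ku) * F * P ^ (S * Ku)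
      + ((Z ^ Ku - P ^ (S * Ku)) * F * Z ^ Ku + P ^ (S * Ku) * F * (Z ^ Ku - P ^ (S * Ku))) := by
    noncomm_ring
  have s1 : Small (P ^ (S * Ku) * F * P ^ (S * Ku)) (P ^ (S * (2 * Ku + M)))
      (l * √(f ^ 2 * (12 / √((a0 : ℝ) + 1))))
      (4 * f * (2 * Real.exp (-(l ^ 2 / 2)) + Real.exp (-(c ^ 2 * K3 / 8)))) := by
    have g := gain hP hc hH K3 hf hF (r := 0) (by norm_num) a0 ha hl
    rw [Function.iterate_zero, id_eq, pow_zero, one_mul] at g
    have g2 := (g.mul_left (hP.pow (S * Ku - K3 * (m + 1)))).mul_right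
      (hP.pow (S * Ku - K3 * (m + 1)))
    have e2 : P ^ (S * Ku - K3 * (m + 1)) * (P ^ (K3 * (m + 1)) * F * P ^ (K3 * (m + 1)))
        * P ^ (S * Ku - K3 * (m + 1)) = P ^ (S * Ku) * F * P ^ (S * Ku) := by
      have a1 : P ^ (S * Ku) = P ^ (S * Ku - K3 * (m + 1)) * P ^ (K3 * (m + 1)) := by
        rw [← pow_add]; congr 1; omega
      have a2 : P ^ (S * Ku) = P ^ (K3 * (m + 1)) * P ^ (S * Ku - K3 * (m + 1)) := by
        rw [← pow_add]; congr 1; omega
      calc _ = (P ^ (S * Ku - K3 * (m + 1)) * P ^ (K3 * (m + 1))) * F *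
            (P ^ (K3 * (m + 1)) * P ^ (S * Ku - K3 * (m + 1))) := by noncomm_ring
        _ = _ := by rw [← a1, ← a2]
    have e3 : P ^ (S * Ku - K3 * (m + 1)) * P ^ (2 * (K3 * (m + 1)) + S * M + 0)
        * P ^ (S * Ku - K3 * (m + 1)) = P ^ (S * (2 * Ku + M)) := by
      rw [← pow_add, ← pow_add]
      congr 1
      have : S * (2 * Ku + M) = 2 * (S * Ku) + S * M := by ring
      omega
    rwa [e2, e3] at g2
  have s2 : Small ((Z ^ Ku - P ^ (S * Ku)) * F * Z ^ Ku + P ^ (S * Ku) * F *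
      (Z ^ Ku - P ^ (S * Ku))) (P ^ (S * (2 * Ku + M))) (f * (6 * (Ku * x0))) 0 := by
    have b1 := ((Mono.bdd hZk).mul hF.bdd).mul hZk.bdd
    have b2 := ((Bdd.pow P (S * Ku)).mul hF.bdd).mul (Mono.bdd hZk)
    have b3 := (b1.add b2).cast (show S * Ku + S * M + S * Ku = S * (2 * Ku + M) by ring)
    refine (Small.of_ab (b3.ab hP.1)).mono (hP.pow _).1 ?_ le_rfl
    have h1 : w * f * (1 + w) + 1 * f * w = f * (w * (2 + w)) := by ring
    rw [h1]
    apply mul_le_mul_of_nonneg_left _ hf.le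
    nlinarith
  have s3 := s1.add s2
  rw [← e1, add_zero] at s3
  have hε : 0 ≤ l * √(f ^ 2 * (12 / √((a0 : ℝ) + 1))) + f * (6 * (Ku * x0)) := by positivity
  have s4 := s3.ref (P' := Z ^ (2 * Ku + M)) (π := 0) (c := 2) (b := 0) hε Nn.zero (by simp) (by
    have := ref_pow hP hx0 (Mono.ab hP hZ) (2 * Ku + M) hx
    convert this using 1
    abel)
  have s5 := (s4.mul_left (hZp.pow (G' - Ku))).mul_right (hZp.pow (G' - Ku))
  have e4 : Z ^ (G' - Ku) * (Z ^ Ku * F * Z ^ Ku) * Z ^ (G' - Ku) = Z ^ G' * F * Z ^ G' := by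
    have a1 : Z ^ G' = Z ^ (G' - Ku) * Z ^ Ku := by rw [← pow_add]; congr 1; omega
    have a2 : Z ^ G' = Z ^ Ku * Z ^ (G' - Ku) := by rw [← pow_add]; congr 1; omega
    calc _ = (Z ^ (G' - Ku) * Z ^ Ku) * F * (Z ^ Ku * Z ^ (G' - Ku)) := by noncomm_ring
      _ = _ := by rw [← a1, ← a2]
  have e5 : Z ^ (G' - Ku) * Z ^ (2 * Ku + M) * Z ^ (G' - Ku) = Z ^ (2 * G' + M) := by
    rw [← pow_add, ← pow_add]; congr 1; omega
  rw [e4, e5] at s5
  refine s5.mono (hZp.pow _).1 (le_of_eq ?_) (le_of_eq ?_)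
  · ring
  · ring

/-- The first level. -/
theorem level1 {P Qp Qm : Al G} (hP : Prob P) (hQp : Prob Qp) (hQm : Prob Qm) {m : ℕ} {c : ℝ}
    (hc : 0 < c) (hH : Hid P m c) {o e β : ℝ} (ho : 0 ≤ o) (he : 0 ≤ e)
    (hO : Small ((1 / 2 : ℝ) • (Qp - Qm)) P o β)
    (hE : Small ((1 / 2 : ℝ) • (Qp + Qm) - P) P e β) (h1 : (o + β) + (e + β) ≤ 1)
    (t K0 : ℕ) {g S : ℕ} (hg : g = t * (K0 * (m + 1))) (hS : S = 2 * g + 2 ^ t) {x y : ℝ}
    (hx : x = CC t * ((e + β) + (o + β) ^ 2))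
    (hy : y = CC t * ((o + β) * ((e + β) + (o + β) ^ 2))) (hxy : x + y ≤ 1) :
    ∃ Vp Vm O' : Al G, Prob Vp ∧ Prob Vm ∧ Vp = Vm + (2 : ℝ) • O' ∧ Mono P S y O' ∧
      Near P S (x + y) Vm ∧
      Nrm (win2 t g P Qp Qm - Vp)
        (2 ^ t * (4 * β) + (o + β) * (2 ^ t * (3 / (c * √((K0 : ℝ) + 1)))) ^ t) ∧
      Nrm (win2 t g P Qm Qp - Vm)
        (2 ^ t * (4 * β) + (o + β) * (2 ^ t * (3 / (c * √((K0 : ℝ) + 1)))) ^ t) := by
  have hβ := hO.beta_nonneg
  have mO : mass ((1 / 2 : ℝ) • (Qp - Qm)) = 0 := by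
    rw [map_smul, map_sub, hQp.2, hQm.2]; simp
  have mE : mass ((1 / 2 : ℝ) • (Qp + Qm) - P) = 0 := by
    rw [map_sub, map_smul, map_add, hQp.2, hQm.2, hP.2]; norm_num
  obtain ⟨O, o1, o2, o3⟩ := hat hP ho mO hO
  obtain ⟨E, e1, e2, e3⟩ := hat hP he mE hE
  set o' := o + β with ho'
  set e' := e + β with he'
  have ho0 : 0 ≤ o' := by positivity
  have he0 : 0 ≤ e' := by positivity
  have qprob : ∀ s : ℝ, |s| = 1 → Prob (P + E + s • O) := by
    intro s hs
    refine ⟨?_, by rw [map_add, map_add, map_smul, o1, e1, hP.2]; simp⟩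
    have h2 := e2.add (o2.smul s)
    rw [hs, one_smul] at h2
    have h3 := h2.2.add (hP.1.smul (show 0 ≤ 1 - (o' + e') by linarith))
    convert h3 using 1
    module
  have hA : Prob (P + E + O) := by simpa using qprob 1 (by simp)
  have hB : Prob (P + E - O) := by
    have := qprob (-1) (by simp)
    convert this using 1; module
  have nA : Nrm (Qp - (P + E + O)) (4 * β) := by
    have := e3.add o3
    convert this using 1
    · module
    · ring
  have nB : Nrm (Qm - (P + E - O)) (4 * β) := by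
    have := e3.sub o3
    convert this using 1
    · module
    · ring
  have hZ : Near P 1 0 P := by
    have := Near.self hP 1
    rwa [pow_one] at this
  have MO : Mono P 1 o' O := Mono.base hP ho0 o2 o1
  have ME : Mono P 1 e' E := Mono.base hP he0 e2 e1
  obtain ⟨ev, od, d1, d2, d3, d4, d5⟩ := dbl hP hZ MO ME (by linarith) (by linarith) t
    (by simp) t le_rfl
  rw [one_mul] at d3 d4 d5
  rw [← hx] at d3
  rw [← hy] at d4
  have tp := tm_prob hA hB t
  have tq := tm_prob hQp hQm t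
  have mLO := mass_LO P O o1 t
  have mass_p : mass ev + mass od = 0 := by
    have := tp.1.2
    rw [d1, map_add, map_add, map_add, mLO, map_pow, hP.2, one_pow] at this
    linarith
  have mass_m : mass ev - mass od = 0 := by
    have := tp.2.2
    rw [d2, map_sub, map_add, map_add, mLO, map_pow, hP.2, one_pow] at this
    linarith
  have mev : mass ev = 0 := by linarith
  have mod' : mass od = 0 := by linarith
  have eS : g + 2 ^ t + g = S := by omega
  have dev : Mono P S x (P ^ g * ev * P ^ g) := ((d3.pow_mul hP g).mul_pow g).cast eS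
  have dod : Mono P S y (P ^ g * od * P ^ g) := ((d4.pow_mul hP g).mul_pow g).cast eS
  have vprob : ∀ V : Al G, mass V = 1 → Near P S (x + y) V → Prob V := by
    intro V hV1 hV2
    refine ⟨?_, hV1⟩
    have h2 := (Mono.ab hP hV2).2.add ((hP.1.pow S).smul (show 0 ≤ 1 - (x + y) by linarith))
    convert h2 using 1
    module
  have nVm : Near P S (x + y) (P ^ S + P ^ g * ev * P ^ g - P ^ g * od * P ^ g) := by
    have := dev.sub hP dod
    unfold Near
    convert this using 1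
    abel
  have nVp : Near P S (x + y) (P ^ S + P ^ g * ev * P ^ g + P ^ g * od * P ^ g) := by
    have := dev.add hP dod
    unfold Near
    convert this using 1
    abel
  have pVm := vprob _ (by
    simp only [map_sub, map_add, map_mul, map_pow, hP.2, one_pow, mev, mod']; simp) nVm
  have pVp := vprob _ (by
    simp only [map_add, map_mul, map_pow, hP.2, one_pow, mev, mod']; simp) nVp
  have tn := tm_nrm hQp hQm hA hB nA nB t
  have hPg := hP.pow g
  have hLO : Nrm (P ^ g * LO P O t * P ^ g)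
      (o' * (2 ^ t * (3 / (c * √((K0 : ℝ) + 1)))) ^ t) := by
    have hOn : Nrm O o' := ⟨o' • P, o2, by rw [map_smul, hP.2]; simp⟩
    have := LO_small hP hc hH K0 hOn t
    rwa [← hg] at this
  have ePS : P ^ g * P ^ (2 ^ t) * P ^ g = P ^ S := by
    rw [← pow_add, ← pow_add, eS]
  refine ⟨_, _, P ^ g * od * P ^ g, pVp, pVm, by module, dod, nVm, ?_, ?_⟩
  · have a1 := (hPg.nrm.mul tn.1).mul hPg.nrm
    have a2 := a1.add hLO
    refine Nrm.mono (b := 1 * (2 ^ t * (4 * β)) * 1 +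
      o' * (2 ^ t * (3 / (c * √((K0 : ℝ) + 1)))) ^ t) ?_ (le_of_eq (by ring))
    convert a2 using 1
    unfold win2
    rw [d1, ← ePS]
    noncomm_ring
  · have a1 := (hPg.nrm.mul tn.2).mul hPg.nrm
    have a2 := a1.sub hLO
    refine Nrm.mono (b := 1 * (2 ^ t * (4 * β)) * 1 +
      o' * (2 ^ t * (3 / (c * √((K0 : ℝ) + 1)))) ^ t) ?_ (le_of_eq (by ring))
    convert a2 using 1
    unfold win2
    rw [d2, ← ePS]
    noncomm_ring

end

end Vale.Agent.P321.SP
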