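import Vale.Agent.Lib.P321.SP.Round

/-!
P321, superpolynomial lower bound: one round of the amplification, second level.
-/

namespace Vale.Agent.P321.SP

open Finset

section

variable {G : Type} [Monoid G]

theorem context' {P Z : Al G} (hP : Prob P) (hZp : Prob Z) {m : ℕ} {c : ℝ} (hc : 0 < c)
    (hH : Hid P m c) {S M : ℕ} {x0 f : ℝ} (hZ : Near P S x0 Z) {F : Al G} (hf : 0 < f)
    (hF : Mono P (S * M) f F) (Ku G' K3 a0 : ℕ) (hKu : Ku ≤ G') (hK3 : K3 * (m + 1) ≤ S * Ku)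
    (ha : 2 * (a0 : ℝ) ≤ c ^ 2 * K3) {l : ℝ} (hl : 0 ≤ l)
    (hx : ((2 * Ku + M : ℕ) : ℝ) * x0 ≤ 1 / 2) :
    Small (Z ^ G' * F * Z ^ G') (Z ^ (2 * G' + M))
      (f * (2 * (l * √(12 / √((a0 : ℝ) + 1)) + 6 * (Ku * x0))))
      (f * (4 * (2 * Real.exp (-(l ^ 2 / 2)) + Real.exp (-(c ^ 2 * K3 / 8))))) := by
  have h := context hP hZp hc hH hZ hf hF Ku G' K3 a0 hKu hK3 ha hl hx
  have e : √(f ^ 2 * (12 / √((a0 : ℝ) + 1))) = f * √(12 / √((a0 : ℝ) + 1)) := by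
    rw [Real.sqrt_mul (sq_nonneg f), Real.sqrt_sq hf.le]
  rw [e] at h
  refine h.mono (hZp.pow _).1 (le_of_eq ?_) (le_of_eq ?_)
  · ring
  · ring

/-- The second level for the truncated windows. -/
theorem level2 {P Vp Vm O' : Al G} (hP : Prob P) (pVm : Prob Vm) {m mU : ℕ} {c x0 y : ℝ}
    (hc : 0 < c) (hH : Hid P m c) (hVid : Hid Vm mU (1 / 2)) {S : ℕ}
    (hV : Vp = Vm + (2 : ℝ) • O') (hO' : Mono P S y O') (hN : Near P S x0 Vm)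
    (hy0 : 0 < y) (hyy : y ≤ 1) (t K2 : ℕ) {G' R : ℕ} (hG : G' = t * (K2 * (mU + 1)))
    (hR : R = 2 * G' + 2 ^ t)
    (Ku K3 a0 : ℕ) (hKu : Ku ≤ G') (hK3 : K3 * (m + 1) ≤ S * Ku)
    (ha : 2 * (a0 : ℝ) ≤ c ^ 2 * K3) {l : ℝ} (hl : 0 ≤ l)
    (hxy : ((2 * Ku + 2 ^ t : ℕ) : ℝ) * x0 ≤ 1 / 2)
    {ε0 tl : ℝ} (hε0 : ε0 = 2 * (l * √(12 / √((a0 : ℝ) + 1)) + 6 * (Ku * x0)))
    (htl : tl = 4 * (2 * Real.exp (-(l ^ 2 / 2)) + Real.exp (-(c ^ 2 * K3 / 8)))) :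
    Small (win2 t G' Vm Vm Vp - Vm ^ R) (Vm ^ R)
      ((2 * CC t * y + 2 * CC t * y ^ 2) * ε0)
      (y * (2 ^ t * (3 / (1 / 2 * √((K2 : ℝ) + 1)))) ^ t
        + (2 * CC t * y + 2 * CC t * y ^ 2) * tl) ∧
    Small (win2 t G' Vm Vp Vm - win2 t G' Vm Vm Vp) (Vm ^ R)
      (2 * (2 * CC t * y ^ 2 * ε0))
      (2 * (y * (2 ^ t * (3 / (1 / 2 * √((K2 : ℝ) + 1)))) ^ t
        + (2 * CC t * y + 2 * CC t * y ^ 2) * tl)) := by
  have hCC := CC_ge_one t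
  have hx0 : 0 ≤ x0 := hN.1
  have hMx : ((2 ^ t : ℕ) : ℝ) * x0 ≤ 1 / 2 := by
    push_cast at hxy ⊢
    have : 0 ≤ 2 * (Ku : ℝ) * x0 := by positivity
    linarith only [this, hxy]
  have hxp : (1 + x0) ^ (2 ^ t) ≤ 2 := by
    have := pow_one_add_le hx0 (2 ^ t) (by linarith only [hMx])
    linarith only [this, hMx]
  obtain ⟨ev, od, d1, d2, d3, d4, _⟩ := dbl hP hN hO' hO' hyy hyy t hxp t le_rfl
  have eA : Vm + O' + O' = Vp := by rw [hV]; module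
  have eB : Vm + O' - O' = Vm := by abel
  rw [eA, eB] at d1 d2
  have hy2 : y ^ 2 ≤ y := by nlinarith only [hy0, hyy]
  have f1 : 0 < 2 * CC t * y := by positivity
  have f2 : 0 < 2 * CC t * y ^ 2 := by positivity
  have d3' : Mono P (S * 2 ^ t) (2 * CC t * y) ev := d3.mono (by
    have := mul_le_mul_of_nonneg_left hy2 (show 0 ≤ CC t by linarith only [hCC])
    linarith only [this])
  have d4' : Mono P (S * 2 ^ t) (2 * CC t * y ^ 2) od := d4.mono (by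
    have h3 : CC t * (y * y ^ 2) ≤ CC t * (y * y) :=
      mul_le_mul_of_nonneg_left (mul_le_mul_of_nonneg_left hy2 hy0.le)
        (by linarith only [hCC])
    have e : CC t * (y * (y + y ^ 2)) = CC t * y ^ 2 + CC t * (y * y ^ 2) := by ring
    have e2 : CC t * (y * y) = CC t * y ^ 2 := by ring
    rw [e]; linarith only [h3, e2])
  have c1 := context' hP pVm hc hH hN f1 d3' Ku G' K3 a0 hKu hK3 ha hl hxy
  have c2 := context' hP pVm hc hH hN f2 d4' Ku G' K3 a0 hKu hK3 ha hl hxy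
  rw [← hε0, ← htl, ← hR] at c1 c2
  have hε0' : 0 ≤ ε0 := by rw [hε0]; positivity
  have htl' : 0 ≤ tl := by rw [htl]; positivity
  have hLO : Nrm (Vm ^ G' * LO Vm O' t * Vm ^ G')
      (y * (2 ^ t * (3 / (1 / 2 * √((K2 : ℝ) + 1)))) ^ t) := by
    have := LO_small pVm (by norm_num : (0 : ℝ) < 1 / 2) hVid K2 (hO'.nrm hP) t
    rwa [← hG] at this
  set δ2 := y * (2 ^ t * (3 / (1 / 2 * √((K2 : ℝ) + 1)))) ^ t with hδ2
  have ePR : Vm ^ G' * Vm ^ (2 ^ t) * Vm ^ G' = Vm ^ R := by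
    rw [← pow_add, ← pow_add, hR]; congr 1; ring
  have eXm : win2 t G' Vm Vm Vp = Vm ^ R + Vm ^ G' * ev * Vm ^ G' -
      (Vm ^ G' * LO Vm O' t * Vm ^ G' + Vm ^ G' * od * Vm ^ G') := by
    unfold win2
    rw [d2, ← ePR]; noncomm_ring
  have eXp : win2 t G' Vm Vp Vm = Vm ^ R + Vm ^ G' * ev * Vm ^ G' +
      (Vm ^ G' * LO Vm O' t * Vm ^ G' + Vm ^ G' * od * Vm ^ G') := by
    unfold win2
    rw [d1, ← ePR]; noncomm_ring
  constructor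
  · have a1 := c1.sub ((Small.of_nrm (Vm ^ R) hLO).add c2)
    have e1 : Vm ^ G' * ev * Vm ^ G' -
        (Vm ^ G' * LO Vm O' t * Vm ^ G' + Vm ^ G' * od * Vm ^ G')
        = win2 t G' Vm Vm Vp - Vm ^ R := by
      rw [eXm]; abel
    rw [e1] at a1
    refine a1.mono (pVm.pow R).1 (le_of_eq ?_) (le_of_eq ?_)
    · ring
    · ring
  · have a1 := ((Small.of_nrm (Vm ^ R) hLO).add c2).smul 2
    have e1 : (2 : ℝ) • (Vm ^ G' * LO Vm O' t * Vm ^ G' + Vm ^ G' * od * Vm ^ G')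
        = win2 t G' Vm Vp Vm - win2 t G' Vm Vm Vp := by
      rw [eXm, eXp]; module
    rw [e1] at a1
    refine a1.mono (pVm.pow R).1 (le_of_eq ?_) ?_
    · rw [abs_of_pos (by norm_num : (0 : ℝ) < 2)]; ring
    · rw [abs_of_pos (by norm_num : (0 : ℝ) < 2)]
      have : 0 ≤ 2 * CC t * y * tl := by positivity
      linarith only [this]

theorem round_fin {Vp Vm Up Um : Al G} (pVp : Prob Vp) (pVm : Prob Vm)
    (pUp : Prob Up) (pUm : Prob Um) {mU : ℕ} (hVid : Hid Vm mU (1 / 2))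
    {β1 : ℝ} (n1 : Nrm (Up - Vp) β1) (n2 : Nrm (Um - Vm) β1) (t : ℕ) {G' R : ℕ}
    (hR : R = 2 * G' + 2 ^ t) {ε1 ε2 b B2 : ℝ} (hε10 : 0 ≤ ε1) (hε20 : 0 ≤ ε2)
    (h1 : Small (win2 t G' Vm Vm Vp - Vm ^ R) (Vm ^ R) ε1 b)
    (h2 : Small (win2 t G' Vm Vp Vm - win2 t G' Vm Vm Vp) (Vm ^ R) (2 * ε2) (2 * b))
    (hB2 : B2 = R * β1 + b) (hε1 : ε1 ≤ 1 / 2) (hε2 : ε2 ≤ 1 / 2)
    (m2 K4 : ℕ) (hK4 : K4 * (mU + 1) ≤ R * m2)
    (hX1 : ((m2 : ℝ) + 1) * (ε1 + B2) ^ 2 ≤ 1 / 32) (hX2 : ((m2 : ℝ) + 1) * (2 * B2) ≤ 1 / 12)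
    (hX3 : R * (3 / √(1 / 2 * ((K4 : ℝ) + 1))) ≤ 1 / 3) :
    Hid (win2 t G' Um Um Up) m2 (1 / 2) ∧
    Small (win2 t G' Um Up Um - win2 t G' Um Um Up) (win2 t G' Um Um Up) (4 * ε2) (4 * B2) := by
  set Xp := win2 t G' Um Up Um with hXp
  set Xm := win2 t G' Um Um Up with hXm
  have tU := tm_prob pUp pUm t
  have tV := tm_prob pVp pVm t
  have pXp : Prob Xp := ((pUm.pow G').mul tU.1).mul (pUm.pow G')
  have pXm : Prob Xm := ((pUm.pow G').mul tU.2).mul (pUm.pow G')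
  have tn := tm_nrm pUp pUm pVp pVm n1 n2 t
  have nG := nrm_pow_sub pUm pVm n2 G'
  have eR : (R : ℝ) * β1 = G' * β1 + 2 ^ t * β1 + G' * β1 := by
    rw [hR]; push_cast; ring
  have nXp : Nrm (Xp - win2 t G' Vm Vp Vm) (R * β1) := by
    have := nrm_mul_sub ((pUm.pow G').mul tU.1) (pVm.pow G')
      (nrm_mul_sub (pUm.pow G') tV.1 nG tn.1) nG
    rw [eR]; exact this
  have nXm : Nrm (Xm - win2 t G' Vm Vm Vp) (R * β1) := by
    have := nrm_mul_sub ((pUm.pow G').mul tU.2) (pVm.pow G')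
      (nrm_mul_sub (pUm.pow G') tV.2 nG tn.2) nG
    rw [eR]; exact this
  have hb0 := h1.beta_nonneg
  have hRβ : 0 ≤ (R : ℝ) * β1 := nXp.nonneg
  have hB20 : 0 ≤ B2 := by rw [hB2]; positivity
  have i1 : Small (Xm - Vm ^ R) (Vm ^ R) ε1 B2 := by
    have a1 := (Small.of_nrm (Vm ^ R) nXm).add h1
    have e1 : Xm - win2 t G' Vm Vm Vp + (win2 t G' Vm Vm Vp - Vm ^ R) = Xm - Vm ^ R := by
      abel
    rw [e1, zero_add, ← hB2] at a1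
    exact a1
  have i2 : Small (Xp - Xm) (Vm ^ R) (2 * ε2) (2 * B2) := by
    have a2 := ((Small.of_nrm (Vm ^ R) nXp).sub (Small.of_nrm (Vm ^ R) nXm)).add h2
    have e1 : Xp - win2 t G' Vm Vp Vm - (Xm - win2 t G' Vm Vm Vp) +
        (win2 t G' Vm Vp Vm - win2 t G' Vm Vm Vp) = Xp - Xm := by
      abel
    rw [e1] at a2
    refine a2.mono (pVm.pow R).1 (le_of_eq (by ring)) (le_of_eq ?_)
    rw [hB2]; ring
  have i3 : Small (Xp - Xm) Xm (4 * ε2) (4 * B2) := by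
    obtain ⟨ω, w1, w2, w3⟩ := i1
    have a1 : Nn ((2 : ℝ) • Xm + (2 : ℝ) • ω - Vm ^ R) := by
      have h3 := (w3.2.smul (show (0 : ℝ) ≤ 2 by norm_num)).add
        ((pVm.pow R).1.smul (show 0 ≤ 1 - 2 * ε1 by linarith only [hε1]))
      convert h3 using 1
      module
    have a2 := i2.ref (P' := Xm) (π := (2 : ℝ) • ω) (c := 2) (b := 2 * B2) (by positivity)
      (w1.smul (by norm_num)) (by rw [map_smul, smul_eq_mul]; linarith only [w2]) a1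
    refine a2.mono pXm.1 (le_of_eq (by ring)) ?_
    have : ε2 * B2 ≤ 1 / 2 * B2 := mul_le_mul_of_nonneg_right hε2 hB20
    linarith only [this]
  exact ⟨hide pVm pXm (by norm_num) hVid hε10 i1 m2 K4 hK4 hX1 hX2 hX3, i3⟩

/-- One round of the amplification. -/
theorem round {P Qp Qm : Al G} (hP : Prob P) (hQp : Prob Qp) (hQm : Prob Qm) {m : ℕ} {c : ℝ}
    (hc : 0 < c) (hH : Hid P m c) {o e β : ℝ} (ho : 0 < o) (he : 0 ≤ e)
    (hO : Small ((1 / 2 : ℝ) • (Qp - Qm)) P o β)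
    (hE : Small ((1 / 2 : ℝ) • (Qp + Qm) - P) P e β) (h1 : (o + β) + (e + β) ≤ 1)
    (t K0 : ℕ) {g S : ℕ} (hg : g = t * (K0 * (m + 1))) (hS : S = 2 * g + 2 ^ t) {x y : ℝ}
    (hx : x = CC t * ((e + β) + (o + β) ^ 2))
    (hy : y = CC t * ((o + β) * ((e + β) + (o + β) ^ 2)))
    {β1 : ℝ} (hβ1 : β1 = 2 ^ t * (4 * β) + (o + β) * (2 ^ t * (3 / (c * √((K0 : ℝ) + 1)))) ^ t)
    -- hiding of the windows
    (mU K1 : ℕ) (hK1 : K1 * (m + 1) ≤ S * mU) (hU1 : ((mU : ℝ) + 1) * (x + y) ^ 2 ≤ 1 / 32)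
    (hU2 : S * (3 / √(c * ((K1 : ℝ) + 1))) ≤ 1 / 3)
    -- second level
    (K2 : ℕ) {G' R : ℕ} (hG : G' = t * (K2 * (mU + 1))) (hR : R = 2 * G' + 2 ^ t)
    (Ku K3 a0 : ℕ) (hKu : Ku ≤ G') (hK3 : K3 * (m + 1) ≤ S * Ku)
    (ha : 2 * (a0 : ℝ) ≤ c ^ 2 * K3) {l : ℝ} (hl : 0 ≤ l)
    (hxy : ((2 * Ku + 2 ^ t : ℕ) : ℝ) * (x + y) ≤ 1 / 2)
    {ε0 ε1 tl B2 : ℝ} (hε0 : ε0 = 2 * (l * √(12 / √((a0 : ℝ) + 1)) + 6 * (Ku * (x + y))))
    (hε1 : ε1 = (2 * CC t * y + 2 * CC t * y ^ 2) * ε0)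
    (htl : tl = 4 * (2 * Real.exp (-(l ^ 2 / 2)) + Real.exp (-(c ^ 2 * K3 / 8))))
    (hB2 : B2 = R * β1 + (y * (2 ^ t * (3 / (1 / 2 * √((K2 : ℝ) + 1)))) ^ t
      + (2 * CC t * y + 2 * CC t * y ^ 2) * tl))
    (hε1' : ε1 ≤ 1 / 2)
    -- hiding of the new window
    (m2 K4 : ℕ) (hK4 : K4 * (mU + 1) ≤ R * m2)
    (hX1 : ((m2 : ℝ) + 1) * (ε1 + B2) ^ 2 ≤ 1 / 32) (hX2 : ((m2 : ℝ) + 1) * (2 * B2) ≤ 1 / 12)
    (hX3 : R * (3 / √(1 / 2 * ((K4 : ℝ) + 1))) ≤ 1 / 3) :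
    Hid (win2 t G' (win2 t g P Qm Qp) (win2 t g P Qm Qp) (win2 t g P Qp Qm)) m2 (1 / 2) ∧
    Small (win2 t G' (win2 t g P Qm Qp) (win2 t g P Qp Qm) (win2 t g P Qm Qp)
      - win2 t G' (win2 t g P Qm Qp) (win2 t g P Qm Qp) (win2 t g P Qp Qm))
      (win2 t G' (win2 t g P Qm Qp) (win2 t g P Qm Qp) (win2 t g P Qp Qm))
      (4 * (2 * CC t * y ^ 2 * ε0)) (4 * B2) := by
  have hβ := hO.beta_nonneg
  have hCC := CC_ge_one t
  have ho0 : 0 < o + β := by positivity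
  have he0 : 0 ≤ e + β := by positivity
  have hx0 : 0 ≤ x := by rw [hx]; positivity
  have hy0 : 0 < y := by rw [hy]; positivity
  have h2t : (1 : ℝ) ≤ ((2 ^ t : ℕ) : ℝ) := by
    have := Nat.one_le_two_pow (n := t)
    exact_mod_cast this
  have hxy1 : x + y ≤ 1 / 2 := by
    push_cast at hxy h2t
    have h3 : 0 ≤ 2 * (Ku : ℝ) * (x + y) := by positivity
    have h4 : 1 * (x + y) ≤ 2 ^ t * (x + y) :=
      mul_le_mul_of_nonneg_right h2t (by positivity)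
    linarith only [hxy, h3, h4]
  have hyy : y ≤ 1 := by linarith only [hxy1, hx0]
  obtain ⟨Vp, Vm, O', pVp, pVm, hV, hO', hN, n1, n2⟩ :=
    level1 hP hQp hQm hc hH ho.le he hO hE h1 t K0 hg hS hx hy (by linarith only [hxy1])
  rw [← hβ1] at n1 n2
  have hVid : Hid Vm mU (1 / 2) := by
    refine hide hP pVm hc hH (η := x + y) (β := 0) (by positivity)
      (Small.of_ab (Mono.ab hP hN)) mU K1 hK1 ?_ (by norm_num) hU2
    rw [add_zero]; exact hU1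
  have hl2 := level2 hP pVm hc hH hVid hV hO' hN hy0 hyy t K2 hG hR Ku K3 a0 hKu hK3 ha hl hxy
    hε0 htl
  have hε0' : 0 ≤ ε0 := by rw [hε0]; positivity
  have hε1'' : 0 ≤ ε1 := by rw [hε1]; positivity
  have hf2e : 2 * CC t * y ^ 2 * ε0 ≤ 1 / 2 := by
    have h4 : 0 ≤ 2 * CC t * y * ε0 := by positivity
    have h3 : ε1 = 2 * CC t * y * ε0 + 2 * CC t * y ^ 2 * ε0 := by rw [hε1]; ring
    linarith only [h3, h4, hε1']
  rw [← hε1] at hl2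
  have pUp : Prob (win2 t g P Qp Qm) := ((hP.pow g).mul (tm_prob hQp hQm t).1).mul (hP.pow g)
  have pUm : Prob (win2 t g P Qm Qp) := ((hP.pow g).mul (tm_prob hQp hQm t).2).mul (hP.pow g)
  exact round_fin pVp pVm pUp pUm hVid n1 n2 t hR hε1'' (by positivity) hl2.1 hl2.2 hB2 hε1'
    hf2e m2 K4 hK4 hX1 hX2 hX3

end

end Vale.Agent.P321.SP
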