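import Vale.Agent.Lib.P321.SP.Coef

/-!
P321, superpolynomial lower bound: smoothing by mixing.
-/

namespace Vale.Agent.P321.SP

open Finset

section

variable {G : Type} [Monoid G]

/-- Commutator with `P`. -/
noncomputable def Dc (P x : Al G) : Al G := P * x - x * P

theorem cf_sum_diff (r a : ℕ) (g : ℕ → Al G) :
    ∑ i ∈ range (a + r + 1), cf r a i • (g i - g (i + 1))
      = ∑ i ∈ range (a + (r + 1) + 1), cf (r + 1) a i • g i := by
  rw [show a + (r + 1) + 1 = (a + r + 1) + 1 by ring,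
    Finset.sum_range_succ' (fun i => cf (r + 1) a i • g i)]
  have h1 : ∑ i ∈ range (a + r + 1), cf (r + 1) a (i + 1) • g (i + 1)
      = ∑ i ∈ range (a + r + 1), cf r a (i + 1) • g (i + 1)
        - ∑ i ∈ range (a + r + 1), cf r a i • g (i + 1) := by
    rw [← Finset.sum_sub_distrib]
    exact Finset.sum_congr rfl fun i _ => by simp only [cf]; rw [sub_smul]
  have h2 : ∑ i ∈ range (a + r + 1), cf r a (i + 1) • g (i + 1) + cf r a 0 • g 0
      = ∑ i ∈ range (a + r + 1), cf r a i • g i := by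
    rw [← Finset.sum_range_succ' (fun i => cf r a i • g i), Finset.sum_range_succ,
      cf_big r a (a + r + 1) (by omega), zero_smul, add_zero]
  have h3 : cf (r + 1) a 0 = cf r a 0 := rfl
  rw [h1, h3, sub_add_eq_add_sub, h2, ← Finset.sum_sub_distrib]
  exact Finset.sum_congr rfl fun i _ => by rw [smul_sub]

theorem Av_comm (P : Al G) (r : ℕ) : ∀ (x : Al G) (K a j : ℕ), a + j ≤ K →
    Av^[a] (fun i => P ^ (K - i) * ((Dc P)^[r] x) * P ^ i) j
      = ∑ i ∈ range (a + r + 1), cf r a i • (P ^ (K + r - (j + i)) * x * P ^ (j + i)) := by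
  induction r with
  | zero =>
    intro x K a j _
    rw [Av_iter]
    rfl
  | succ r ih =>
    intro x K a j haj
    rw [Function.iterate_succ_apply, ih (Dc P x) K a j haj,
      ← cf_sum_diff r a (fun i => P ^ (K + (r + 1) - (j + i)) * x * P ^ (j + i))]
    refine Finset.sum_congr rfl fun i hi => ?_
    congr 1
    have hi' : i < a + r + 1 := Finset.mem_range.mp hi
    have e1 : K + (r + 1) - (j + i) = K + r - (j + i) + 1 := by omega
    have e2 : K + (r + 1) - (j + (i + 1)) = K + r - (j + i) := by omega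
    rw [e1, e2, pow_succ P (K + r - (j + i)), show j + (i + 1) = j + i + 1 by ring, pow_succ' P (j + i)]
    unfold Dc
    noncomm_ring

theorem Nrm.of_small {x P : Al G} {β : ℝ} (h : Small x P 0 β) : Nrm x β := by
  obtain ⟨ω, _, h2, h3⟩ := h
  exact ⟨ω, by simpa using h3, h2⟩

/-- (S): a shift of `x` by one block costs `3 b / (c √(K + 1))`. -/
theorem smooth2 {P : Al G} (hP : Prob P) {m : ℕ} {c : ℝ} (hc : 0 < c) (hH : Hid P m c) (K : ℕ)
    {x : Al G} {b : ℝ} (hx : Nrm x b) :
    Nrm (P ^ (K * (m + 1)) * Dc P x * P ^ (K * (m + 1))) (3 * b / (c * √((K : ℝ) + 1))) := by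
  have hb := hx.nonneg
  have hc1 := hH.le_one hP
  have h1 : ∀ a r, a + r ≤ K → Small (Av^[a] (fun i => P ^ (K - i) * Dc P x * P ^ i) r)
      (Av^[a] (fun i => P ^ (K - i) * (0 : Al G) * P ^ i) r) 0 (b * (2 / √((a : ℝ) + 1))) := by
    intro a r har
    apply Small.of_nrm
    have e := Av_comm P 1 x K a r har
    rw [Function.iterate_one] at e
    rw [e]
    have h2 : Nrm (∑ i ∈ range (a + 1 + 1), cf 1 a i • (P ^ (K + 1 - (r + i)) * x * P ^ (r + i)))
        (∑ i ∈ range (a + 1 + 1), |cf 1 a i| * b) := by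
      refine Nrm.sum _ fun i _ => Nrm.smul ?_ _
      have := ((hP.pow (K + 1 - (r + i))).nrm.mul hx).mul (hP.pow (r + i)).nrm
      simpa using this
    refine h2.mono ?_
    rw [← Finset.sum_mul, mul_comm]
    exact mul_le_mul_of_nonneg_left (cf_one_abs_sum a _) hb
  have h2 := (mix2 hP hc.le hH K (Dc P x) 0 0 _ h1)
  refine (Nrm.of_small h2).mono ?_
  have h3 := binE_lin (c ^ 2) K b 0 (fun a : ℕ => 2 / √((a : ℝ) + 1)) (fun _ => 0)
  simp only [mul_zero, add_zero, zero_mul] at h3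
  rw [h3]
  have h4 := binE_sqrt (c := c ^ 2) (by positivity) (by nlinarith) K
  have h5 : √(c ^ 2 * ((K : ℝ) + 1)) = c * √((K : ℝ) + 1) := by
    rw [Real.sqrt_mul (sq_nonneg c), Real.sqrt_sq hc.le]
  rw [h5] at h4
  calc b * binE (c ^ 2) K (fun a : ℕ => 2 / √((a : ℝ) + 1)) ≤ b * (3 / (c * √((K : ℝ) + 1))) :=
        mul_le_mul_of_nonneg_left h4 hb
    _ = _ := by ring

/-- (S1): one sided version. -/
theorem smooth1 {P : Al G} (hP : Prob P) {m : ℕ} {c : ℝ} (hc : 0 < c) (hH : Hid P m c) (K : ℕ) :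
    Nrm (P ^ (K * (m + 1)) * (P - 1)) (3 / √(c * ((K : ℝ) + 1))) := by
  have hc1 := hH.le_one hP
  have h1 : ∀ a r, a + r ≤ K → Small (Av^[a] (fun i => P ^ (K - i) * (P - 1)) r)
      (Av^[a] (fun i => P ^ (K - i) * (0 : Al G)) r) 0 (2 / √((a : ℝ) + 1)) := by
    intro a r har
    apply Small.of_nrm
    have e : Av^[a] (fun i => P ^ (K - i) * (P - 1)) r
        = ∑ i ∈ range (a + 1 + 1), cf 1 a i • P ^ (K + 1 - (r + i)) := by
      rw [Av_iter]
      have := cf_sum_diff 0 a (fun i => P ^ (K + 1 - (r + i)))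
      rw [show a + (0 + 1) + 1 = a + 1 + 1 by ring] at this
      rw [← this]
      refine Finset.sum_congr rfl fun i hi => ?_
      have hi' : i < a + 1 := Finset.mem_range.mp hi
      have e1 : K + 1 - (r + i) = K - (r + i) + 1 := by omega
      have e2 : K + 1 - (r + (i + 1)) = K - (r + i) := by omega
      rw [e1, e2, pow_succ]
      congr 1
      rw [mul_sub, mul_one]
    rw [e]
    have h2 : Nrm (∑ i ∈ range (a + 1 + 1), cf 1 a i • P ^ (K + 1 - (r + i)))
        (∑ i ∈ range (a + 1 + 1), |cf 1 a i| * 1) := by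
      refine Nrm.sum _ fun i _ => Nrm.smul ?_ _
      exact (hP.pow _).nrm
    refine h2.mono ?_
    rw [← Finset.sum_mul, mul_one]
    exact cf_one_abs_sum a _
  have h2 := (mix1 hP hc.le hH K (P - 1) 0 0 _ h1)
  exact (Nrm.of_small h2).mono (binE_sqrt hc hc1 K)

theorem smooth1' {P : Al G} (hP : Prob P) {m : ℕ} {c : ℝ} (hc : 0 < c) (hH : Hid P m c) (K : ℕ)
    (X N : ℕ) (hX : K * (m + 1) ≤ X) :
    Nrm (P ^ (X + N) - P ^ X) (N * (3 / √(c * ((K : ℝ) + 1)))) := by
  induction N with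
  | zero => simpa using Nrm.zero
  | succ N ih =>
    have h1 : P ^ (X + (N + 1)) - P ^ X = P ^ (X + N - K * (m + 1)) *
        (P ^ (K * (m + 1)) * (P - 1)) + (P ^ (X + N) - P ^ X) := by
      rw [← mul_assoc, ← pow_add, Nat.sub_add_cancel (by omega), mul_sub, mul_one, ← pow_succ,
        show X + (N + 1) = X + N + 1 by ring]
      noncomm_ring
    rw [h1]
    have := ((hP.pow (X + N - K * (m + 1))).nrm.mul (smooth1 hP hc hH K)).add ih
    refine this.mono (le_of_eq ?_)
    push_cast; ring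

/-- Shifting by many blocks. -/
theorem Dc_pow (P x : Al G) (a : ℕ) :
    P ^ a * x - x * P ^ a = ∑ i ∈ range a, P ^ i * Dc P x * P ^ (a - 1 - i) := by
  induction a with
  | zero => simp
  | succ a ih =>
    rw [Finset.sum_range_succ]
    have h1 : ∑ i ∈ range a, P ^ i * Dc P x * P ^ (a + 1 - 1 - i)
        = (∑ i ∈ range a, P ^ i * Dc P x * P ^ (a - 1 - i)) * P := by
      rw [Finset.sum_mul]
      refine Finset.sum_congr rfl fun i hi => ?_
      have hi' : i < a := Finset.mem_range.mp hi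
      rw [show a + 1 - 1 - i = a - 1 - i + 1 by omega, pow_succ]
      noncomm_ring
    rw [h1, ← ih]
    simp only [Nat.add_sub_cancel, Nat.sub_self, pow_zero, mul_one, Dc]
    rw [pow_succ]
    noncomm_ring

/-- The iterated Thue-Morse difference `∏_{i < t} (R^{2^i} - L^{2^i}) x` for `L`, `R` the
multiplications by `P` on the left and on the right. -/
noncomputable def LO (P x : Al G) : ℕ → Al G
  | 0 => x
  | t + 1 => LO P x t * P ^ (2 ^ t) - P ^ (2 ^ t) * LO P x t

/-- First order Thue-Morse differences are tiny. -/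
theorem LO_small {P : Al G} (hP : Prob P) {m : ℕ} {c : ℝ} (hc : 0 < c) (hH : Hid P m c) (K : ℕ)
    {x : Al G} {b : ℝ} (hx : Nrm x b) (t : ℕ) :
    Nrm (P ^ (t * (K * (m + 1))) * LO P x t * P ^ (t * (K * (m + 1))))
      (b * (2 ^ t * (3 / (c * √((K : ℝ) + 1)))) ^ t) := by
  have hb := hx.nonneg
  set e := 3 / (c * √((K : ℝ) + 1)) with he
  have he0 : 0 < e := by positivity
  have key : ∀ s ≤ t, Nrm (P ^ (s * (K * (m + 1))) * LO P x s * P ^ (s * (K * (m + 1))))
      (b * (2 ^ t * e) ^ s) := by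
    intro s
    induction s with
    | zero => intro _; simpa [LO] using hx
    | succ s ih =>
      intro hs
      have ih' := ih (by omega)
      set κ := K * (m + 1) with hκ
      have h0 : P ^ ((s + 1) * κ) * LO P x (s + 1) * P ^ ((s + 1) * κ)
          = -(P ^ κ * (P ^ (2 ^ s) * (P ^ (s * κ) * LO P x s * P ^ (s * κ))
              - (P ^ (s * κ) * LO P x s * P ^ (s * κ)) * P ^ (2 ^ s)) * P ^ κ) := by
        simp only [LO]
        have e1 : P ^ ((s + 1) * κ) * P ^ 2 ^ s = P ^ κ * (P ^ (2 ^ s) * P ^ (s * κ)) := by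
          rw [← pow_add, ← pow_add, ← pow_add]; congr 1; ring
        have e2 : P ^ 2 ^ s * P ^ ((s + 1) * κ) = P ^ (s * κ) * P ^ (2 ^ s) * P ^ κ := by
          rw [← pow_add, ← pow_add, ← pow_add]; congr 1; ring
        have e3 : P ^ ((s + 1) * κ) = P ^ κ * P ^ (s * κ) := by rw [← pow_add]; congr 1; ring
        have e4 : P ^ ((s + 1) * κ) = P ^ (s * κ) * P ^ κ := by rw [← pow_add]; congr 1; ring
        calc P ^ ((s + 1) * κ) * (LO P x s * P ^ 2 ^ s - P ^ 2 ^ s * LO P x s) * P ^ ((s + 1) * κ)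
            = P ^ ((s + 1) * κ) * LO P x s * (P ^ 2 ^ s * P ^ ((s + 1) * κ))
              - (P ^ ((s + 1) * κ) * P ^ 2 ^ s) * LO P x s * P ^ ((s + 1) * κ) := by noncomm_ring
          _ = P ^ κ * P ^ (s * κ) * LO P x s * (P ^ (s * κ) * P ^ (2 ^ s) * P ^ κ)
              - (P ^ κ * (P ^ (2 ^ s) * P ^ (s * κ))) * LO P x s * (P ^ (s * κ) * P ^ κ) := by
                rw [e2, e1]
                congr 1
                · rw [e3]
                · rw [e4]
          _ = _ := by noncomm_ring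
      rw [h0, Dc_pow, Finset.mul_sum, Finset.sum_mul]
      apply Nrm.neg
      have h1 := smooth2 hP hc hH K ih'
      have h2 : Nrm (∑ i ∈ range (2 ^ s), P ^ κ * (P ^ i *
          Dc P (P ^ (s * κ) * LO P x s * P ^ (s * κ)) * P ^ (2 ^ s - 1 - i)) * P ^ κ)
          (∑ i ∈ range (2 ^ s), 3 * (b * (2 ^ t * e) ^ s) / (c * √((K : ℝ) + 1))) := by
        refine Nrm.sum _ fun i _ => ?_
        have e5 : P ^ κ * (P ^ i * Dc P (P ^ (s * κ) * LO P x s * P ^ (s * κ))
            * P ^ (2 ^ s - 1 - i)) * P ^ κ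
            = P ^ i * (P ^ κ * Dc P (P ^ (s * κ) * LO P x s * P ^ (s * κ)) * P ^ κ)
              * P ^ (2 ^ s - 1 - i) := by
          have f1 : P ^ κ * P ^ i = P ^ i * P ^ κ := by rw [← pow_add, ← pow_add, add_comm]
          have f2 : P ^ (2 ^ s - 1 - i) * P ^ κ = P ^ κ * P ^ (2 ^ s - 1 - i) := by
            rw [← pow_add, ← pow_add, add_comm]
          calc _ = (P ^ κ * P ^ i) * Dc P (P ^ (s * κ) * LO P x s * P ^ (s * κ))
                * (P ^ (2 ^ s - 1 - i) * P ^ κ) := by noncomm_ring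
            _ = (P ^ i * P ^ κ) * Dc P (P ^ (s * κ) * LO P x s * P ^ (s * κ))
                * (P ^ κ * P ^ (2 ^ s - 1 - i)) := by rw [f1, f2]
            _ = _ := by noncomm_ring
        rw [e5]
        have := ((hP.pow i).nrm.mul h1).mul (hP.pow (2 ^ s - 1 - i)).nrm
        simpa using this
      refine h2.mono ?_
      rw [Finset.sum_const, card_range, nsmul_eq_mul, pow_succ (2 ^ t * e) s]
      have h3 : ((2 ^ s : ℕ) : ℝ) ≤ 2 ^ t := by
        push_cast
        exact pow_le_pow_right₀ (by norm_num) (by omega)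
      have h4 : 3 * (b * (2 ^ t * e) ^ s) / (c * √((K : ℝ) + 1)) = b * (2 ^ t * e) ^ s * e := by
        rw [he]; ring
      rw [h4]
      have h5 : 0 ≤ b * (2 ^ t * e) ^ s * e := by positivity
      calc ((2 ^ s : ℕ) : ℝ) * (b * (2 ^ t * e) ^ s * e) ≤ 2 ^ t * (b * (2 ^ t * e) ^ s * e) :=
            mul_le_mul_of_nonneg_right h3 h5
        _ = _ := by ring
  exact key t le_rfl

end

end Vale.Agent.P321.SP
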