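import Vale.Agent.Lib.P321.SP.Law
import Vale.Agent.Lib.P321.SP.Round2

/-!
P321, superpolynomial lower bound: the words used in one round.
-/

namespace Vale.Agent.P321.SP

open Finset

theorem tm_map {M N : Type} [Monoid M] [Monoid N] (f : M →* N) (t : ℕ) (a b : M) :
    f (tm t a b) = tm t (f a) (f b) ∧ f (tm t b a) = tm t (f b) (f a) := by
  induction t with
  | zero => exact ⟨rfl, rfl⟩
  | succ t ih => simp only [tm, map_mul, ih.1, ih.2, and_self]

theorem win2_map {M N : Type} [Monoid M] [Monoid N] (f : M →* N) (t g : ℕ) (p a b : M) :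
    f (win2 t g p a b) = win2 t g (f p) (f a) (f b) := by
  unfold win2
  rw [map_mul, map_mul, map_pow, (tm_map f t a b).1]

theorem tm_length (t : ℕ) {a b : Bw} {L : ℕ} (ha : a.length = L) (hb : b.length = L) :
    (tm t a b).length = 2 ^ t * L ∧ (tm t b a).length = 2 ^ t * L := by
  induction t with
  | zero => simpa [tm] using ⟨ha, hb⟩
  | succ t ih =>
    simp only [tm, FreeMonoid.length_mul, ih.1, ih.2, pow_succ]
    constructor <;> ring

theorem win2_length (t g : ℕ) {p a b : Bw} {L : ℕ} (hp : p.length = L) (ha : a.length = L)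
    (hb : b.length = L) : (win2 t g p a b).length = (2 * g + 2 ^ t) * L := by
  unfold win2
  rw [FreeMonoid.length_mul, FreeMonoid.length_mul, length_pow, (tm_length t ha hb).1, hp]
  ring

theorem mul_inj_of_length {a b c d : Bw} (h : a * b = c * d) (hl : a.length = c.length) :
    a = c := by
  have h1 : FreeMonoid.toList a ++ FreeMonoid.toList b
      = FreeMonoid.toList c ++ FreeMonoid.toList d := by
    rw [← FreeMonoid.toList_mul, ← FreeMonoid.toList_mul, h]
  have h2 := List.append_inj_left h1 hl
  exact FreeMonoid.toList.injective h2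

theorem tm_ne (t : ℕ) {a b : Bw} (hl : a.length = b.length) (h : a ≠ b) :
    tm t a b ≠ tm t b a := by
  induction t with
  | zero => exact h
  | succ t ih =>
    intro h1
    simp only [tm] at h1
    exact ih (mul_inj_of_length h1 (by
      rw [(tm_length t hl rfl).1, (tm_length t hl rfl).2]))

theorem win2_ne (t g : ℕ) {p a b : Bw} (hl : a.length = b.length) (h : a ≠ b) :
    win2 t g p a b ≠ win2 t g p b a := by
  intro h1
  unfold win2 at h1
  exact tm_ne t hl h (mul_left_cancel (mul_right_cancel h1))

end Vale.Agent.P321.SP
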